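import Vale.Agent.P150.Fast.Amp.Stmt
import Vale.Agent.P150.Fast.Path

/-!
The event for the centres above the switch (P150): the AMP iterate nearly solves the TAP equation,
and it carries the margin or its overlap is close to an end of the unit interval.
-/

open Real Finset

namespace Vale.Agent.P150.Fast.StepC

variable {n : ℕ}

/-- The coupling and the field at which the iterate is usable as a centre. -/
def AmpGood (n : ℕ) (β η θ σ a₀ a₁ ε : ℝ) (J : ℕ) (u : ℝ) :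
    Set ((Fin n → Fin n → ℝ) × (Fin n → ℝ)) :=
  {p | ∑ i, fieldRes p.1 p.2 (β ^ 2) (ampA p.1 (β ^ 2) u p.2 J) i ^ 2 ≤ ε ^ 2 * n ∧
    (BallMargin p.1 (β ^ 2) η θ σ (fun i => tanh (ampA p.1 (β ^ 2) u p.2 J i)) ∨
      β ^ 2 * ((∑ i, tanh (ampA p.1 (β ^ 2) u p.2 J i) ^ 2) / n) ≤ a₀ ∨
      1 - a₁ ≤ (∑ i, tanh (ampA p.1 (β ^ 2) u p.2 J i) ^ 2) / n)}

/-- With high probability over the disorder, the iterate is usable at every mesh strength up to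
`U`, outside exponentially small events of the field under the Gibbs measure. -/
def AmpEventStmt : Prop :=
  ∀ β : ℝ, 0 ≤ β → β < 1 → ∀ a₀ a₁ : ℝ, 0 < a₀ → 0 < a₁ → ∃ η θ σ : ℝ, 0 < η ∧ 0 < θ ∧ 0 < σ ∧
    ∀ ε : ℝ, 0 < ε → ∀ U : ℕ, ∃ J₀ : ℕ, ∀ J, J₀ ≤ J → ∃ γ : ℝ, 0 < γ ∧ ∀ δ : ℝ, 0 < δ →
      ∀ᶠ n : ℕ in Filter.atTop, ∀ N : ℕ, 1 ≤ N → (N : ℝ) ≤ exp (γ * n) →
        (disX n).real {d | ¬ ∀ i, i ≤ U * N ^ 2 → ∑ x, mu n β (offd d) x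
          * (gp (Fin n)).real {g | (((kmat n β d : Matrix (Fin n) (Fin n) ℝ) : Fin n → Fin n → ℝ),
              sideField ((i : ℝ) / (N : ℝ) ^ 2) x g) ∉ AmpGood n β η θ σ a₀ a₁ ε J ((i : ℝ) / (N : ℝ) ^ 2)}
            ≤ exp (-(γ * n))} ≤ δ

end Vale.Agent.P150.Fast.StepC
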