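import Vale.Agent.P150.Fast.Amp.RootMain
import Vale.Agent.P150.Fast.Amp.StateEvo
import Vale.Agent.P150.Fast.GoeNorm
import Vale.Agent.P150.Fast.Quench.Main
import Vale.Agent.P150.Fast.Step.AmpGood

/-!
The event for the centres above the switch, from the transfer (P150): in the planted model the
iterate is a usable centre at every strength up to `U`; the event is closed and gauge invariant,
so the bound passes to the Gibbs measure.
-/

open MeasureTheory ProbabilityTheory Real Finset Filter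

namespace Vale.Agent.P150.Fast.StepC

open Entropy

variable {n : ℕ}

theorem one_sub_tanh_sq_le_exp (x : ℝ) : 1 - tanh x ^ 2 ≤ 2 * exp (-x) := by
  have hc := cosh_pos x
  have e : 1 - tanh x ^ 2 = 1 / cosh x ^ 2 := by
    rw [tanh_eq_sinh_div_cosh]; field_simp; rw [cosh_sq_sub_sinh_sq]
  have h1 : exp x / 2 ≤ cosh x := by rw [cosh_eq]; linarith [exp_pos (-x)]
  have h2 : 1 ≤ cosh x := one_le_cosh x
  rw [e, div_le_iff₀ (by positivity)]
  have h3 : exp (-x) * exp x = 1 := by rw [← exp_add]; simp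
  linarith [exp_pos (-x), mul_le_mul_of_nonneg_left h1 (exp_pos (-x)).le,
    mul_le_mul_of_nonneg_left h2 (mul_nonneg (exp_pos (-x)).le hc.le)]

theorem one_sub_psi_le {u : ℝ} (hu : 0 ≤ u) : 1 - psi u ≤ 2 * exp (-(u / 2)) := by
  rw [one_sub_psi, nE]
  have hm : ∫ g, exp (-√u * g) ∂gaussianReal 0 1 = exp (u / 2) := by
    have := congrFun (mgf_id_gaussianReal (μ := 0) (v := 1)) (-√u)
    simpa [mgf, sq_sqrt hu] using this
  refine (integral_mono_of_nonneg (ae_of_all _ fun g => sub_nonneg.2 (tanh_sq_le _))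
    ((integrable_exp_mul_gaussianReal (-√u)).const_mul (2 * exp (-u)))
    (ae_of_all _ fun g => ?_)).trans_eq ?_
  · refine (one_sub_tanh_sq_le_exp _).trans_eq ?_
    simp only [neg_add, exp_add, neg_mul]; ring
  · rw [integral_const_mul, hm, mul_assoc, ← exp_add]; ring_nf

theorem exists_psi_top {δ : ℝ} (hδ : 0 < δ) : ∃ U₀ : ℝ, 0 ≤ U₀ ∧ ∀ u, U₀ ≤ u → 1 - δ ≤ psi u := by
  refine ⟨4 / δ, by positivity, fun u hu => ?_⟩
  have hu0 : 0 < u := lt_of_lt_of_le (by positivity) hu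
  have h := one_sub_psi_le hu0.le
  have h2 : exp (-(u / 2)) ≤ δ / 2 := by
    rw [exp_neg, inv_le_comm₀ (exp_pos _) (by positivity), inv_div]
    have : 2 / δ ≤ u / 2 := by
      rw [show 2 / δ = (4 / δ) / 2 by ring]; linarith
    linarith [add_one_le_exp (u / 2)]
  linarith

theorem abs_tanh_sq_sub (x y : ℝ) : |tanh x ^ 2 - tanh y ^ 2| ≤ 2 * |x - y| := by
  rw [sq_sub_sq, abs_mul]
  exact mul_le_mul ((abs_add_le _ _).trans (by linarith [abs_tanh_lt_one x, abs_tanh_lt_one y]))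
    (abs_tanh_sub_le x y) (abs_nonneg _) zero_le_two

/-- **The planted bound.** -/
theorem ampPlanted (hT : TransferStmt) {β : ℝ} (hβ : 0 ≤ β) (hβ1 : β < 1) {a₀ a₁ : ℝ} (ha₀ : 0 < a₀)
    (ha₁ : 0 < a₁) : ∃ η θ σ : ℝ, 0 < η ∧ 0 < θ ∧ 0 < σ ∧ ∀ ε : ℝ, 0 < ε → ∀ U : ℝ, ∃ J₀ : ℕ,
      ∀ J, J₀ ≤ J → ∃ γ : ℝ, 0 < γ ∧ ∀ᶠ n : ℕ in atTop, ∀ u : ℝ, 0 ≤ u → u ≤ U →
        ((disX n).prod (gp (Fin n))).real {p | ((plantK n β p.1 : Fin n → Fin n → ℝ), plantH u p.2)
          ∉ AmpGood n β η θ σ a₀ a₁ ε J u} ≤ exp (-(γ * n)) := by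
  rcases hβ.eq_or_lt with rfl | hβ0
  · refine ⟨1, 1, 1, one_pos, one_pos, one_pos, fun ε hε U => ?_⟩
    obtain ⟨J₀, hJ⟩ := stateEvo 0 le_rfl zero_lt_one U ε 0 hε
    refine ⟨J₀, fun J hJJ => ?_⟩
    obtain ⟨γ, hγ, hev⟩ := hJ J hJJ
    refine ⟨γ, hγ, hev.mono fun n hn u hu huU => ?_⟩
    refine le_trans (measureReal_mono fun p hp => ?_) (hn u hu huU).1
    by_contra hc
    refine hp ⟨not_lt.1 hc, Or.inr (Or.inl ?_)⟩
    simp [ha₀.le]
  set t := β ^ 2 with ht
  have ht0 : 0 < t := pow_pos hβ0 2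
  have ht1 : t < 1 := by rw [ht]; exact pow_lt_one₀ hβ hβ1 two_ne_zero
  set a := min (min a₀ a₁) 1
  have ha : 0 < a := lt_min (lt_min ha₀ ha₁) one_pos
  have hδ : 0 < a / 2 := half_pos ha
  obtain ⟨U₀, hU₀, hpsi⟩ := exists_psi_top (half_pos hδ)
  obtain ⟨η, θ, σ, εT, γT, hη, hθ, hσ, hεT, hγT, hTev⟩ := hT β hβ0 hβ1 (a / 2) hδ U₀
  refine ⟨η, θ, σ, hη, hθ, hσ, fun ε hε U => ?_⟩
  set ε₁ := min ε (a / 4)
  have hε₁ : 0 < ε₁ := lt_min hε (by linarith)
  obtain ⟨J₁, hJ₁⟩ := stateEvo β hβ hβ1 U ε₁ 2 hε₁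
  obtain ⟨J₂, hJ₂⟩ := ampRootThm stateEvo β hβ0 hβ1 (a / 2) hδ U₀ (min ε εT) (lt_min hε hεT)
  obtain ⟨J₃, hJ₃⟩ := exists_pow_lt_of_lt_one (show 0 < a / 4 by linarith) ht1
  refine ⟨max (max J₁ J₂) (max J₃ 1), fun J hJ => ?_⟩
  simp only [max_le_iff] at hJ
  obtain ⟨γ₁, hγ₁, hev₁⟩ := hJ₁ J hJ.1.1
  obtain ⟨γ₂, hγ₂, hev₂⟩ := hJ₂ J hJ.1.2
  set c := min γ₁ (min γ₂ γT)
  have hc : 0 < c := lt_min hγ₁ (lt_min hγ₂ hγT)
  refine ⟨c / 2, half_pos hc, ?_⟩
  filter_upwards [hev₁, hev₂, hTev, eventually_le_exp (a := 4) (half_pos hc)] with n h1 h2 h3 h4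
  intro u hu huU
  rw [show 2 * (c / 2) * (n : ℝ) = c * n by ring] at h4
  have hx : ∀ {y : ℝ}, c ≤ y → exp (-(y * n)) ≤ exp (-(c * n)) := fun {y} hy =>
    exp_le_exp.2 (neg_le_neg (mul_le_mul_of_nonneg_right hy (Nat.cast_nonneg n)))
  obtain ⟨hres, hF⟩ := h1 u hu huU
  have hF2 := hF (fun x => tanh x ^ 2) abs_tanh_sq_sub
  set q := ampQ t u J with hq
  set A : Dis n × (Fin n → ℝ) → Fin n → ℝ := fun p =>
    ampA (plantK n β p.1) t u (plantH u p.2) J
  have hqm := AmpRoot.ampQ_mem t u J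
  have hnext : |nE (u + t * q) (u + t * q) (fun x => tanh x ^ 2) - q| ≤ a / 4 := by
    have h := AmpRoot.ampQ_step ht0.le hu J
    rw [AmpRoot.ampQ_succ, ← hq] at h
    exact h.trans ((pow_le_pow_of_le_one ht0.le ht1.le hJ.2.1).trans hJ₃.le)
  set R : Set (Dis n × (Fin n → ℝ)) := {p | ε₁ ^ 2 * n <
    ∑ i, fieldRes (plantK n β p.1) (plantH u p.2) t (A p) i ^ 2}
  set F : Set (Dis n × (Fin n → ℝ)) := {p | ε₁ < |(∑ i, tanh (A p i) ^ 2) / (n : ℝ)
    - nE (u + t * q) (u + t * q) fun x => tanh x ^ 2|}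
  have hsize : ∀ p, p ∉ F → |(∑ i, tanh (A p i) ^ 2) / (n : ℝ) - q| ≤ a / 2 := fun p hp =>
    (abs_sub_le _ _ _).trans ((add_le_add ((not_lt.1 hp).trans (min_le_right _ _)) hnext).trans
      (le_of_eq (by ring)))
  have hin : ∀ p, p ∉ R → ε₁ ^ 2 * n ≤ ε ^ 2 * n ∧
      ∑ i, fieldRes (plantK n β p.1) (plantH u p.2) t (A p) i ^ 2 ≤ ε ^ 2 * n := fun p hp =>
    have h : ε₁ ^ 2 * n ≤ ε ^ 2 * n :=
      mul_le_mul_of_nonneg_right (pow_le_pow_left₀ hε₁.le (min_le_left _ _) 2) (Nat.cast_nonneg n)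
    ⟨h, (not_lt.1 hp).trans h⟩
  by_cases hmid : a / 2 ≤ q ∧ q ≤ 1 - a / 2
  · have hu0 : u ≤ U₀ := by
      by_contra hlt
      obtain ⟨j, rfl⟩ : ∃ j, J = j + 1 := ⟨J - 1, (Nat.succ_pred_eq_of_pos hJ.2.2).symm⟩
      have h := psi_mono (Set.mem_Ici.2 hu)
        (Set.mem_Ici.2 (add_nonneg hu (mul_nonneg ht0.le (AmpRoot.ampQ_mem t u j).1)))
        (le_add_of_nonneg_right (mul_nonneg ht0.le (AmpRoot.ampQ_mem t u j).1))
      rw [← AmpRoot.ampQ_succ, ← hq] at h
      linarith [hpsi u (not_le.1 hlt).le, hmid.2]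
    set bR : Set (Dis n × (Fin n → ℝ)) := {p | ¬ (RsStats t u q (min ε εT) (A p) ∧
      ∑ i, fieldRes (plantK n β p.1) (plantH u p.2) t (A p) i ^ 2 ≤ min ε εT ^ 2 * n)}
    set bT : Set (Dis n × (Fin n → ℝ)) := {p | ∃ b : Fin n → ℝ, RsStats t u q εT b ∧
      ∑ i, fieldRes (plantK n β p.1) (plantH u p.2) t b i ^ 2 ≤ εT ^ 2 * n ∧
      ¬ BallMargin (plantK n β p.1) t η θ σ fun i => tanh (b i)}
    refine le_trans (measureReal_mono (s₂ := R ∪ (bR ∪ bT)) fun p hp => ?_) ?_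
    · by_contra hc'
      simp only [Set.mem_union, not_or] at hc'
      obtain ⟨hcR, hcS, hcT⟩ := hc'
      refine hp ⟨(hin p hcR).2, Or.inl ?_⟩
      obtain ⟨⟨s1, s2, s3, s4, s5⟩, s6⟩ := not_not.1 hcS
      have hle : min ε εT ≤ εT := min_le_right _ _
      by_contra hbm
      exact hcT ⟨A p, ⟨s1.trans hle, s2.trans hle, s3.trans hle, s4.trans hle,
        s5.trans (by linarith)⟩, s6.trans (mul_le_mul_of_nonneg_right
          (pow_le_pow_left₀ (lt_min hε hεT).le hle 2) (Nat.cast_nonneg n)), hbm⟩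
    · refine (measureReal_union_le _ _).trans ((add_le_add (hres.trans (hx (min_le_left _ _)))
        ((measureReal_union_le _ _).trans (add_le_add
          ((h2 u hu hu0 hmid.1).trans (hx ((min_le_right _ _).trans (min_le_left _ _))))
          ((h3 u q hu hu0 hmid.1 hmid.2).trans (hx ((min_le_right _ _).trans (min_le_right _ _))))))).trans ?_)
      linarith [exp_pos (-(c * (n : ℝ)))]
  · refine le_trans (measureReal_mono (s₂ := R ∪ F) fun p hp => ?_) ?_
    · by_contra hc'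
      simp only [Set.mem_union, not_or] at hc'
      refine hp ⟨(hin p hc'.1).2, Or.inr ?_⟩
      have hh := abs_le.1 (hsize p hc'.2)
      set s := (∑ i, tanh (A p i) ^ 2) / (n : ℝ)
      have hs0 : 0 ≤ s := by positivity
      rcases not_and_or.1 hmid with h | h
      · refine Or.inl ((mul_le_of_le_one_left hs0 ht1.le).trans ?_)
        linarith [(min_le_left (min a₀ a₁) 1).trans (min_le_left a₀ a₁), not_le.1 h]
      · refine Or.inr ?_
        show 1 - a₁ ≤ s
        linarith [(min_le_left (min a₀ a₁) 1).trans (min_le_right a₀ a₁), not_le.1 h]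
    · refine (measureReal_union_le _ _).trans ((add_le_add (hres.trans (hx (min_le_left _ _)))
        (hF2.trans (hx (min_le_left _ _)))).trans ?_)
      linarith [exp_pos (-(c * (n : ℝ)))]

theorem continuous_ampState (t u : ℝ) : ∀ J : ℕ,
    Continuous fun p : (Fin n → Fin n → ℝ) × (Fin n → ℝ) => ampState p.1 t u p.2 J
  | 0 => by simp only [ampState]; fun_prop
  | J + 1 => by
    have ih := continuous_ampState t u J
    have h2 : ∀ k, Continuous fun p : (Fin n → Fin n → ℝ) × (Fin n → ℝ) =>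
        tanh ((ampState p.1 t u p.2 J).2 k) := fun k =>
      continuous_tanh'.comp ((continuous_apply k).comp (continuous_snd.comp ih))
    simp only [ampState]
    fun_prop

theorem continuous_tanhAmp (t u : ℝ) (J : ℕ) (i : Fin n) :
    Continuous fun p : (Fin n → Fin n → ℝ) × (Fin n → ℝ) => tanh (ampA p.1 t u p.2 J i) :=
  continuous_tanh'.comp ((continuous_apply i).comp (continuous_snd.comp (continuous_ampState t u J)))

theorem isClosed_ampGood (β η θ σ a₀ a₁ ε : ℝ) (hθ : 0 < θ) (J : ℕ) (u : ℝ) :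
    IsClosed (AmpGood n β η θ σ a₀ a₁ ε J u) := by
  have hA : ∀ i, Continuous fun p : (Fin n → Fin n → ℝ) × (Fin n → ℝ) =>
      ampA p.1 (β ^ 2) u p.2 J i := fun i =>
    (continuous_apply i).comp (continuous_snd.comp (continuous_ampState (β ^ 2) u J))
  have hm := continuous_tanhAmp (n := n) (β ^ 2) u J
  simp only [AmpGood, Set.ofPred_and, Set.ofPred_or]
  refine (isClosed_le ?_ continuous_const).inter (IsClosed.union ?_
    (IsClosed.union (isClosed_le ?_ continuous_const) (isClosed_le continuous_const ?_)))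
  · simp only [fieldRes]; fun_prop
  · simp only [BallMargin, Set.ofPred_forall]
    refine isClosed_iInter fun S => isClosed_iInter fun _ => isClosed_iInter fun w => isClosed_le ?_ ?_
    · simp only [Ent.qform]; fun_prop
    · refine Continuous.add (continuous_finsetSum _ fun i _ => continuous_const.div ?_ fun p => ?_) (by fun_prop)
      · simp only [vsec]; split <;> fun_prop
      · simp only [vsec]
        split
        · exact one_ne_zero
        · exact ne_of_gt (lt_min one_pos (by linarith [sq_lt_one_iff_abs_lt_one (tanh (ampA p.1 (β ^ 2) u p.2 J i)) |>.2 (abs_tanh_lt_one _)]))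
  · fun_prop
  · fun_prop

/-- A gauge flip. -/
def flipP (x : Conf n) (p : (Fin n → Fin n → ℝ) × (Fin n → ℝ)) : (Fin n → Fin n → ℝ) × (Fin n → ℝ) :=
  ((fun i j => vec x i * p.1 i j * vec x j), fun i => vec x i * p.2 i)

theorem tanh_flip (x : Conf n) (i : Fin n) (y : ℝ) : tanh (vec x i * y) = vec x i * tanh y := by
  cases hb : x i <;> simp [vec, spin, hb, tanh_neg]

theorem ampState_flip (x : Conf n) (t u : ℝ) (K : Fin n → Fin n → ℝ) (h : Fin n → ℝ) : ∀ J : ℕ,
    ampState (flipP x (K, h)).1 t u (flipP x (K, h)).2 J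
      = ((fun i => vec x i * (ampState K t u h J).1 i), fun i => vec x i * (ampState K t u h J).2 i)
  | 0 => by simp [ampState, flipP, Pi.zero_def]
  | J + 1 => by
    simp only [ampState, ampState_flip x t u K h J, tanh_flip]
    refine Prod.ext rfl (funext fun i => ?_)
    simp only [flipP]
    have e : ∑ k, vec x i * K i k * vec x k * (vec x k * tanh ((ampState K t u h J).2 k))
        = vec x i * ∑ k, K i k * tanh ((ampState K t u h J).2 k) := by
      rw [mul_sum]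
      exact sum_congr rfl fun k _ => by
        linear_combination (vec x i * K i k * tanh ((ampState K t u h J).2 k)) * Quench.vec_sq x k
    rw [e]; ring

theorem ballMargin_flip (x : Conf n) {K : Fin n → Fin n → ℝ} {τ η θ σ : ℝ} {m : Fin n → ℝ}
    (h : BallMargin K τ η θ σ m) :
    BallMargin (fun i j => vec x i * K i j * vec x j) τ η θ σ fun i => vec x i * m i := by
  intro S hS w
  have hw := h S hS fun i => vec x i * w i
  have hs : ∀ (f : Fin n → ℝ) i, (vec x i * f i) ^ 2 = f i ^ 2 := fun f i => by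
    rw [mul_pow, Quench.vec_sq, one_mul]
  have hv : ∀ i, vsec θ (fun j => vec x j * m j) S i = vsec θ m S i := fun i => by simp only [vsec, hs]
  have hd : ∀ i, w i * (vec x i * m i) = vec x i * w i * m i := fun i => by ring
  have hq : Ent.qform (fun i j => vec x i * K i j * vec x j) w = Ent.qform K (fun i => vec x i * w i) := by
    simp only [Ent.qform]
    exact sum_congr rfl fun i _ => sum_congr rfl fun j _ => by ring
  simp only [hs] at hw
  simp only [hv, hd, hs, hq]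
  exact hw

theorem ampGood_flip (x : Conf n) {β η θ σ a₀ a₁ ε : ℝ} {J : ℕ} {u : ℝ}
    {p : (Fin n → Fin n → ℝ) × (Fin n → ℝ)} (hp : p ∈ AmpGood n β η θ σ a₀ a₁ ε J u) :
    flipP x p ∈ AmpGood n β η θ σ a₀ a₁ ε J u := by
  obtain ⟨K, h⟩ := p
  have hA : ampA (flipP x (K, h)).1 (β ^ 2) u (flipP x (K, h)).2 J
      = fun i => vec x i * ampA K (β ^ 2) u h J i := by
    show (ampState _ _ _ _ J).2 = _
    rw [ampState_flip]; rfl
  set A := ampA K (β ^ 2) u h J
  have hq : ∀ i, tanh (vec x i * A i) ^ 2 = tanh (A i) ^ 2 := fun i => by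
    rw [tanh_flip, mul_pow, Quench.vec_sq, one_mul]
  have hr : ∀ i, fieldRes (flipP x (K, h)).1 (flipP x (K, h)).2 (β ^ 2) (fun i => vec x i * A i) i
      = vec x i * fieldRes K h (β ^ 2) A i := fun i => by
    simp only [fieldRes, flipP, tanh_flip, mul_pow, Quench.vec_sq, one_mul]
    have e : ∑ k, vec x i * K i k * vec x k * (vec x k * tanh (A k))
        = vec x i * ∑ k, K i k * tanh (A k) := by
      rw [mul_sum]
      exact sum_congr rfl fun k _ => by linear_combination (vec x i * K i k * tanh (A k)) * Quench.vec_sq x k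
    rw [e]; ring
  simp only [AmpGood, Set.mem_ofPred_eq, hA, hr, hq, mul_pow, Quench.vec_sq, one_mul] at hp ⊢
  refine ⟨hp.1, hp.2.imp (fun hb => ?_) id⟩
  have e : (fun i => tanh (vec x i * A i)) = fun i => vec x i * tanh (A i) :=
    funext fun i => tanh_flip x i (A i)
  rw [e]
  exact ballMargin_flip x hb

theorem gaugeInv_ampGood (β η θ σ a₀ a₁ ε : ℝ) (J : ℕ) (u : ℝ) :
    GaugeInv (AmpGood n β η θ σ a₀ a₁ ε J u)ᶜ := by
  intro x K h
  rw [Set.mem_compl_iff, Set.mem_compl_iff, ← show flipP x (K, h)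
    = ((fun i j => vec x i * K i j * vec x j), fun i => vec x i * h i) from rfl]
  generalize hS : AmpGood n β η θ σ a₀ a₁ ε J u = S
  have hflip : ∀ {p}, p ∈ S → flipP x p ∈ S := by subst hS; exact fun {p} hp => ampGood_flip x hp
  have e : flipP x (flipP x (K, h)) = (K, h) := by
    refine Prod.ext (funext fun i => funext fun j => ?_) (funext fun i => ?_)
    · simp only [flipP]
      linear_combination (vec x j ^ 2 * K i j) * Quench.vec_sq x i + K i j * Quench.vec_sq x j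
    · simp only [flipP]
      linear_combination h i * Quench.vec_sq x i
  refine not_congr ⟨fun hp => hflip hp, fun hp => ?_⟩
  rw [← e]
  exact hflip hp

/-- **The event for the centres above the switch.** -/
theorem ampEvent (hT : TransferStmt) : AmpEventStmt := by
  intro β hβ hβ1 a₀ a₁ ha₀ ha₁
  obtain ⟨η, θ, σ, hη, hθ, hσ, h⟩ := ampPlanted hT hβ hβ1 ha₀ ha₁
  refine ⟨η, θ, σ, hη, hθ, hσ, fun ε hε U => ?_⟩
  obtain ⟨J₀, hJ⟩ := h ε hε U
  refine ⟨J₀, fun J hJJ => ?_⟩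
  obtain ⟨γ, hγ, hev⟩ := hJ J hJJ
  obtain ⟨γ', hγ', hQ⟩ := quenchThm β hβ hβ1 γ hγ
  refine ⟨min (γ / 16) γ', lt_min (by linarith) hγ', fun δ hδ => ?_⟩
  filter_upwards [hev, hQ δ hδ, (tendsto_exp_atTop.comp ((tendsto_natCast_atTop_atTop (R := ℝ)).const_mul_atTop
    (show 0 < γ / 8 by linarith))).eventually_ge_atTop ((U : ℝ) + 1)] with n hn hq hU N hN hNe
  simp only [Function.comp_apply] at hU
  have hN0 : (0 : ℝ) < N := by exact_mod_cast hN
  have hN2 : (N : ℝ) ^ 2 ≤ exp (γ / 8 * n) := by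
    refine (pow_le_pow_left₀ hN0.le (hNe.trans (exp_le_exp.2 (mul_le_mul_of_nonneg_right
      (min_le_left _ _) (Nat.cast_nonneg n)))) 2).trans_eq ?_
    rw [← exp_nat_mul]; ring_nf
  refine le_trans (measureReal_mono fun d hd => ?_) (hq (U * N ^ 2 + 1) (fun k => (k.1 : ℝ) / (N : ℝ) ^ 2)
    (fun k => (AmpGood n β η θ σ a₀ a₁ ε J ((k.1 : ℝ) / (N : ℝ) ^ 2))ᶜ) ?_ (fun k => by positivity)
    (fun k => (isClosed_ampGood β η θ σ a₀ a₁ ε hθ J _).measurableSet.compl)
    (fun k => gaugeInv_ampGood β η θ σ a₀ a₁ ε J _) fun k => hn _ (by positivity) ?_)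
  · intro hall
    refine hd fun i hi => ?_
    refine (hall ⟨i, Nat.lt_succ_of_le hi⟩).trans (exp_le_exp.2 (neg_le_neg ?_))
    exact mul_le_mul_of_nonneg_right (min_le_right _ _) (Nat.cast_nonneg n)
  · have h1 : (1 : ℝ) ≤ (N : ℝ) ^ 2 := one_le_pow₀ (by exact_mod_cast hN)
    push_cast
    calc (U : ℝ) * (N : ℝ) ^ 2 + 1 ≤ ((U : ℝ) + 1) * (N : ℝ) ^ 2 := by linarith
      _ ≤ exp (γ / 8 * n) * exp (γ / 8 * n) := mul_le_mul hU hN2 (sq_nonneg _) (exp_pos _).le
      _ = exp (γ / 4 * n) := by rw [← exp_add]; ring_nf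
  · rw [div_le_iff₀ (by positivity)]
    exact_mod_cast Nat.lt_succ_iff.1 k.2

end Vale.Agent.P150.Fast.StepC
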