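import Vale.Agent.P150.Fast.Step.Main

/-!
The map of centres (P150): next to every approximate TAP point with a margin there is exactly one
TAP point; it depends Lipschitz continuously on the field and on the scale.
-/

open MeasureTheory Real Finset Filter Set
open scoped Matrix Matrix.Norms.L2Operator

namespace Vale.Agent.P150.Fast.StepC

open LL (nrm)

variable {n : ℕ} {K : Matrix (Fin n) (Fin n) ℝ}

theorem abs_tanh_sub_le (x y : ℝ) : |tanh x - tanh y| ≤ |x - y| := by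
  have h := Convex.norm_image_sub_le_of_norm_hasDerivWithin_le (s := Set.univ) (C := 1)
    (fun y _ => (hasDerivAt_tanh' y).hasDerivWithinAt)
    (fun y _ => by
      rw [Real.norm_eq_abs, abs_le]
      constructor <;> linarith [sq_nonneg (tanh y), (sq_le_one_iff_abs_le_one _).2 (abs_tanh_lt_one y).le])
    convex_univ (mem_univ y) (mem_univ x)
  simpa [Real.norm_eq_abs] using h

theorem nrm_tv_sub_le (a b : Vec n) : nrm (tv b - tv a) ≤ nrm (b - a) := by
  refine (nrm_le_mul zero_le_one fun i => ?_).trans_eq (one_mul _)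
  rw [one_mul]; exact abs_tanh_sub_le _ _

theorem tv_mem (a : Vec n) (i : Fin n) : tv a i ∈ Ioo (-1 : ℝ) 1 :=
  ⟨(abs_lt.1 (abs_tanh_lt_one (a i))).1, (abs_lt.1 (abs_tanh_lt_one (a i))).2⟩

theorem tapGrad_tv (K : Matrix (Fin n) (Fin n) ℝ) (h : Vec n) (s τ : ℝ) (a : Vec n) :
    tapGrad (s • K) h τ (tv a) = act K s τ a - h := by
  funext i
  have e : ∑ j, (s • K) i j * tv a j = s * (K *ᵥ tv a) i := by
    simp only [Matrix.mulVec, dotProduct, mul_sum, Matrix.smul_apply, smul_eq_mul, mul_assoc]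
  simp only [tapGrad, act, Pi.sub_apply, e]
  rw [show artanh (tv a i) = a i from artanh_tanh _]
  ring

/-- The TAP map is Lipschitz in the local fields. -/
theorem act_lip (hn : 1 ≤ n) {Λ s τ : ℝ} (hK : ‖K‖ ≤ Λ) (hs : |s| ≤ 1) (hτ : 0 ≤ τ) (hτ1 : τ ≤ 1)
    (a a' : Vec n) : nrm (act K s τ a' - act K s τ a) ≤ (Λ + 4) * nrm (a' - a) := by
  have hn0 : (0 : ℝ) < n := by exact_mod_cast hn
  set Δ := tv a' - tv a with hΔ
  set q' := (∑ j, tv a' j ^ 2) / n with hq'
  set q := (∑ j, tv a j ^ 2) / n with hq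
  have hqq : |q - q'| * √n ≤ 2 * nrm Δ := by
    rw [hq, hq', ← sub_div, abs_div, Nat.abs_cast, div_mul_eq_mul_div, div_le_iff₀ hn0]
    have h1 := sum_sq_sub (tv a) (tv a')
    rw [← LL.nrm_neg (tv a - tv a'), neg_sub, ← hΔ] at h1
    calc |∑ j, tv a j ^ 2 - ∑ j, tv a' j ^ 2| * √n ≤ nrm Δ * (√n + √n) * √n :=
          mul_le_mul_of_nonneg_right (h1.trans (mul_le_mul_of_nonneg_left
            (add_le_add (nrm_tv_le a) (nrm_tv_le a')) (LL.nrm_nonneg _))) (sqrt_nonneg _)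
      _ = 2 * nrm Δ * n := by linear_combination (2 * nrm Δ) * mul_self_sqrt hn0.le
  have e : act K s τ a' - act K s τ a = (a' - a) + (-s) • (K *ᵥ Δ)
      + τ • ((1 - q') • Δ + (q - q') • tv a) := by
    funext i
    simp only [act, ← hq, ← hq', Pi.add_apply, Pi.sub_apply, Pi.smul_apply, smul_eq_mul, hΔ,
      Matrix.mulVec_sub]
    ring
  have h0 := nrm_tv_sub_le a a'
  rw [← hΔ] at h0
  have hN := LL.nrm_nonneg Δ
  have hΛ : 0 ≤ Λ := (norm_nonneg _).trans hK
  have t1 : nrm ((-s) • (K *ᵥ Δ)) ≤ 1 * (Λ * nrm Δ) := nrm_smul_le (by rwa [abs_neg])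
    ((LL.nrm_mulVec _ _).trans (mul_le_mul_of_nonneg_right hK hN))
  have t2 : nrm ((1 - q') • Δ + (q - q') • tv a) ≤ 3 * nrm Δ :=
    (LL.nrm_add _ _).trans ((add_le_add (nrm_smul_le (q_facts hn (nrm_tv_le a')) le_rfl)
      ((nrm_smul_le le_rfl (nrm_tv_le a)).trans hqq)).trans_eq (by ring))
  have t3 : nrm (τ • ((1 - q') • Δ + (q - q') • tv a)) ≤ 1 * (3 * nrm Δ) :=
    nrm_smul_le (by rwa [abs_of_nonneg hτ]) t2
  rw [e]
  refine (LL.nrm_add _ _).trans ((add_le_add ((LL.nrm_add _ _).trans (add_le_add le_rfl t1)) t3).trans ?_)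
  linarith [mul_le_mul_of_nonneg_left h0 (by linarith : 0 ≤ Λ + 3)]

theorem vsec_ge {θ : ℝ} (hθ : 0 ≤ θ) {m : Vec n} (hm : ∀ i, |m i| ≤ 1) (S : Finset (Fin n)) (i : Fin n) :
    min 1 (2 * θ) ≤ vsec θ m S i := by
  unfold vsec
  split
  · exact min_le_left _ _
  · exact min_le_min le_rfl (by linarith [(sq_le_one_iff_abs_le_one _).2 (hm i)])

/-- Margins survive a small move of the point. -/
theorem ball_move (hn : 1 ≤ n) {τ η θ σ δ : ℝ} (hτ : 0 ≤ τ) (hθ : 0 < θ) (hδ : 0 ≤ δ)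
    {m m' : Vec n} (hm : ∀ i, |m i| ≤ 1) (hm' : ∀ i, |m' i| ≤ 1)
    (hB : BallMargin K τ η θ σ m) (hd : nrm (m' - m) ≤ δ * √n) (hσ : δ ^ 2 ≤ σ / 2 * (θ / 2) ^ 2) :
    BallMargin K τ (η - 6 * δ * τ) (θ / 2) (σ / 2) m' := by
  intro S hS u
  have hn0 : (0 : ℝ) < n := by exact_mod_cast hn
  set Δ := m' - m with hΔ
  set T := univ.filter fun i => θ / 2 < |Δ i| with hT
  have hTc : (T.card : ℝ) ≤ σ / 2 * n := by
    have h1 : (T.card : ℝ) * (θ / 2) ^ 2 ≤ ∑ i, Δ i ^ 2 := by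
      rw [show (T.card : ℝ) * (θ / 2) ^ 2 = ∑ _i ∈ T, (θ / 2) ^ 2 by simp]
      refine (sum_le_sum fun i hi => ?_).trans (sum_le_univ_sum_of_nonneg fun i => sq_nonneg (Δ i))
      rw [hT, mem_filter] at hi
      rw [← sq_abs (Δ i)]
      exact pow_le_pow_left₀ (by positivity) hi.2.le 2
    rw [← LL.nrm_sq] at h1
    have h2 := pow_le_pow_left₀ (LL.nrm_nonneg _) hd 2
    rw [mul_pow, sq_sqrt hn0.le] at h2
    refine le_of_mul_le_mul_right ?_ (show 0 < (θ / 2) ^ 2 by positivity)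
    linarith [mul_le_mul_of_nonneg_right hσ hn0.le]
  have hcard : ((S ∪ T).card : ℝ) ≤ σ * n := by
    have : ((S ∪ T).card : ℝ) ≤ S.card + T.card := by exact_mod_cast card_union_le S T
    linarith
  have h := hB (S ∪ T) hcard u
  have hv : ∀ i, vsec (θ / 2) m' S i ≤ vsec θ m (S ∪ T) i := fun i => by
    unfold vsec
    by_cases hST : i ∈ S ∪ T
    · rw [if_pos hST]
      split
      · exact le_rfl
      · exact min_le_left _ _
    · rw [if_neg hST, if_neg fun hi => hST (mem_union_left _ hi)]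
      refine min_le_min le_rfl ?_
      have hΔi : |Δ i| ≤ θ / 2 := not_lt.1 fun hlt => hST (mem_union_right _ (by simp [hT, hlt]))
      have e : m i ^ 2 - m' i ^ 2 = -(Δ i) * (m i + m' i) := by simp [hΔ]; ring
      have : |m i ^ 2 - m' i ^ 2| ≤ θ / 2 * 2 := by
        rw [e, abs_mul, abs_neg]
        exact mul_le_mul hΔi ((abs_add_le _ _).trans (by linarith [hm i, hm' i])) (abs_nonneg _) (by positivity)
      linarith [(abs_le.1 this).2]
  have hsum : ∑ i, u i ^ 2 / vsec θ m (S ∪ T) i ≤ ∑ i, u i ^ 2 / vsec (θ / 2) m' S i :=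
    sum_le_sum fun i _ => div_le_div_of_nonneg_left (sq_nonneg _)
      (lt_of_lt_of_le (lt_min one_pos (by linarith)) (vsec_ge (by linarith) hm' S i)) (hv i)
  set U := ∑ i, u i ^ 2 with hU
  have hU0 : 0 ≤ U := sum_nonneg fun i _ => sq_nonneg _
  have hmn : ∀ {x : Vec n}, (∀ i, |x i| ≤ 1) → nrm x ≤ √n := fun hx => nrm_one_le hx
  have hdd : nrm Δ * (2 * √n) ≤ 2 * δ * n := by
    refine (mul_le_mul_of_nonneg_right hd (by positivity)).trans_eq ?_
    linear_combination (2 * δ) * mul_self_sqrt hn0.le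
  have hrank : (∑ i, u i * m' i) ^ 2 - (∑ i, u i * m i) ^ 2 ≤ 2 * δ * n * U := by
    have a1 : |∑ i, u i * Δ i| ≤ nrm u * nrm Δ := abs_dot_le u Δ
    have a2 : |∑ i, u i * (m' i + m i)| ≤ nrm u * (2 * √n) :=
      (abs_dot_le u (m' + m)).trans (mul_le_mul_of_nonneg_left
        ((LL.nrm_add _ _).trans (by linarith [hmn hm, hmn hm'])) (LL.nrm_nonneg _))
    have e : (∑ i, u i * m' i) ^ 2 - (∑ i, u i * m i) ^ 2
        = (∑ i, u i * Δ i) * ∑ i, u i * (m' i + m i) := by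
      simp only [hΔ, Pi.sub_apply, mul_sub, mul_add, sum_sub_distrib, sum_add_distrib]; ring
    rw [e]
    refine (le_abs_self _).trans ?_
    rw [abs_mul]
    refine (mul_le_mul a1 a2 (abs_nonneg _) (mul_nonneg (LL.nrm_nonneg _) (LL.nrm_nonneg _))).trans ?_
    rw [show nrm u * nrm Δ * (nrm u * (2 * √n)) = nrm u ^ 2 * (nrm Δ * (2 * √n)) by ring, LL.nrm_sq, ← hU,
      mul_comm (2 * δ * n) U]
    exact mul_le_mul_of_nonneg_left hdd hU0
  have hQ : (∑ j, m' j ^ 2) / n - (∑ j, m j ^ 2) / n ≤ 2 * δ := by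
    rw [← sub_div, div_le_iff₀ hn0]
    refine (le_abs_self _).trans ((sum_sq_sub m' m).trans ?_)
    exact (mul_le_mul_of_nonneg_left (by linarith [hmn hm, hmn hm'] : nrm m' + nrm m ≤ 2 * √n)
      (LL.nrm_nonneg _)).trans hdd
  have h1 := mul_le_mul_of_nonneg_left hrank (show 0 ≤ 2 * τ / n by positivity)
  have h2 : τ * ((∑ j, m' j ^ 2) / n - (∑ j, m j ^ 2) / n) * U ≤ τ * (2 * δ) * U :=
    mul_le_mul_of_nonneg_right (mul_le_mul_of_nonneg_left hQ hτ) hU0
  have e1 : 2 * τ / n * (2 * δ * n * U) = 4 * δ * τ * U := by field_simp; ring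
  linarith

/-- The margin as a margin of the Hessian. -/
theorem margined_of_ball {s τ η θ σ : ℝ} (hK : K.transpose = K) (hη : 0 < η) (hθ : 0 ≤ θ)
    (hσ : 0 ≤ σ) {a : Vec n} (hB : BallMargin (s • K) τ η θ σ (tv a)) :
    Margined (vv a) (yFull K s τ a) η := by
  have hv0 : ∀ i, 0 < vv a i := fun i => by
    have := abs_tanh_lt_one (a i)
    rw [vv, sub_pos, ← sq_abs]
    exact pow_lt_one₀ (abs_nonneg _) this two_ne_zero
  refine ⟨?_, hη, hv0, fun u => ?_⟩
  · simp [yFull, Matrix.transpose_sub, Matrix.transpose_smul, Matrix.transpose_one, hK,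
      Matrix.transpose_vecMulVec]
  have h := hB ∅ (by simp only [Finset.card_empty, Nat.cast_zero]; positivity) u
  have hvs : ∀ i, vv a i ≤ vsec θ (tv a) ∅ i := fun i => by
    rw [vsec, if_neg (Finset.notMem_empty i)]
    have h2 := sq_nonneg (tanh (a i))
    exact le_min (by simp only [vv]; linarith) (by simp only [vv, tv]; linarith)
  have hsum : ∑ i, u i ^ 2 / vsec θ (tv a) ∅ i ≤ ∑ i, u i ^ 2 / vv a i :=
    sum_le_sum fun i _ => div_le_div_of_nonneg_left (sq_nonneg _) (hv0 i) (hvs i)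
  have e : Ent.qform (yFull K s τ a) u = τ * (1 - (∑ j, tv a j ^ 2) / n) * ∑ i, u i ^ 2
      - Ent.qform (s • K) u - 2 * τ / n * (∑ i, u i * tv a i) ^ 2 := by
    rw [← LL.dot_mulVec_eq, ← LL.dot_mulVec_eq, yFull]
    simp only [Matrix.sub_mulVec, Matrix.smul_mulVec, Matrix.one_mulVec, Matrix.vecMulVec_mulVec,
      dotProduct_sub, dotProduct_smul, smul_eq_mul]
    simp only [dotProduct, pow_two, mul_sum, sum_mul, Pi.smul_apply, MulOpposite.smul_eq_mul_unop,
      MulOpposite.unop_op]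
    congr 1
    exact sum_congr rfl fun i _ => sum_congr rfl fun j _ => by ring
  rw [e]
  linarith

/-- Two TAP points at nearby fields and scales, close to one another, are as close as the data. -/
theorem roots_near (hn : 1 ≤ n) {Λ s s' τ τ' η θ σ δ : ℝ} (hK : ‖K‖ ≤ Λ) (hτ : 0 ≤ τ)
    (hτ1 : τ ≤ 1) (hθ : 0 < θ) (hδ : 0 ≤ δ) (hδ1 : δ ≤ 1) (hσ : δ ^ 2 ≤ σ * θ ^ 2)
    (hd : |τ - τ'| ≤ 2 * |s - s'|) (hη : 4 * δ * τ < η) {b b' h h' : Vec n}
    (hB : BallMargin (s • K) τ η θ σ (tv b)) (hb : act K s τ b = h) (hb' : act K s' τ' b' = h')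
    (hnear : nrm (tv b' - tv b) ≤ δ * √n) :
    (η - 4 * δ * τ) * nrm (tv b' - tv b) ≤ nrm (h' - h) + |s - s'| * ((Λ + 2) * √n) := by
  have hd2 : ∑ i, (tv b' i - tv b i) ^ 2 ≤ δ ^ 2 * n := by
    have := pow_le_pow_left₀ (LL.nrm_nonneg _) hnear 2
    rw [mul_pow, sq_sqrt (Nat.cast_nonneg n), LL.nrm_sq] at this
    exact this
  have hm := tapGrad_mono (h := h) (by omega : 0 < n) hτ hδ1 hθ hδ hσ (tv_mem b) (tv_mem b') hB hd2
  simp only [tapGrad_tv, hb, sub_self, Pi.zero_apply, sub_zero] at hm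
  set x : Vec n := act K s τ b' - h with hx
  have hxb : nrm x ≤ nrm (h' - h) + |s - s'| * ((Λ + 2) * √n) := by
    have hΛ : 0 ≤ Λ := (norm_nonneg _).trans hK
    set q := (∑ j, tv b' j ^ 2) / n with hq
    have e : x = (h' - h) + (s' - s) • (K *ᵥ tv b') + ((τ - τ') * (1 - q)) • tv b' := by
      funext i
      have := congrFun hb' i
      simp only [act, ← hq] at this
      simp only [hx, act, ← hq, Pi.add_apply, Pi.sub_apply, Pi.smul_apply, smul_eq_mul]
      linarith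
    rw [e]
    refine (LL.nrm_add _ _).trans ((add_le_add ((LL.nrm_add _ _).trans (add_le_add le_rfl
      (nrm_smul_le (C := |s - s'|) (abs_sub_comm _ _).le ((LL.nrm_mulVec _ _).trans
        (mul_le_mul hK (nrm_tv_le b') (LL.nrm_nonneg _) hΛ)))))
      (nrm_smul_le (C := 2 * |s - s'| * 1) ?_ (nrm_tv_le b'))).trans_eq (by ring))
    rw [abs_mul]
    exact mul_le_mul hd (q_facts hn (nrm_tv_le b')) (abs_nonneg _) (by positivity)
  have hcs : ∑ i, x i * (tv b' i - tv b i) ≤ nrm x * nrm (tv b' - tv b) := LL.dot_le x _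
  set D := nrm (tv b' - tv b) with hD
  have hD2 : ∑ i, (tv b' i - tv b i) ^ 2 = D ^ 2 := (LL.nrm_sq _).symm
  rcases (LL.nrm_nonneg (tv b' - tv b)).eq_or_lt with h0 | h0
  · rw [hD, ← h0, mul_zero]
    exact add_nonneg (LL.nrm_nonneg _) (mul_nonneg (abs_nonneg _)
      (mul_nonneg (by linarith [(norm_nonneg _).trans hK]) (sqrt_nonneg _)))
  · refine le_trans ?_ hxb
    refine le_of_mul_le_mul_right ?_ h0
    have : ∀ i, (act K s τ b' - h) i = x i := fun i => rfl
    simp only [this, hD2] at hm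
    linarith [hm, hcs]

/-- The scale of the coupling at a level. -/
noncomputable def scl (N k : ℕ) : ℝ := ((min k (N ^ 2) : ℕ) : ℝ) / (N : ℝ) ^ 2

theorem scl_mem (N k : ℕ) : 0 ≤ scl N k ∧ scl N k ≤ 1 := by
  refine ⟨by unfold scl; positivity, ?_⟩
  rcases Nat.eq_zero_or_pos N with rfl | hN
  · simp [scl]
  · rw [scl, div_le_one (by positivity)]
    exact_mod_cast min_le_right k (N ^ 2)

/-- The Onsager coefficient at a level. -/
noncomputable def ons (β : ℝ) (N k : ℕ) : ℝ := scl N k ^ 2 * β ^ 2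

/-- The parameters of the centres. -/
structure Par where
  η : ℝ
  θ : ℝ
  σ : ℝ
  δ : ℝ
  ε : ℝ

/-- Admissible parameters. -/
structure Par.Ok (p : Par) : Prop where
  η0 : 0 < p.η
  η1 : p.η ≤ 1
  θ0 : 0 < p.θ
  δ0 : 0 < p.δ
  ε0 : 0 < p.ε
  hδ : 256 * p.δ ≤ p.η
  hε : 32 * p.ε ≤ p.η * p.δ
  hσ : 2 ^ 14 * p.δ ^ 2 ≤ p.σ * p.θ ^ 2

theorem Par.Ok.σ0 {p : Par} (h : p.Ok) : 0 < p.σ := by
  by_contra hc
  have := h.hσ
  linarith [mul_nonpos_of_nonpos_of_nonneg (not_lt.1 hc) (sq_nonneg p.θ), pow_pos h.δ0 2]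

/-- The approximate centre, with the exact one at level zero. -/
def ctr (a : ℕ → Vec n → Vec n) (k : ℕ) (h : Vec n) : Vec n := if k = 0 then h else a k h

/-- An approximate TAP point with a margin. -/
def Good (K : Matrix (Fin n) (Fin n) ℝ) (β : ℝ) (N : ℕ) (a : ℕ → Vec n → Vec n) (η θ σ ε : ℝ)
    (k : ℕ) (h : Vec n) : Prop :=
  nrm (act K (scl N k) (ons β N k) (ctr a k h) - h) ≤ ε * √n ∧
    BallMargin (scl N k • K) (ons β N k) η θ σ (tv (ctr a k h))

/-- The fields where the centre is defined. -/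
def dom (K : Matrix (Fin n) (Fin n) ℝ) (β : ℝ) (N : ℕ) (a : ℕ → Vec n → Vec n) (p : Par) (k : ℕ) :
    Set (Vec n) := {h | Good K β N a (p.η / 2) (p.θ / 2) (p.σ / 2) (2 * p.ε) k h}

/-- The good nodes: both neighbouring centres are good and close. -/
def goodSet (K : Matrix (Fin n) (Fin n) ℝ) (β : ℝ) (N : ℕ) (a : ℕ → Vec n → Vec n) (p : Par) :
    ℕ → Set (Vec n)
  | 0 => Set.univ
  | k + 1 => {h | Good K β N a p.η p.θ p.σ p.ε (k + 1) h ∧ Good K β N a p.η p.θ p.σ p.ε k h ∧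
      nrm (tv (ctr a k h) - tv (ctr a (k + 1) h)) ≤ p.δ * √n}

/-- A TAP point next to the approximate centre. -/
def IsRoot (K : Matrix (Fin n) (Fin n) ℝ) (β : ℝ) (N : ℕ) (a : ℕ → Vec n → Vec n) (δ : ℝ) (k : ℕ)
    (h b : Vec n) : Prop :=
  act K (scl N k) (ons β N k) b = h ∧ nrm (tv b - tv (ctr a k h)) ≤ δ * √n

open Classical in
/-- The centres. -/
noncomputable def centre (K : Matrix (Fin n) (Fin n) ℝ) (β : ℝ) (N : ℕ) (a : ℕ → Vec n → Vec n)
    (p : Par) : ℕ → Vec n → Vec n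
  | 0 => tv
  | k + 1 => (dom K β N a p (k + 1)).piecewise
      (fun h => tv (Classical.epsilon (IsRoot K β N a p.δ (k + 1) h))) tv

theorem act_zero (K : Matrix (Fin n) (Fin n) ℝ) (a : Vec n) : act K 0 0 a = a := by
  funext i; simp [act]

theorem abs_centre_le (K : Matrix (Fin n) (Fin n) ℝ) (β : ℝ) (N : ℕ) (a : ℕ → Vec n → Vec n) (p : Par)
    (k : ℕ) (h : Vec n) (j : Fin n) : |centre K β N a p k h j| ≤ 1 := by
  classical
  have ht : ∀ x : Vec n, |tv x j| ≤ 1 := fun x => (abs_tanh_lt_one _).le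
  cases k with
  | zero => exact ht _
  | succ k =>
    simp only [centre, Set.piecewise]
    split <;> exact ht _

variable {β Λ : ℝ} {N : ℕ} {a : ℕ → Vec n → Vec n} {p : Par}

theorem ons_mem (hβ : 0 ≤ β) (hβ1 : β ≤ 1) (N k : ℕ) : 0 ≤ ons β N k ∧ ons β N k ≤ 1 :=
  ⟨by unfold ons; positivity, mul_le_one₀ (pow_le_one₀ (scl_mem N k).1 (scl_mem N k).2) (sq_nonneg _)
    (pow_le_one₀ hβ hβ1)⟩

theorem exists_root (hn : 1 ≤ n) (hp : p.Ok) (hK : K.transpose = K) (hβ : 0 ≤ β) (hβ1 : β ≤ 1)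
    {k : ℕ} {h : Vec n} (hh : h ∈ dom K β N a p k) : ∃ b, IsRoot K β N a p.δ k h b := by
  obtain ⟨hres, hB⟩ := hh
  obtain ⟨hτ, hτ1⟩ := ons_mem hβ hβ1 N k
  set s := scl N k
  set τ := ons β N k
  set c := ctr a k h
  have hη := hp.η0
  have hδ := hp.δ0
  have hε := hp.ε0
  have hhδ := hp.hδ
  have hhε := hp.hε
  have hσ' : p.δ ^ 2 ≤ p.σ / 2 * (p.θ / 2) ^ 2 := by linarith [hp.hσ, sq_nonneg p.δ]
  have hsn : (0 : ℝ) < √n := sqrt_pos.2 (by exact_mod_cast hn)
  have hKs : ∀ i j, (s • K) i j = (s • K) j i := fun i j => by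
    simp only [Matrix.smul_apply]; rw [← Matrix.transpose_apply K j i, hK]
  obtain ⟨M, hM1, hM2, hM3⟩ := exists_tap_root (h := h) (τ := τ) (η := p.η / 2) (θ := p.θ / 2)
    (σ := p.σ / 2) (δ := p.δ) (by omega : 0 < n) hKs hτ (by linarith [hp.η1])
    (by linarith [hp.θ0]) hδ hσ' (tv_mem c) hB (by nlinarith) (by
      have : √(∑ i, tapGrad (s • K) h τ (tv c) i ^ 2) = nrm (act K s τ c - h) := by
        rw [tapGrad_tv]; rfl
      rw [this]
      refine hres.trans_lt ?_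
      rw [show 2 * p.ε * √(n : ℝ) = 2 * p.ε * √n from rfl, ← mul_assoc]
      refine mul_lt_mul_of_pos_right ?_ hsn
      nlinarith [mul_le_mul_of_nonneg_left hτ1 (mul_nonneg hδ.le hδ.le), mul_pos hη hδ])
  refine ⟨fun i => artanh (M i), ?_, ?_⟩
  · have e : tv (fun i => artanh (M i)) = M := funext fun i => tanh_artanh (hM1 i)
    have := tapGrad_tv K h s τ (fun i => artanh (M i))
    rw [e] at this
    funext i
    have h1 := congrFun this i
    rw [hM3 i, Pi.sub_apply] at h1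
    linarith
  · have e : tv (fun i => artanh (M i)) = M := funext fun i => tanh_artanh (hM1 i)
    rw [e, LL.nrm, ← sqrt_sq hδ.le, ← sqrt_mul (sq_nonneg _)]
    exact sqrt_le_sqrt hM2.le

/-- On its domain the centre is a TAP point next to the approximate one, with a margin. -/
theorem centre_spec (hn : 1 ≤ n) (hp : p.Ok) (hK : K.transpose = K) (hβ : 0 ≤ β) (hβ1 : β ≤ 1)
    {k : ℕ} {h : Vec n} (hh : h ∈ dom K β N a p k) :
    ∃ b, IsRoot K β N a p.δ k h b ∧ centre K β N a p k h = tv b ∧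
      BallMargin (scl N k • K) (ons β N k) (p.η / 4) (p.θ / 4) (p.σ / 4) (tv b) := by
  classical
  obtain ⟨b, hb, hc⟩ : ∃ b, IsRoot K β N a p.δ k h b ∧ centre K β N a p k h = tv b := by
    cases k with
    | zero =>
      have e0 : scl N 0 = 0 := by simp [scl]
      refine ⟨h, ⟨?_, ?_⟩, rfl⟩
      · rw [ons, e0, zero_pow two_ne_zero, zero_mul, act_zero]
      · simp only [ctr, if_pos, sub_self]
        rw [show nrm (0 : Vec n) = 0 by simp [LL.nrm]]
        have := hp.δ0; positivity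
    | succ k =>
      exact ⟨_, Classical.epsilon_spec (exists_root hn hp hK hβ hβ1 hh),
        by rw [centre]; exact Set.piecewise_eq_of_mem _ _ _ hh⟩
  refine ⟨b, hb, hc, ?_⟩
  obtain ⟨hτ, hτ1⟩ := ons_mem hβ hβ1 N k
  have hmove := ball_move (m := tv (ctr a k h)) (m' := tv b) hn hτ (show 0 < p.θ / 2 by linarith [hp.θ0])
    hp.δ0.le (fun i => (abs_tanh_lt_one _).le) (fun i => (abs_tanh_lt_one _).le) hh.2 hb.2
    (by linarith [hp.hσ, sq_nonneg p.δ])
  intro S hS u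
  have := hmove S (hS.trans (le_of_eq (by ring))) u
  have e : p.θ / 2 / 2 = p.θ / 4 := by ring
  rw [e] at this
  have hU : 0 ≤ ∑ i, u i ^ 2 := sum_nonneg fun i _ => sq_nonneg _
  have hc : p.η / 4 ≤ p.η / 2 - 6 * p.δ * ons β N k := by
    linarith [hp.hδ, hp.η0, mul_le_mul_of_nonneg_left hτ1 hp.δ0.le]
  linarith [mul_le_mul_of_nonneg_right hc hU]

/-- Centres at nearby levels and fields. -/
theorem centre_near (hn : 1 ≤ n) (hp : p.Ok) (hK : K.transpose = K) (hKn : ‖K‖ ≤ Λ) (hβ : 0 ≤ β)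
    (hβ1 : β ≤ 1) {k k' : ℕ} {h h' b b' : Vec n} (hb : IsRoot K β N a p.δ k h b)
    (hB : BallMargin (scl N k • K) (ons β N k) (p.η / 4) (p.θ / 4) (p.σ / 4) (tv b))
    (hb' : IsRoot K β N a p.δ k' h' b')
    (hclose : nrm (tv (ctr a k' h') - tv (ctr a k h)) ≤ 2 * p.δ * √n) :
    nrm (tv b' - tv b) ≤ 16 / p.η * (nrm (h' - h) + |scl N k - scl N k'| * ((Λ + 2) * √n)) := by
  obtain ⟨hτ, hτ1⟩ := ons_mem hβ hβ1 N k
  obtain ⟨s0, s1⟩ := scl_mem N k
  obtain ⟨t0, t1⟩ := scl_mem N k'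
  have hη := hp.η0
  have hδ := hp.δ0
  have hd : |ons β N k - ons β N k'| ≤ 2 * |scl N k - scl N k'| := by
    rw [ons, ons, show scl N k ^ 2 * β ^ 2 - scl N k' ^ 2 * β ^ 2
      = (scl N k - scl N k') * ((scl N k + scl N k') * β ^ 2) by ring, abs_mul, mul_comm (2 : ℝ)]
    refine mul_le_mul_of_nonneg_left ?_ (abs_nonneg _)
    rw [abs_of_nonneg (by positivity)]
    nlinarith [pow_le_one₀ (n := 2) hβ hβ1]
  have hnear : nrm (tv b' - tv b) ≤ 4 * p.δ * √n := by
    have e : tv b' - tv b = (tv b' - tv (ctr a k' h')) + (tv (ctr a k' h') - tv (ctr a k h))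
        + (-(tv b - tv (ctr a k h))) := by abel
    rw [e]
    refine (LL.nrm_add _ _).trans ((add_le_add ((LL.nrm_add _ _).trans (add_le_add hb'.2 hclose))
      ((LL.nrm_neg _).trans_le hb.2)).trans_eq (by ring))
  have h4 : 4 * (4 * p.δ) * ons β N k ≤ p.η / 16 := by
    linarith [hp.hδ, mul_le_mul_of_nonneg_left hτ1 hδ.le]
  have h := roots_near hn hKn hτ hτ1 (show 0 < p.θ / 4 by linarith [hp.θ0]) (show 0 ≤ 4 * p.δ by linarith)
    (by linarith [hp.hδ, hp.η1]) (by nlinarith [hp.hσ]) hd (by linarith) hB hb.1 hb'.1 hnear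
  rw [div_mul_eq_mul_div, le_div_iff₀ hη]
  have h1 : p.η / 16 * nrm (tv b' - tv b) ≤ (p.η / 4 - 4 * (4 * p.δ) * ons β N k) * nrm (tv b' - tv b) :=
    mul_le_mul_of_nonneg_right (by linarith) (LL.nrm_nonneg _)
  linarith

theorem dist_le_nrm (x y : Vec n) : nrm (x - y) ≤ √n * dist x y := by
  rw [LL.nrm, ← sqrt_sq (dist_nonneg (x := x) (y := y)), ← sqrt_mul (Nat.cast_nonneg n)]
  refine sqrt_le_sqrt ((sum_le_sum fun i _ => ?_).trans_eq
    (show ∑ _i : Fin n, dist x y ^ 2 = n * dist x y ^ 2 by simp))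
  rw [Pi.sub_apply, ← sq_abs]
  exact pow_le_pow_left₀ (abs_nonneg _) ((Real.dist_eq _ _).symm.le.trans (dist_le_pi_dist x y i)) 2

theorem dist_le_of_nrm (x y : Vec n) : dist x y ≤ nrm (x - y) :=
  (dist_pi_le_iff (LL.nrm_nonneg _)).2 fun i => (Real.dist_eq _ _).le.trans (abs_le_nrm (x - y) i)

theorem continuous_ctr {Lc : ℝ} (hLc : 0 ≤ Lc) (ha : ∀ k h h', nrm (a k h' - a k h) ≤ Lc * nrm (h' - h))
    (k : ℕ) : Continuous (ctr a k) := by
  unfold ctr
  split
  · exact continuous_id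
  · refine (LipschitzWith.of_dist_le_mul (K := ⟨Lc * √n, mul_nonneg hLc (sqrt_nonneg _)⟩) fun x y => ?_).continuous
    refine (dist_le_of_nrm _ _).trans ((ha k y x).trans ?_)
    show _ ≤ Lc * √n * dist x y
    rw [mul_assoc]
    exact mul_le_mul_of_nonneg_left (dist_le_nrm x y) hLc

theorem isClosed_good {η θ σ ε : ℝ} (hθ : 0 < θ) {Lc : ℝ} (hLc : 0 ≤ Lc)
    (ha : ∀ k h h', nrm (a k h' - a k h) ≤ Lc * nrm (h' - h)) (k : ℕ) :
    IsClosed {h : Vec n | Good K β N a η θ σ ε k h} := by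
  have hc : ∀ i, Continuous fun h => ctr a k h i := fun i =>
    (continuous_apply i).comp (continuous_ctr hLc ha k)
  have ht : ∀ i, Continuous fun h => tanh (ctr a k h i) := fun i =>
    (continuous_iff_continuousAt.2 fun y => (hasDerivAt_tanh' y).continuousAt).comp (hc i)
  simp only [Good, Set.setOf_and]
  refine IsClosed.inter (isClosed_le ?_ continuous_const) ?_
  · simp only [LL.nrm, act, tv, Matrix.mulVec, dotProduct, Pi.sub_apply]
    fun_prop
  · simp only [BallMargin, Set.setOf_forall]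
    refine isClosed_iInter fun S => isClosed_iInter fun _ => isClosed_iInter fun u => ?_
    refine isClosed_le ?_ ?_
    · simp only [tv]; fun_prop
    · refine Continuous.add (continuous_finsetSum _ fun i _ => ?_) (by simp only [tv]; fun_prop)
      refine continuous_const.div ?_ fun h => (lt_of_lt_of_le (lt_min one_pos (by linarith))
        (vsec_ge hθ.le (fun i => (abs_tanh_lt_one _).le) S i)).ne'
      by_cases hi : i ∈ S
      · simp only [vsec, if_pos hi]; fun_prop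
      · simp only [vsec, if_neg hi, tv]; fun_prop

theorem measurable_tv : Measurable (tv : Vec n → Vec n) :=
  measurable_pi_lambda _ fun i =>
    ((continuous_iff_continuousAt.2 fun y => (hasDerivAt_tanh' y).continuousAt).comp
      (continuous_apply i)).measurable

theorem measurable_centre (hn : 1 ≤ n) (hp : p.Ok) (hK : K.transpose = K) (hKn : ‖K‖ ≤ Λ) (hβ : 0 ≤ β)
    (hβ1 : β ≤ 1) {Lc : ℝ} (hLc : 0 ≤ Lc) (ha : ∀ k h h', nrm (a k h' - a k h) ≤ Lc * nrm (h' - h))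
    (k : ℕ) : Measurable (centre K β N a p k) := by
  classical
  cases k with
  | zero => exact measurable_tv
  | succ k =>
    have hW : IsClosed (dom K β N a p (k + 1)) := isClosed_good (by linarith [hp.θ0]) hLc ha (k + 1)
    have hct : ∀ h, ctr a (k + 1) h = a (k + 1) h := fun h => if_neg (Nat.succ_ne_zero k)
    refine ContinuousOn.measurable_piecewise ?_ ?_ hW.measurableSet
    · refine ContinuousOn.congr (f := centre K β N a p (k + 1)) ?_ fun h hh => by
        simp only [centre, Set.piecewise]; rw [if_pos hh]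
      intro h hh
      have hη := hp.η0
      have hδ := hp.δ0
      obtain ⟨b, hb, hc, hB⟩ := centre_spec hn hp hK hβ hβ1 hh
      rw [Metric.continuousWithinAt_iff]
      intro e he
      refine ⟨min (p.δ / (Lc + 1)) (e * p.η / (32 * √n)), lt_min (by positivity)
        (by have : (0 : ℝ) < √n := sqrt_pos.2 (by exact_mod_cast hn); positivity), fun h' hh' hd => ?_⟩
      obtain ⟨b', hb', hc', -⟩ := centre_spec hn hp hK hβ hβ1 hh'
      have hd1 : nrm (h' - h) ≤ √n * min (p.δ / (Lc + 1)) (e * p.η / (32 * √n)) :=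
        (dist_le_nrm _ _).trans (mul_le_mul_of_nonneg_left hd.le (sqrt_nonneg _))
      have hclose : nrm (tv (ctr a (k + 1) h') - tv (ctr a (k + 1) h)) ≤ 2 * p.δ * √n := by
        rw [hct, hct]
        refine (nrm_tv_sub_le _ _).trans ((ha _ h h').trans ?_)
        have h1 : Lc * nrm (h' - h) ≤ (Lc + 1) * (√n * (p.δ / (Lc + 1))) :=
          mul_le_mul (by linarith) (hd1.trans (mul_le_mul_of_nonneg_left (min_le_left _ _) (sqrt_nonneg _)))
            (LL.nrm_nonneg _) (by linarith)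
        rw [show (Lc + 1) * (√(n : ℝ) * (p.δ / (Lc + 1))) = p.δ * √n by field_simp] at h1
        linarith [mul_nonneg hδ.le (sqrt_nonneg (n : ℝ))]
      have hnear := centre_near hn hp hK hKn hβ hβ1 hb hB hb' hclose
      rw [sub_self, abs_zero, zero_mul, add_zero] at hnear
      rw [hc, hc']
      refine (dist_le_of_nrm _ _).trans_lt (lt_of_le_of_lt (hnear.trans (mul_le_mul_of_nonneg_left
        (hd1.trans (mul_le_mul_of_nonneg_left (min_le_right _ _) (sqrt_nonneg _))) (by positivity))) ?_)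
      have : (0 : ℝ) < √n := sqrt_pos.2 (by exact_mod_cast hn)
      field_simp
      norm_num
    · exact (continuous_pi fun i => (continuous_iff_continuousAt.2 fun y =>
        (hasDerivAt_tanh' y).continuousAt).comp (continuous_apply i)).continuousOn

theorem measurableSet_goodSet (hp : p.Ok) {Lc : ℝ} (hLc : 0 ≤ Lc)
    (ha : ∀ k h h', nrm (a k h' - a k h) ≤ Lc * nrm (h' - h)) (k : ℕ) :
    MeasurableSet (goodSet K β N a p k) := by
  cases k with
  | zero => exact MeasurableSet.univ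
  | succ k =>
    refine ((isClosed_good hp.θ0 hLc ha (k + 1)).inter ((isClosed_good hp.θ0 hLc ha k).inter
      (isClosed_le (f := fun h : Vec n => nrm (tv (ctr a k h) - tv (ctr a (k + 1) h)))
        (g := fun _ : Vec n => p.δ * √(n : ℝ)) ?_ continuous_const))).measurableSet
    have : ∀ (j : ℕ) (i : Fin n), Continuous fun h : Vec n => tanh (ctr a j h i) := fun j i =>
      (continuous_iff_continuousAt.2 fun y => (hasDerivAt_tanh' y).continuousAt).comp
        ((continuous_apply i).comp (continuous_ctr hLc ha j))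
    simp only [LL.nrm, tv, Pi.sub_apply]
    fun_prop

/-- Good fields keep the domain around them. -/
theorem mem_dom_of_good (hn : 1 ≤ n) (hp : p.Ok) (hKn : ‖K‖ ≤ Λ) (hβ : 0 ≤ β) (hβ1 : β ≤ 1)
    {Lc : ℝ} (hLc : 0 ≤ Lc) (ha : ∀ k h h', nrm (a k h' - a k h) ≤ Lc * nrm (h' - h)) {k : ℕ}
    {h h' : Vec n} (hh : Good K β N a p.η p.θ p.σ p.ε k h)
    (hd : (Lc + 1) * (Λ + 5) * nrm (h' - h) ≤ p.ε * √n) :
    h' ∈ dom K β N a p k ∧ nrm (tv (ctr a k h') - tv (ctr a k h)) ≤ p.δ * √n := by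
  obtain ⟨hres, hB⟩ := hh
  obtain ⟨hτ, hτ1⟩ := ons_mem hβ hβ1 N k
  have hΛ : 0 ≤ Λ := (norm_nonneg _).trans hKn
  have hN := LL.nrm_nonneg (h' - h)
  have hε := hp.ε0
  have hc : nrm (ctr a k h' - ctr a k h) ≤ (Lc + 1) * nrm (h' - h) := by
    unfold ctr
    split
    · exact le_mul_of_one_le_left hN (by linarith)
    · exact (ha k h h').trans (mul_le_mul_of_nonneg_right (by linarith) hN)
  have hd' : (Lc + 1) * nrm (h' - h) ≤ p.ε * √n := by
    refine le_trans ?_ hd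
    rw [mul_right_comm]
    exact le_mul_of_one_le_right (by positivity) (by linarith)
  have hεδ : p.ε ≤ p.δ := by
    nlinarith [hp.hε, hp.η1, hp.δ0]
  have htv : nrm (tv (ctr a k h') - tv (ctr a k h)) ≤ p.δ * √n :=
    ((nrm_tv_sub_le _ _).trans (hc.trans hd')).trans (mul_le_mul_of_nonneg_right hεδ (sqrt_nonneg _))
  refine ⟨⟨?_, ?_⟩, htv⟩
  · have e : act K (scl N k) (ons β N k) (ctr a k h') - h'
        = (act K (scl N k) (ons β N k) (ctr a k h') - act K (scl N k) (ons β N k) (ctr a k h))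
          + (act K (scl N k) (ons β N k) (ctr a k h) - h) + (-(h' - h)) := by abel
    rw [e]
    refine (LL.nrm_add _ _).trans ((add_le_add ((LL.nrm_add _ _).trans (add_le_add
      ((act_lip hn hKn (by rw [abs_of_nonneg (scl_mem N k).1]; exact (scl_mem N k).2) hτ hτ1 _ _).trans
        (mul_le_mul_of_nonneg_left hc (by linarith))) hres)) (LL.nrm_neg _).le).trans ?_)
    linarith [mul_le_mul_of_nonneg_right (show (1 : ℝ) ≤ Lc + 1 by linarith) hN]
  · have hmove := ball_move (m := tv (ctr a k h)) (m' := tv (ctr a k h')) hn hτ hp.θ0 hp.δ0.le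
      (fun i => (abs_tanh_lt_one _).le) (fun i => (abs_tanh_lt_one _).le) hB htv (by linarith [hp.hσ, sq_nonneg p.δ])
    intro S hS u
    have := hmove S hS u
    have hU : 0 ≤ ∑ i, u i ^ 2 := sum_nonneg fun i _ => sq_nonneg _
    have hc' : p.η / 2 ≤ p.η - 6 * p.δ * ons β N k := by
      linarith [hp.hδ, hp.η0, mul_le_mul_of_nonneg_left hτ1 hp.δ0.le]
    linarith [mul_le_mul_of_nonneg_right hc' hU]

end Vale.Agent.P150.Fast.StepC
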