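import Vale.Agent.P150.Fast.LLBase

/-!
The resolvent of a Hessian `diag (1 / v) + Y` with a margin, and the effect of a rank-one change on
the normalised diagonal of `J A J` (P150, one step of the centres).
-/

open Real Finset
open scoped Matrix Matrix.Norms.L2Operator

namespace Vale.Agent.P150.Fast.StepC

open LL (nrm)

variable {n : ℕ}

/-- A symmetric `Y` for which `diag (1 / v) + Y` has the margin `η`. -/
structure Margined (v : Fin n → ℝ) (Y : Matrix (Fin n) (Fin n) ℝ) (η : ℝ) : Prop where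
  sym : Y.transpose = Y
  pos : 0 < η
  v0 : ∀ i, 0 < v i
  marg : ∀ u, η * ∑ i, u i ^ 2 ≤ ∑ i, u i ^ 2 / v i + Ent.qform Y u

/-- The Hessian. -/
noncomputable def hess (v : Fin n → ℝ) (Y : Matrix (Fin n) (Fin n) ℝ) : Matrix (Fin n) (Fin n) ℝ :=
  Matrix.diagonal (fun i => 1 / v i) + Y

/-- The resolvent. -/
noncomputable def res (v : Fin n → ℝ) (Y : Matrix (Fin n) (Fin n) ℝ) : Matrix (Fin n) (Fin n) ℝ :=
  (hess v Y)⁻¹

/-- The resolvent with the rows divided by the variances. -/
noncomputable def pmat (v : Fin n → ℝ) (Y : Matrix (Fin n) (Fin n) ℝ) : Matrix (Fin n) (Fin n) ℝ :=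
  Matrix.diagonal (fun i => 1 / v i) * res v Y

/-- The normalised diagonal of `J A J`. -/
noncomputable def zdiag (v : Fin n → ℝ) (Y A : Matrix (Fin n) (Fin n) ℝ) (i : Fin n) : ℝ :=
  (res v Y * A * res v Y) i i / v i ^ 2

variable {v : Fin n → ℝ} {Y : Matrix (Fin n) (Fin n) ℝ} {η : ℝ}

theorem Margined.dot_hess (_h : Margined v Y η) (u : Fin n → ℝ) :
    u ⬝ᵥ (hess v Y *ᵥ u) = ∑ i, u i ^ 2 / v i + Ent.qform Y u := by
  rw [hess, Matrix.add_mulVec, dotProduct_add, LL.dot_mulVec_eq Y]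
  congr 1
  exact sum_congr rfl fun i _ => by rw [Matrix.mulVec_diagonal]; ring

theorem Margined.below (h : Margined v Y η) (u : Fin n → ℝ) : η * nrm u ≤ nrm (hess v Y *ᵥ u) := by
  rcases (LL.nrm_nonneg u).eq_or_lt with h0 | h0
  · rw [← h0, mul_zero]; exact LL.nrm_nonneg _
  · refine le_of_mul_le_mul_right ?_ h0
    rw [mul_assoc, ← pow_two, LL.nrm_sq]
    refine (h.marg u).trans (le_of_le_of_eq ?_ (mul_comm (nrm u) _))
    rw [← h.dot_hess u]
    exact LL.dot_le _ _

theorem Margined.isUnit (h : Margined v Y η) : IsUnit (hess v Y).det := by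
  rw [← Matrix.isUnit_iff_isUnit_det, ← Matrix.mulVec_injective_iff_isUnit]
  intro a b hab
  have h0 := h.below (a - b)
  rw [Matrix.mulVec_sub, sub_eq_zero.2 hab, show nrm (0 : Fin n → ℝ) = 0 by simp [LL.nrm]] at h0
  have h2 : nrm (a - b) = 0 := by
    nlinarith [LL.nrm_nonneg (a - b), h.pos]
  funext i
  have h1 := le_trans (single_le_sum (f := fun j => (a - b) j ^ 2) (fun j _ => sq_nonneg _)
    (mem_univ i)) (LL.nrm_sq (a - b)).ge
  rw [h2] at h1
  nlinarith [show (a - b) i = a i - b i from rfl]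

theorem Margined.hess_res (h : Margined v Y η) : hess v Y * res v Y = 1 :=
  Matrix.mul_nonsing_inv _ h.isUnit

theorem Margined.res_hess (h : Margined v Y η) : res v Y * hess v Y = 1 :=
  Matrix.nonsing_inv_mul _ h.isUnit

theorem Margined.norm_res (h : Margined v Y η) : ‖res v Y‖ ≤ 1 / η := by
  refine LL.norm_le _ (by have := h.pos; positivity) fun u => ?_
  have := h.below (res v Y *ᵥ u)
  rw [Matrix.mulVec_mulVec, h.hess_res, Matrix.one_mulVec] at this
  rw [div_mul_eq_mul_div, one_mul, le_div_iff₀ h.pos]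
  linarith

theorem Margined.res_symm (h : Margined v Y η) : (res v Y).transpose = res v Y := by
  rw [res, Matrix.transpose_nonsing_inv]
  congr 1
  rw [hess, Matrix.transpose_add, Matrix.diagonal_transpose, h.sym]

theorem Margined.pmat_eq (h : Margined v Y η) : pmat v Y = 1 - Y * res v Y := by
  refine eq_sub_of_add_eq ?_
  rw [pmat, ← add_mul]
  exact h.hess_res

theorem Margined.res_eq (h : Margined v Y η) : res v Y = Matrix.diagonal v * pmat v Y := by
  rw [pmat, ← mul_assoc, Matrix.diagonal_mul_diagonal]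
  have : (fun i => v i * (1 / v i)) = fun _ => (1 : ℝ) := funext fun i => mul_one_div_cancel (h.v0 i).ne'
  rw [this, Matrix.diagonal_one, one_mul]

theorem Margined.norm_pmat (h : Margined v Y η) : ‖pmat v Y‖ ≤ 1 + ‖Y‖ / η := by
  rw [h.pmat_eq]
  refine (norm_sub_le _ _).trans (add_le_add LL.norm_one_le ((norm_mul_le _ _).trans ?_))
  rw [div_eq_mul_inv, ← one_div]
  exact mul_le_mul_of_nonneg_left h.norm_res (norm_nonneg _)

theorem Margined.zdiag_eq (h : Margined v Y η) (A : Matrix (Fin n) (Fin n) ℝ) (i : Fin n) :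
    zdiag v Y A i = (pmat v Y * A * (pmat v Y).transpose) i i := by
  have e : (pmat v Y).transpose = res v Y * Matrix.diagonal (fun i => 1 / v i) := by
    rw [pmat, Matrix.transpose_mul, h.res_symm, Matrix.diagonal_transpose]
  rw [e, pmat, zdiag]
  simp only [mul_assoc]
  rw [Matrix.diagonal_mul, ← mul_assoc A, ← mul_assoc (res v Y) _ (Matrix.diagonal _), Matrix.mul_diagonal]
  ring

/-- The change of the normalised resolvent under a change of `Y`. -/
theorem pmat_sub {Y' : Matrix (Fin n) (Fin n) ℝ} (h : Margined v Y η) (h' : Margined v Y' η) :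
    pmat v Y' - pmat v Y = pmat v Y' * (Y - Y') * res v Y := by
  have e : hess v Y - hess v Y' = Y - Y' := by rw [hess, hess, add_sub_add_left_eq_sub]
  have e2 : res v Y' - res v Y = res v Y' * (Y - Y') * res v Y := by
    rw [← e, mul_sub, sub_mul, mul_assoc, h.hess_res, h'.res_hess, mul_one, one_mul]
  rw [pmat, pmat, ← mul_sub, e2]
  simp only [mul_assoc]

/-- A rank-one change of `Y` moves the normalised diagonal by a bounded amount in `ℓ²`. -/
theorem zdiag_rank (A : Matrix (Fin n) (Fin n) ℝ) {m : Fin n → ℝ} {Y' : Matrix (Fin n) (Fin n) ℝ}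
    {c Λ a : ℝ} (h : Margined v Y η) (h' : Margined v Y' η) (hd : Y - Y' = c • Matrix.vecMulVec m m)
    (hY : ‖Y‖ ≤ Λ) (hY' : ‖Y'‖ ≤ Λ) (hA : ‖A‖ ≤ a) (hc : |c| * nrm m ^ 2 ≤ 2) :
    nrm (fun i => zdiag v Y' A i - zdiag v Y A i) ≤ 4 * (1 + Λ / η) ^ 2 * a / η := by
  set P := pmat v Y
  set P' := pmat v Y'
  set u : Fin n → ℝ := c • (P' *ᵥ m) with hu
  set w : Fin n → ℝ := res v Y *ᵥ m with hw
  have hη := h.pos
  have e : P' - P = Matrix.vecMulVec u w := by
    rw [pmat_sub h h', hd, hu, hw, Matrix.mul_smul, Matrix.smul_mul, Matrix.mul_vecMulVec,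
      Matrix.vecMulVec_mul, Matrix.smul_vecMulVec, ← Matrix.mulVec_transpose, h.res_symm]
  have hdiag : (fun i => zdiag v Y' A i - zdiag v Y A i)
      = (fun i => u i * ((P' * A) *ᵥ w) i) + fun i => u i * ((P * A.transpose) *ᵥ w) i := by
    funext i
    simp only [h.zdiag_eq, h'.zdiag_eq, Pi.add_apply]
    have e1 : P' * A * P'.transpose - P * A * P.transpose
        = P' * A * (P' - P).transpose + (P' - P) * A * P.transpose := by
      rw [Matrix.transpose_sub]; simp only [mul_sub, sub_mul]; abel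
    show (P' * A * P'.transpose) i i - (P * A * P.transpose) i i = _
    rw [← Matrix.sub_apply, e1, e, Matrix.add_apply, Matrix.transpose_vecMulVec, Matrix.mul_vecMulVec,
      Matrix.vecMulVec_apply, mul_assoc (Matrix.vecMulVec u w), Matrix.vecMulVec_mul,
      Matrix.vecMulVec_apply, ← Matrix.mulVec_transpose, Matrix.transpose_mul,
      Matrix.transpose_transpose]
    ring
  have key : ∀ x : Fin n → ℝ, nrm (fun i => u i * x i) ≤ nrm u * nrm x := fun x => by
    refine le_trans (sqrt_le_sqrt ?_) (sqrt_mul (sum_nonneg fun i _ => sq_nonneg _) _).le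
    rw [sum_mul]
    refine sum_le_sum fun i _ => ?_
    rw [mul_pow]
    exact mul_le_mul_of_nonneg_left
      (single_le_sum (f := fun j => x j ^ 2) (fun j _ => sq_nonneg _) (mem_univ i)) (sq_nonneg _)
  set p := 1 + Λ / η with hp
  have hp1 : 0 ≤ p := le_trans (by positivity) (h.norm_pmat.trans (add_le_add le_rfl
    (div_le_div_of_nonneg_right hY hη.le)))
  have hP : ‖P‖ ≤ p := h.norm_pmat.trans (add_le_add le_rfl (div_le_div_of_nonneg_right hY hη.le))
  have hP' : ‖P'‖ ≤ p := h'.norm_pmat.trans (add_le_add le_rfl (div_le_div_of_nonneg_right hY' hη.le))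
  have ha : 0 ≤ a := (norm_nonneg A).trans hA
  have hw' : nrm w ≤ 1 / η * nrm m :=
    (LL.nrm_mulVec _ _).trans (mul_le_mul_of_nonneg_right h.norm_res (LL.nrm_nonneg _))
  have hu' : nrm u ≤ |c| * (p * nrm m) := by
    have : nrm u = |c| * nrm (P' *ᵥ m) := by
      rw [hu, LL.nrm, LL.nrm, ← sqrt_sq_eq_abs, ← sqrt_mul (sq_nonneg _), mul_sum]
      simp [mul_pow]
    rw [this]
    exact mul_le_mul_of_nonneg_left ((LL.nrm_mulVec _ _).trans
      (mul_le_mul_of_nonneg_right hP' (LL.nrm_nonneg _))) (abs_nonneg _)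
  have hm := LL.nrm_nonneg m
  have hside : ∀ Q : Matrix (Fin n) (Fin n) ℝ, ‖Q‖ ≤ p * a →
      nrm (fun i => u i * (Q *ᵥ w) i) ≤ 2 * p ^ 2 * a / η := fun Q hQ => by
    refine (key _).trans ((mul_le_mul hu' ((LL.nrm_mulVec _ _).trans (mul_le_mul hQ hw'
      (LL.nrm_nonneg _) (by positivity))) (LL.nrm_nonneg _) (by positivity)).trans ?_)
    calc |c| * (p * nrm m) * (p * a * (1 / η * nrm m)) = |c| * nrm m ^ 2 * (p ^ 2 * a / η) := by ring
      _ ≤ 2 * (p ^ 2 * a / η) := mul_le_mul_of_nonneg_right hc (by positivity)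
      _ = _ := by ring
  rw [hdiag]
  refine (LL.nrm_add _ _).trans ((add_le_add
    (hside _ ((norm_mul_le _ _).trans (mul_le_mul hP' hA (norm_nonneg _) hp1)))
    (hside _ ((norm_mul_le _ _).trans (mul_le_mul hP (by rwa [LL.norm_transpose]) (norm_nonneg _) hp1)))).trans ?_)
  exact le_of_eq (by ring)

end Vale.Agent.P150.Fast.StepC
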