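import Vale.Agent.P150.Fast.LLPerturb
import Vale.Agent.P150.Fast.Step.Lin

/-!
The value of the normalised diagonal of `J A J` in the two phases (P150): the channel of the
coupling in phase II, the isotropic one in phase I, both from the local law, and the cancellation of
the curvature of the centres against the drift.
-/

open Real Finset
open scoped Matrix Matrix.Norms.L2Operator

namespace Vale.Agent.P150.Fast.StepC

open LL (nrm)

variable {n : ℕ}

/-- The Onsager-corrected coupling without the rank-one part. -/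
noncomputable def yZero (n : ℕ) (β s : ℝ) (d : Dis n) (v : Fin n → ℝ) : Matrix (Fin n) (Fin n) ℝ :=
  LL.xm n β s (tapR β s v) d

theorem tapH_eq (β s : ℝ) (d : Dis n) (v : Fin n → ℝ) :
    tapH n β s d v = hess v (yZero n β s d v) := by
  unfold tapH hess yZero LL.xm; rw [← add_sub_assoc]

/-- The conclusion of the local law at one point. -/
def LawAt (β s C : ℝ) (d : Dis n) (v : Fin n → ℝ) : Prop :=
  nrm (fun i => zdiag v (yZero n β s d v) (aop n β d) i - llVal β s v) ≤ C

theorem lawAt_of_sum {β s C : ℝ} {d : Dis n} {v : Fin n → ℝ}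
    (h : ∑ i, (((tapH n β s d v)⁻¹ * aop n β d * (tapH n β s d v)⁻¹) i i / v i ^ 2 - llVal β s v) ^ 2 ≤ C) :
    LawAt β s (√C) d v := by
  refine sqrt_le_sqrt (le_of_eq_of_le ?_ h)
  exact sum_congr rfl fun i _ => by simp only [zdiag, res, tapH_eq]

theorem nrm_smul (c : ℝ) (x : Fin n → ℝ) : nrm (fun i => c * x i) = |c| * nrm x := by
  simp only [LL.nrm, mul_pow, ← mul_sum]
  rw [sqrt_mul (sq_nonneg _), sqrt_sq_eq_abs]

/-- The isotropic value from the local law at two couplings of the same matrix. -/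
theorem law_iso {β β' C C' : ℝ} {d : Dis n} {v : Fin n → ℝ} (hβ : 0 ≤ β) (hb : β < β')
    (h : LawAt β 1 C d v) (h' : LawAt β' (β / β') C' d v) :
    nrm (fun i => zdiag v (yZero n β 1 d v) 1 i - 1 / (1 - β ^ 2 * vbar fun i => v i ^ 2))
      ≤ (β' * C + β * C') / (β' - β) := by
  have hb' : 0 < β' := hβ.trans_lt hb
  have hk : β' • kmat n β d = β • kmat n β' d := by
    ext i j; simp only [Matrix.smul_apply, kmat_apply, smul_eq_mul]; ring
  have hk' : (β / β') • kmat n β' d = kmat n β d := by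
    rw [div_eq_mul_inv, mul_comm, mul_smul, ← hk, inv_smul_smul₀ hb'.ne']
  have hy : yZero n β' (β / β') d v = yZero n β 1 d v := by
    have e : tapR β' (β / β') v = tapR β 1 v := by rw [tapR, tapR]; field_simp
    rw [yZero, yZero, LL.xm, LL.xm, e, hk', one_smul]
  have hA : β' • aop n β d - β • aop n β' d = (β' - β) • (1 : Matrix (Fin n) (Fin n) ℝ) := by
    rw [aop, aop, smul_add, smul_add, hk, add_sub_add_left_eq_sub, smul_smul, smul_smul, ← sub_smul]
    congr 1; rw [shift, shift]; ring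
  set w := vbar fun i => v i ^ 2
  have e : ∀ i, (β' - β) * (zdiag v (yZero n β 1 d v) 1 i - 1 / (1 - β ^ 2 * w))
      = β' * (zdiag v (yZero n β 1 d v) (aop n β d) i - llVal β 1 v)
        + (-β) * (zdiag v (yZero n β' (β / β') d v) (aop n β' d) i - llVal β' (β / β') v) := fun i => by
    have e1 : (β' - β) * zdiag v (yZero n β 1 d v) 1 i
        = β' * zdiag v (yZero n β 1 d v) (aop n β d) i - β * zdiag v (yZero n β 1 d v) (aop n β' d) i := by
      set J := res v (yZero n β 1 d v) with hJ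
      have := congrArg (fun M => (J * M * J) i i) hA
      simp only [mul_sub, sub_mul, Matrix.mul_smul, Matrix.smul_mul, Matrix.sub_apply, Matrix.smul_apply,
        smul_eq_mul] at this
      simp only [zdiag, ← hJ, mul_div_assoc', ← sub_div, this]
      ring
    have e2 : (β' - β) * (1 / (1 - β ^ 2 * w)) = β' * llVal β 1 v - β * llVal β' (β / β') v := by
      have a1 : (1 : ℝ) ^ 2 * β ^ 2 * w = β ^ 2 * w := by ring
      have a2 : (β / β') ^ 2 * β' ^ 2 * w = β ^ 2 * w := by field_simp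
      have a3 : 2 * (β / β') * β' ^ 2 * vbar v = 2 * β * β' * vbar v := by field_simp
      rw [llVal, llVal, show (vbar fun i => v i ^ 2) = w from rfl, a1, a2, a3, shift, shift,
        mul_div_assoc', mul_div_assoc', mul_div_assoc', ← sub_div]
      congr 1; ring
    rw [hy, mul_sub, e1, e2]; ring
  have h2 : |β' - β| * nrm (fun i => zdiag v (yZero n β 1 d v) 1 i - 1 / (1 - β ^ 2 * w))
      ≤ β' * C + β * C' := by
    rw [← nrm_smul]
    simp only [e]
    refine (LL.nrm_add _ _).trans (add_le_add ?_ ?_)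
    · rw [nrm_smul, abs_of_pos hb']; exact mul_le_mul_of_nonneg_left h hb'.le
    · rw [nrm_smul, abs_neg, abs_of_nonneg hβ]; exact mul_le_mul_of_nonneg_left h' hβ
  rw [abs_of_pos (sub_pos.2 hb)] at h2
  rw [le_div_iff₀ (sub_pos.2 hb)]
  linarith

/-- The curvature of the centre cancels against its drift. -/
theorem curvature {τ κ C : ℝ} {v m z : Fin n → ℝ} (hn : 1 ≤ n) (hτ : 0 ≤ τ) (hτ1 : τ < 1)
    (hv : ∀ i, 0 ≤ v i ∧ v i ≤ 1) (hm : ∀ i, |m i| ≤ 1)
    (hz : nrm (fun i => z i - κ / (1 - τ * vbar fun i => v i ^ 2)) ≤ C) :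
    nrm (fun i => m i * (κ - z i + τ * ((∑ i, v i ^ 2 * z i) / n))) ≤ 2 * C := by
  set w := vbar fun i => v i ^ 2 with hw
  set l := κ / (1 - τ * w) with hl
  set e : Fin n → ℝ := fun i => z i - l with he
  set g := (∑ i, v i ^ 2 * e i) / n with hg
  have hn0 : (0 : ℝ) < n := by exact_mod_cast hn
  have hw1 : w ≤ 1 := by
    rw [hw, vbar, div_le_one hn0]
    exact (sum_le_sum fun i _ => pow_le_one₀ (hv i).1 (hv i).2).trans (by simp)
  have hw0 : 0 ≤ w := div_nonneg (sum_nonneg fun i _ => sq_nonneg _) hn0.le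
  have hden : 1 - τ * w ≠ 0 := by nlinarith
  have hid : ∀ i, κ - z i + τ * ((∑ i, v i ^ 2 * z i) / n) = -e i + τ * g := fun i => by
    have e1 : (∑ i, v i ^ 2 * z i) / n = l * w + g := by
      rw [hg, hw, vbar]
      simp only [he, mul_sub, sum_sub_distrib, ← sum_mul]
      field_simp; ring
    have e2 : κ = l * (1 - τ * w) := (div_mul_cancel₀ _ hden).symm
    rw [e1, he, e2]; ring
  have hgb : √(n : ℝ) * |g| ≤ nrm e := by
    have h1 : |∑ i, v i ^ 2 * e i| ≤ √n * nrm e := by
      refine abs_le_of_sq_le_sq ((sum_mul_sq_le_sq_mul_sq _ _ _).trans ?_)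
        (mul_nonneg (sqrt_nonneg _) (LL.nrm_nonneg _))
      rw [mul_pow, sq_sqrt hn0.le, LL.nrm_sq]
      refine mul_le_mul_of_nonneg_right ?_ (sum_nonneg fun i _ => sq_nonneg _)
      refine (sum_le_sum fun i _ => ?_).trans_eq (show ∑ _i : Fin n, (1 : ℝ) = n by simp)
      exact pow_le_one₀ (sq_nonneg _) (pow_le_one₀ (hv i).1 (hv i).2)
    rw [hg, abs_div, abs_of_pos hn0, mul_div_assoc', div_le_iff₀ hn0]
    refine (mul_le_mul_of_nonneg_left h1 (sqrt_nonneg (n : ℝ))).trans_eq ?_
    rw [← mul_assoc, mul_self_sqrt hn0.le, mul_comm]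
  calc nrm (fun i => m i * (κ - z i + τ * ((∑ i, v i ^ 2 * z i) / n)))
      ≤ nrm (fun i => -e i + τ * g) := sqrt_le_sqrt (sum_le_sum fun i _ => by
        simp only [hid, mul_pow]
        exact mul_le_of_le_one_left (sq_nonneg _) ((sq_le_one_iff_abs_le_one _).2 (hm i)))
    _ ≤ nrm (fun i => -e i) + nrm (fun _ => τ * g) := LL.nrm_add _ _
    _ ≤ C + C := by
      refine add_le_add ((LL.nrm_neg e).trans_le hz) (le_trans ?_ hz)
      have : nrm (fun _ : Fin n => τ * g) = τ * (√n * |g|) := by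
        have e3 : ∑ _i : Fin n, (τ * g) ^ 2 = τ ^ 2 * (n * g ^ 2) := by simp; ring
        rw [LL.nrm, e3, sqrt_mul (sq_nonneg τ), sqrt_sq hτ, sqrt_mul (Nat.cast_nonneg n), sqrt_sq_eq_abs]
      rw [this]
      exact (mul_le_of_le_one_left (by positivity) hτ1.le).trans hgb
    _ = _ := by ring

end Vale.Agent.P150.Fast.StepC
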