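import Vale.Agent.P150.Fast.Drift.Extra
import Vale.Agent.P150.Fast.Step.Root
import Vale.Agent.P150.Fast.Step.Value

/-!
The centres satisfy the one-step condition at every good node (P150): the local law gives the
curvature, the root map gives the nearby TAP point.
-/

open MeasureTheory Real Finset
open scoped Matrix Matrix.Norms.L2Operator

namespace Vale.Agent.P150.Fast.StepC

open LL (nrm)

variable {n : ℕ}

/-- The local law in the form used by the steps. -/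
structure Laws (β η C : ℝ) (d : Dis n) : Prop where
  chan : ∀ s : ℝ, 0 ≤ s → s ≤ 1 → ∀ v : Fin n → ℝ, (∀ i, 0 < v i ∧ v i ≤ 1) →
    Margined v (yZero n β s d v) η →
      nrm (fun i => zdiag v (yZero n β s d v) (aop n β d) i - llVal β s v) ≤ C
  iso : ∀ v : Fin n → ℝ, (∀ i, 0 < v i ∧ v i ≤ 1) → Margined v (yZero n β 1 d v) η →
      nrm (fun i => zdiag v (yZero n β 1 d v) 1 i - 1 / (1 - β ^ 2 * vbar fun i => v i ^ 2)) ≤ C

/-- The standing hypotheses on the coupling, the factor and the centres. -/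
structure CtrData (β Λ r C : ℝ) (d : Dis n) (Bf : Fin n → Fin n → ℝ) (N : ℕ)
    (a : ℕ → Vec n → Vec n) (p : Par) (Lc : ℝ) : Prop where
  hn : 1 ≤ n
  hβ : 0 ≤ β
  hβ1 : β < 1
  ok : p.Ok
  hN : 1 ≤ N
  hr : 1 ≤ r
  hK : ‖kmat n β d‖ ≤ Λ
  factor : (Matrix.of Bf).transpose * Matrix.of Bf = aop n β d
  hBn : ‖(Matrix.of Bf).transpose‖ ≤ r
  hLc : 0 ≤ Lc
  lip : ∀ k h h', nrm (a k h' - a k h) ≤ Lc * nrm (h' - h)
  law : Laws β (p.η / 4) C d
  mesh : (Lc + 1) * (Λ + 5) * r * √(1 / (N : ℝ)) ≤ p.ε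

/-- The bound on the curvature term. -/
noncomputable def curvB (η Λ r C : ℝ) : ℝ := 2 * (C + 4 * (1 + (Λ + 5) / η) ^ 2 * r ^ 2 / η)

theorem of_idB : (Matrix.of (idB n) : Matrix (Fin n) (Fin n) ℝ) = 1 := by
  ext i j; simp [idB, Matrix.one_apply]

theorem vv_mem (b : Vec n) (i : Fin n) : 0 < vv b i ∧ vv b i ≤ 1 := by
  refine ⟨?_, sub_le_self _ (sq_nonneg _)⟩
  rw [vv, sub_pos, ← sq_abs]
  exact pow_lt_one₀ (abs_nonneg _) (abs_tanh_lt_one (b i)) two_ne_zero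

theorem vbar_vv (hn : 1 ≤ n) (b : Vec n) : vbar (vv b) = 1 - (∑ j, tv b j ^ 2) / n := by
  have hn0 : (n : ℝ) ≠ 0 := Nat.cast_ne_zero.2 (by omega)
  rw [vbar, eq_sub_iff_add_eq, ← add_div, ← sum_add_distrib]
  simp [vv, tv, hn0]

theorem yZero_eq (hn : 1 ≤ n) (β s : ℝ) (d : Dis n) (b : Vec n) :
    yZero n β s d (vv b) - yFull (kmat n β d) s (s ^ 2 * β ^ 2) b
      = (2 * (s ^ 2 * β ^ 2) / n) • Matrix.vecMulVec (tv b) (tv b) := by
  rw [yZero, yFull, LL.xm, tapR, vbar_vv hn b, sub_sub_cancel]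

theorem margined_zero (hn : 1 ≤ n) {β s η : ℝ} {d : Dis n} {b : Vec n} (hs : 0 ≤ s)
    (h : Margined (vv b) (yFull (kmat n β d) s (s ^ 2 * β ^ 2) b) η) :
    Margined (vv b) (yZero n β s d (vv b)) η := by
  refine ⟨?_, h.pos, h.v0, fun u => (h.marg u).trans ?_⟩
  · rw [yZero]; exact LL.xm_transpose _ _ _ _
  have e := yZero_eq hn β s d b
  rw [sub_eq_iff_eq_add] at e
  rw [e, ← LL.dot_mulVec_eq, ← LL.dot_mulVec_eq, Matrix.add_mulVec, dotProduct_add]
  have e2 : 0 ≤ u ⬝ᵥ (((2 * (s ^ 2 * β ^ 2) / (n : ℝ)) • Matrix.vecMulVec (tv b) (tv b)) *ᵥ u) := by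
    rw [Matrix.smul_mulVec, Matrix.vecMulVec_mulVec, dotProduct_smul, dotProduct_smul, smul_eq_mul,
      dotProduct_comm u (tv b), MulOpposite.smul_eq_mul_unop, MulOpposite.unop_op]
    exact mul_nonneg (by positivity) (mul_self_nonneg _)
  linarith

/-- The curvature from the local law. -/
theorem curv_of_law (hn : 1 ≤ n) {β Λ η C r s σ c : ℝ} {d : Dis n} {A : Matrix (Fin n) (Fin n) ℝ}
    {b : Vec n} (hβ : 0 ≤ β) (hβ1 : β < 1) (hK : ‖kmat n β d‖ ≤ Λ) (hs : 0 ≤ s) (hs1 : s ≤ 1)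
    (hA : ‖A‖ ≤ r ^ 2) (h : Margined (vv b) (yFull (kmat n β d) s (s ^ 2 * β ^ 2) b) η)
    (hz : nrm (fun i => zdiag (vv b) (yZero n β s d (vv b)) A i
      - (c + σ * (2 * s * β ^ 2) * vbar (vv b)) / (1 - s ^ 2 * β ^ 2 * vbar fun i => vv b i ^ 2)) ≤ C) :
    nrm (fun i => tv b i * (c + σ * (2 * s * β ^ 2) * (1 - (∑ j, tv b j ^ 2) / n)
      - zdiag (vv b) (yFull (kmat n β d) s (s ^ 2 * β ^ 2) b) A i
      + s ^ 2 * β ^ 2 * ((∑ j, vv b j ^ 2 * zdiag (vv b) (yFull (kmat n β d) s (s ^ 2 * β ^ 2) b) A j) / n)))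
      ≤ curvB η Λ r C := by
  set τ := s ^ 2 * β ^ 2 with hτd
  have hτ : 0 ≤ τ := by positivity
  have hτ1 : τ < 1 := lt_of_le_of_lt (mul_le_of_le_one_left (sq_nonneg _) (pow_le_one₀ hs hs1))
    (pow_lt_one₀ hβ hβ1 two_ne_zero)
  set Y := yFull (kmat n β d) s τ b
  set Y0 := yZero n β s d (vv b)
  have hY : ‖Y‖ ≤ Λ + 5 := (norm_yFull_le hK (by rw [abs_of_nonneg hs]; exact hs1) hτ hτ1.le hn b).trans
    (by linarith)
  have hY0 : ‖Y0‖ ≤ Λ + 5 := by
    refine (LL.norm_xm_le hK hs hs1 ?_).trans (by linarith)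
    rw [tapR, vbar_vv hn b, abs_mul, abs_of_nonneg hτ]
    exact (mul_le_one₀ hτ1.le (abs_nonneg _) (q_facts hn (nrm_tv_le b))).trans one_le_two
  have hc : |2 * τ / n| * nrm (tv b) ^ 2 ≤ 2 := by
    have hn0 : (0 : ℝ) < n := by exact_mod_cast hn
    rw [abs_of_nonneg (by positivity), div_mul_eq_mul_div, div_le_iff₀ hn0]
    have := pow_le_pow_left₀ (LL.nrm_nonneg _) (nrm_tv_le b) 2
    rw [sq_sqrt hn0.le] at this
    nlinarith [mul_le_mul_of_nonneg_left this hτ]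
  have hrank := zdiag_rank A (margined_zero hn hs h) h (yZero_eq hn β s d b) hY0 hY hA hc
  rw [← vbar_vv hn b]
  refine curvature hn hτ hτ1 (fun i => ⟨(vv_mem b i).1.le, (vv_mem b i).2⟩)
    (fun i => (abs_tanh_lt_one (b i)).le) ?_
  set l := (c + σ * (2 * s * β ^ 2) * vbar (vv b)) / (1 - τ * vbar fun i => vv b i ^ 2)
  have e : (fun i => zdiag (vv b) Y A i - l)
      = (fun i => zdiag (vv b) Y0 A i - l) + fun i => zdiag (vv b) Y A i - zdiag (vv b) Y0 A i := by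
    funext i; simp only [Pi.add_apply]; ring
  rw [e]
  exact (LL.nrm_add _ _).trans (add_le_add hz hrank)

variable {β Λ r C Lc : ℝ} {d : Dis n} {Bf : Fin n → Fin n → ℝ} {N : ℕ} {a : ℕ → Vec n → Vec n} {p : Par}

/-- The factor of a level, its phase and its shift. -/
theorem phase_facts (D : CtrData β Λ r C d Bf N a p Lc) (k : ℕ) :
    ∃ σ c : ℝ, 0 ≤ σ ∧ σ ≤ 1 ∧
      ‖(Matrix.of (phaseB Bf N k)).transpose‖ ≤ r ∧
      (Matrix.of (phaseB Bf N k)).transpose * Matrix.of (phaseB Bf N k)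
        = σ • kmat n β d + c • (1 : Matrix (Fin n) (Fin n) ℝ) ∧
      scl N k = scl N (k + 1) + -(σ * (1 / (N : ℝ)) ^ 2) ∧
      ∀ b : Vec n, Margined (vv b) (yZero n β (scl N (k + 1)) d (vv b)) (p.η / 4) →
        nrm (fun i => zdiag (vv b) (yZero n β (scl N (k + 1)) d (vv b))
          (σ • kmat n β d + c • (1 : Matrix (Fin n) (Fin n) ℝ)) i
          - (c + σ * (2 * scl N (k + 1) * β ^ 2) * vbar (vv b))
            / (1 - scl N (k + 1) ^ 2 * β ^ 2 * vbar fun i => vv b i ^ 2)) ≤ C := by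
  have hN0 : (N : ℝ) ≠ 0 := Nat.cast_ne_zero.2 (by have := D.hN; omega)
  obtain ⟨s0, s1⟩ := scl_mem N (k + 1)
  by_cases hk : k < N ^ 2
  · have hp : phaseB Bf N k = Bf := if_pos hk
    refine ⟨1, shift β, zero_le_one, le_rfl, by rw [hp]; exact D.hBn,
      by rw [hp, one_smul]; exact D.factor, ?_, fun b hb => ?_⟩
    · rw [scl, scl, min_eq_left hk.le, min_eq_left (Nat.succ_le_of_lt hk)]
      push_cast
      field_simp
      ring
    · have h := D.law.chan _ s0 s1 (vv b) (vv_mem b) hb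
      simp only [one_smul, one_mul]
      exact h
  · have hp : phaseB Bf N k = idB n := if_neg hk
    have hs : scl N (k + 1) = 1 := by
      rw [scl, min_eq_right (by omega)]; push_cast; field_simp
    refine ⟨0, 1, le_rfl, zero_le_one, ?_, ?_, ?_, fun b hb => ?_⟩
    · rw [hp, of_idB, Matrix.transpose_one]; exact LL.norm_one_le.trans D.hr
    · rw [hp, of_idB, Matrix.transpose_one, mul_one, zero_smul, one_smul, zero_add]
    · rw [zero_mul, neg_zero, add_zero, scl, scl, min_eq_right (by omega), min_eq_right (by omega)]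
    · rw [hs] at hb ⊢
      have h := D.law.iso (vv b) (vv_mem b) hb
      simp only [zero_smul, one_smul, zero_add, zero_mul, add_zero, one_pow, one_mul]
      exact h

/-- The step condition at a good node. -/
theorem stepOK_centre (D : CtrData β Λ r C d Bf N a p Lc) {L ρ P : ℝ}
    (hL : r ^ 2 / (p.η / 4) ≤ L)
    (hρ : 1 / (p.η / 4) * (curvB (p.η / 4) Λ r C + 2 * r ^ 2 / (p.η / 4) ^ 2) ≤ ρ)
    (hP : stepPoly n Λ (p.η / 4) (16 * (Λ + 3) / p.η) r ≤ P) {k : ℕ} {h : Vec n}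
    (hh : h ∈ goodSet (kmat n β d) β N a p (k + 1)) :
    StepOK (phaseB Bf N k) (1 / (N : ℝ)) L ρ P (centre (kmat n β d) β N a p) k h := by
  obtain ⟨hg1, hg0, hclose⟩ := hh
  obtain ⟨σ, c, hσ, hσ1, hBn, hfac, hds, hlaw⟩ := phase_facts D k
  set K := kmat n β d with hKd
  have hn := D.hn
  have hKt : K.transpose = K := LL.kmat_transpose β d
  have hok := D.ok
  have hη := hok.η0
  have hN1 : (1 : ℝ) ≤ N := by exact_mod_cast D.hN
  set t := 1 / (N : ℝ) with ht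
  have ht0 : 0 < t := by rw [ht]; positivity
  have ht1 : t ≤ 1 := by rw [ht, div_le_one (by linarith)]; exact hN1
  have hΛ : 0 ≤ Λ := (norm_nonneg _).trans D.hK
  have hr0 : (0 : ℝ) ≤ r := zero_le_one.trans D.hr
  have hsn : (0 : ℝ) ≤ √n := sqrt_nonneg _
  have hdom1 : h ∈ dom K β N a p (k + 1) :=
    (mem_dom_of_good hn hok D.hK D.hβ D.hβ1.le D.hLc D.lip hg1 (h' := h) (by
      rw [sub_self, show nrm (0 : Vec n) = 0 by simp [LL.nrm], mul_zero]
      have := hok.ε0; positivity)).1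
  obtain ⟨b, hb, hc, hB⟩ := centre_spec hn hok hKt D.hβ D.hβ1.le hdom1
  have hM : Margined (vv b) (yFull K (scl N (k + 1)) (scl N (k + 1) ^ 2 * β ^ 2) b) (p.η / 4) :=
    margined_of_ball hKt (by linarith) (by linarith [hok.θ0]) (by linarith [hok.σ0]) hB
  obtain ⟨s0, s1⟩ := scl_mem N (k + 1)
  have hA' : ‖σ • K + c • (1 : Matrix (Fin n) (Fin n) ℝ)‖ ≤ r ^ 2 := by
    rw [← hfac, pow_two]
    exact (norm_mul_le _ _).trans (mul_le_mul hBn (by rw [← LL.norm_transpose]; exact hBn) (norm_nonneg _) hr0)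
  refine stepOK_of (β := β) (Λ := Λ) (η := p.η / 4) (C₁ := 16 * (Λ + 3) / p.η) (K := K)
    (A := σ • K + c • (1 : Matrix (Fin n) (Fin n) ℝ)) (σ := σ) (c := c) (s := scl N (k + 1)) (a := b)
    { hn := hn, hβ := D.hβ, hβ1 := D.hβ1.le, hs := s0, hs1 := s1, hσ := hσ, hσ1 := hσ1, ht := ht0,
      ht1 := ht1, hC₁ := by positivity, hK := D.hK, factor := hfac, hA := rfl, hBn := hBn
      root := hb.1, centre := hc, margin := hM
      curv := curv_of_law hn D.hβ D.hβ1 D.hK s0 s1 hA' hM (hlaw b (margined_zero hn s0 hM))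
      bdd := abs_centre_le K β N a p
      meas := measurable_centre hn hok hKt D.hK D.hβ D.hβ1.le D.hLc D.lip k
      near := ?_ } hL hρ hP
  intro g hg
  rw [← hds]
  set h' := shiftH (phaseB Bf N k) t h g with hh'
  set e := (Matrix.of (phaseB Bf N k)).transpose *ᵥ g
  have hd : h' - h = t • e := by rw [hh', shiftH_eq]; abel
  have hne : nrm (h' - h) = t * nrm e := by rw [hd, nrm_const_smul, abs_of_pos ht0]
  have hsq : t * nrm g ≤ √t := by
    calc t * nrm g = √t * (√t * nrm g) := by rw [← mul_assoc, mul_self_sqrt ht0.le]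
      _ ≤ √t := mul_le_of_le_one_right (sqrt_nonneg _) hg
  have hsmall : (Lc + 1) * (Λ + 5) * nrm (h' - h) ≤ p.ε * √n := by
    have h1 : nrm (h' - h) ≤ r * √t := by
      rw [hne]
      calc t * nrm e ≤ t * (r * nrm g) := mul_le_mul_of_nonneg_left
            ((LL.nrm_mulVec _ _).trans (mul_le_mul_of_nonneg_right hBn (LL.nrm_nonneg _))) ht0.le
        _ = r * (t * nrm g) := by ring
        _ ≤ _ := mul_le_mul_of_nonneg_left hsq hr0
    have := D.hLc
    refine (mul_le_mul_of_nonneg_left h1 (by positivity)).trans ?_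
    calc (Lc + 1) * (Λ + 5) * (r * √t) = (Lc + 1) * (Λ + 5) * r * √t := by ring
      _ ≤ p.ε := D.mesh
      _ ≤ p.ε * √n := le_mul_of_one_le_right hok.ε0.le (one_le_sqrt.2 (by exact_mod_cast hn))
  obtain ⟨hdom, htv⟩ := mem_dom_of_good hn hok D.hK D.hβ D.hβ1.le D.hLc D.lip hg0 hsmall
  obtain ⟨b', hb', hc', -⟩ := centre_spec hn hok hKt D.hβ D.hβ1.le hdom
  have hcl : nrm (tv (ctr a k h') - tv (ctr a (k + 1) h)) ≤ 2 * p.δ * √n := by
    have e1 : tv (ctr a k h') - tv (ctr a (k + 1) h)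
        = (tv (ctr a k h') - tv (ctr a k h)) + (tv (ctr a k h) - tv (ctr a (k + 1) h)) := by abel
    rw [e1]
    exact (LL.nrm_add _ _).trans ((add_le_add htv hclose).trans_eq (by ring))
  have hnear := centre_near hn hok hKt D.hK D.hβ D.hβ1.le hb hB hb' hcl
  have hsd : |scl N (k + 1) - scl N k| = σ * t ^ 2 := by
    rw [hds, show scl N (k + 1) - (scl N (k + 1) + -(σ * t ^ 2)) = σ * t ^ 2 by ring,
      abs_of_nonneg (by positivity)]
  rw [hne, hsd] at hnear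
  refine ⟨b', hb'.1, hc', hnear.trans ?_⟩
  have e0 := LL.nrm_nonneg e
  rw [show 16 * (Λ + 3) / p.η = 16 / p.η * (Λ + 3) by ring, mul_assoc (16 / p.η)]
  refine mul_le_mul_of_nonneg_left ?_ (by positivity)
  nlinarith [mul_nonneg ht0.le e0, mul_nonneg (mul_nonneg hσ (sq_nonneg t)) hsn]

end Vale.Agent.P150.Fast.StepC
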