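import Vale.Agent.P150.Fast.LocalLaw
import Vale.Agent.P150.Fast.GoeNorm
import Vale.Agent.P150.Fast.Step.Centres

/-!
The local laws used by the steps hold outside an exponentially small event (P150).
-/

open MeasureTheory Real Finset Filter
open scoped Matrix

namespace Vale.Agent.P150.Fast.StepC

open LL (nrm)

variable {n : ℕ}

theorem marg_tapH {β s η : ℝ} {d : Dis n} {v : Fin n → ℝ} (hM : Margined v (yZero n β s d v) η)
    (u : Fin n → ℝ) : η * ∑ i, u i ^ 2 ≤ Ent.qform (tapH n β s d v) u := by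
  rw [tapH_eq, ← LL.dot_mulVec_eq, hM.dot_hess]
  exact hM.marg u

/-- **The laws event.** -/
theorem lawsEvent {β η : ℝ} (hβ : 0 ≤ β) (hβ1 : β < 1) (hη : 0 < η) :
    ∃ C c : ℝ, 0 < c ∧ ∀ᶠ n : ℕ in atTop,
      (disX n).real {d | ¬ Laws β η C d} ≤ exp (-(c * n)) := by
  set β' := (1 + β) / 2 with hb'
  obtain ⟨C₀, c₀, -, hc₀, e₀⟩ := localLaw β η hβ hβ1 hη
  obtain ⟨C₁, c₁, -, hc₁, e₁⟩ := localLaw β' η (by positivity) (by linarith) hη
  set c := min c₀ c₁
  have hc : 0 < c := lt_min hc₀ hc₁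
  refine ⟨max (√C₀) ((β' * √C₀ + β * √C₁) / (β' - β)), c / 2, half_pos hc, ?_⟩
  filter_upwards [e₀, e₁, eventually_le_exp (a := 2) (half_pos hc)] with n h0 h1 h2
  have hx : ∀ {y : ℝ}, c ≤ y → exp (-(y * n)) ≤ exp (-(c * n)) := fun {y} hy =>
    exp_le_exp.2 (neg_le_neg (mul_le_mul_of_nonneg_right hy (Nat.cast_nonneg n)))
  rw [show 2 * (c / 2) * (n : ℝ) = c * n by ring] at h2
  refine le_trans (measureReal_mono (fun d hd => ?_)) ((measureReal_union_le _ _).trans
    ((add_le_add (h0.trans (hx (min_le_left _ _))) (h1.trans (hx (min_le_right _ _)))).trans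
      (by linarith)))
  by_contra hg
  simp only [Set.mem_union, Set.mem_ofPred_eq, not_or, not_not] at hg
  refine hd ⟨fun s hs hs1 v hv hM => (lawAt_of_sum (hg.1 s hs hs1 v hv (marg_tapH hM))).trans
    (le_max_left _ _), fun v hv hM => ?_⟩
  have hlt : β < β' := by rw [hb']; linarith
  have hb0 : 0 < β' := hβ.trans_lt hlt
  have hy : yZero n β' (β / β') d v = yZero n β 1 d v := by
    have e1 : tapR β' (β / β') v = tapR β 1 v := by rw [tapR, tapR]; field_simp
    have e2 : (β / β') • kmat n β' d = (1 : ℝ) • kmat n β d := by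
      rw [one_smul, kmat_eq, kmat_eq, smul_smul]; congr 1; field_simp
    rw [yZero, yZero, LL.xm, LL.xm, e1, e2]
  exact (law_iso hβ hlt (lawAt_of_sum (hg.1 1 zero_le_one le_rfl v hv (marg_tapH hM)))
    (lawAt_of_sum (hg.2 (β / β') (by positivity) ((div_le_one hb0).2 hlt.le) v hv
      (marg_tapH (by rw [hy]; exact hM))))).trans (le_max_right _ _)

end Vale.Agent.P150.Fast.StepC
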