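import Vale.Agent.P150.Fast.Step.NodeTools

/-!
The centres and good nodes exist with high probability (P150): `NodeStmt` from the event of the
iterate and the local law.
-/

open MeasureTheory Real Finset Filter
open scoped Matrix Matrix.Norms.L2Operator

namespace Vale.Agent.P150.Fast.StepC

open LL (nrm)

variable {n : ℕ}

/-- The centres of all levels. -/
noncomputable def ctrs (K : Matrix (Fin n) (Fin n) ℝ) (β : ℝ) (J U N : ℕ) (k : ℕ) (h : Vec n) : Vec n :=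
  if k ≤ N ^ 2 then satC K (scl N k) h
  else ampA K (β ^ 2) ((((U + 1) * N ^ 2 - k : ℕ) : ℝ) / (N : ℝ) ^ 2) h J

theorem ctrs_lip {β Λ : ℝ} {K : Matrix (Fin n) (Fin n) ℝ} (hK : ‖K‖ ≤ Λ) (hβ : 0 ≤ β) (hβ1 : β ≤ 1)
    (J U N : ℕ) (k : ℕ) (h h' : Vec n) :
    nrm (ctrs K β J U N k h' - ctrs K β J U N k h) ≤ (lipA Λ J + (Λ + 1)) * nrm (h' - h) := by
  have hΛ : 0 ≤ Λ := (norm_nonneg _).trans hK
  have hn0 := LL.nrm_nonneg (h' - h)
  have hL := lipA_nonneg hΛ J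
  unfold ctrs
  split
  · obtain ⟨s0, s1⟩ := scl_mem N k
    have e : satC K (scl N k) h' - satC K (scl N k) h = (h' - h) + scl N k • (K *ᵥ (tv h' - tv h)) := by
      simp only [satC, Matrix.mulVec_sub, smul_sub]; abel
    rw [e]
    refine ((LL.nrm_add _ _).trans (add_le_add le_rfl (nrm_smul_le (C := 1) (by rwa [abs_of_nonneg s0])
      ((LL.nrm_mulVec _ _).trans (mul_le_mul hK (nrm_tv_sub_le h h') (LL.nrm_nonneg _) hΛ))))).trans ?_
    nlinarith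
  · refine (amp_lip hK (sq_nonneg β) (pow_le_one₀ hβ hβ1) (by positivity) (by positivity) h h' J).2.trans ?_
    rw [sub_self, abs_zero, zero_mul, add_zero]
    exact mul_le_mul_of_nonneg_right (by linarith) hn0

/-- The parameters of the centres, uniform in the dimension. -/
structure Consts where
  (Λ η₀ ef a₀ a₁ ν ρ ηT θT σT κ CU : ℝ)
  p : Par
  (J U : ℕ)

/-- The relations between the parameters. -/
structure Consts.Ok (c : Consts) (β : ℝ) : Prop where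
  hβ : 0 ≤ β
  hβ1 : β < 1
  ok : c.p.Ok
  η : 2 * c.p.η ≤ c.ηT
  η' : 2 * c.p.η ≤ (1 - β) ^ 2 - c.η₀ - 3 * c.a₀
  η'' : 2 * c.p.η ≤ 1 / 2
  θ : 2 * c.p.θ ≤ c.θT
  σ : 2 * c.p.σ ≤ c.σT
  ν0 : 0 < c.ν
  ν : c.ν + 2 * (2 * c.p.θ) ≤ 1 / (64 * (c.Λ + 1) ^ 2)
  a₁ : c.a₁ ≤ c.ρ * c.ν
  ef : c.ρ + 2 * c.p.σ ≤ c.ef
  h32 : c.ρ + 2 * c.p.σ ≤ 1 / 32
  κν : c.κ ≤ c.ν
  κρ : c.κ ≤ c.ρ
  κ0 : 0 < c.κ
  κ1 : c.κ ≤ 1
  κε : c.Λ * (3 * √c.κ) + 2 * c.κ ≤ c.p.ε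
  κδ : 6 * √c.κ ≤ c.p.δ
  hU : 2 ≤ c.U
  κU₁ : 64 / (c.U : ℝ) + 4 * ((c.Λ + 1) ^ 2 + 1) / ((c.U : ℝ) / 4) ^ 2 ≤ c.κ
  κU₂ : c.CU / (c.U : ℝ) + 4 * ((c.Λ + 1) ^ 2 + 1) / ((c.U : ℝ) / 2) ^ 2 ≤ c.κ

/-- The step size of the moves between neighbouring levels. -/
noncomputable def moveB (Λ : ℝ) (p : Par) : ℝ := p.ε / (2 * (Λ + 4))

/-- The disorder at which the deterministic part of the argument works. -/
structure GoodD (c : Consts) (β : ℝ) (N : ℕ) (d : Dis n) : Prop where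
  hn : 1 ≤ n
  hN : 1 ≤ N
  hK : ‖kmat n β d‖ ≤ c.Λ
  form : ∀ v, Ent.qform (kmat n β d) v ≤ (2 * β + c.η₀) * ∑ i, v i ^ 2
  flat : Sparse (kmat n β d) c.ef (1 / 16)
  move : lipA c.Λ c.J / (N : ℝ) ^ 2 ≤ moveB c.Λ c.p

variable {β : ℝ} {c : Consts} {N : ℕ} {d : Dis n}

/-- A side field outside the two bad events is a good node. -/
theorem good_side (hc : c.Ok β) (hd : GoodD c β N d) {i : ℕ} (hi : i < c.U * N ^ 2) {x : Conf n}
    {g : Vec n} (hg : nrm g ≤ 2 * √n)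
    (hE : (((kmat n β d : Matrix (Fin n) (Fin n) ℝ) : Fin n → Fin n → ℝ),
      sideField ((i : ℝ) / (N : ℝ) ^ 2) x g)
        ∈ AmpGood n β c.ηT c.θT c.σT c.a₀ c.a₁ (c.p.ε / 2) c.J ((i : ℝ) / (N : ℝ) ^ 2)) :
    sideField ((i : ℝ) / (N : ℝ) ^ 2) x g
      ∈ goodSet (kmat n β d) β N (ctrs (kmat n β d) β c.J c.U N) c.p ((c.U + 1) * N ^ 2 - i) := by
  set K := kmat n β d with hKd
  set a := ctrs K β c.J c.U N
  set u := (i : ℝ) / (N : ℝ) ^ 2 with hu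
  set h := sideField u x g with hh
  have hok := hc.ok
  have hη := hok.η0
  have hθ := hok.θ0
  have hσ0 : 0 < c.p.σ := by
    have := hok.hσ
    by_contra hneg
    linarith [mul_nonpos_of_nonpos_of_nonneg (not_lt.1 hneg) (sq_nonneg c.p.θ), pow_pos hok.δ0 2]
  have hΛ : 0 ≤ c.Λ := (norm_nonneg _).trans hd.hK
  have hN0 : (0 : ℝ) < N := by exact_mod_cast hd.hN
  have hNsq : 1 ≤ N ^ 2 := Nat.one_le_pow _ _ hd.hN
  obtain ⟨k, hk⟩ : ∃ k, (c.U + 1) * N ^ 2 - i = k + 1 := ⟨(c.U + 1) * N ^ 2 - i - 1, by rw [add_one_mul]; omega⟩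
  rw [add_one_mul] at hk
  have hk1 : N ^ 2 ≤ k := by omega
  have hu0 : 0 ≤ u := by positivity
  have hctr : ∀ j, N ^ 2 < j → ctr a j h = ampA K (β ^ 2) ((((c.U + 1) * N ^ 2 - j : ℕ) : ℝ) / (N : ℝ) ^ 2) h c.J :=
    fun j hj => by rw [ctr, if_neg (by omega)]; exact if_neg (by omega)
  have hak : ctr a (k + 1) h = ampA K (β ^ 2) u h c.J := by
    rw [hctr _ (by omega), show (c.U + 1) * N ^ 2 - (k + 1) = i by rw [add_one_mul]; omega]
  have hs : 2 * c.p.σ / 2 = c.p.σ := by ring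
  have hb : Good K β N a (2 * c.p.η) (2 * c.p.θ) (2 * c.p.σ) (c.p.ε / 2) (k + 1) h :=
    good_amp hd.hn hd.hK hd.form hd.flat hc.hβ hc.hβ1.le hc.η hc.η' hc.η'' (by linarith) hc.θ hc.σ hc.ν0 hc.ν
      hc.a₁ hc.ef hc.h32 (by linarith [hok.ε0]) hE hd.hN (by omega) (Nat.succ_ne_zero k)
      (by rw [← hak, ctr, if_neg (Nat.succ_ne_zero k)])
  have hG1 : Good K β N a c.p.η c.p.θ c.p.σ c.p.ε (k + 1) h :=
    ⟨hb.1.trans (mul_le_mul_of_nonneg_right (by linarith [hok.ε0]) (sqrt_nonneg _)),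
      ball_mono (by linarith) hθ (by linarith) (by linarith) (fun i => (abs_tanh_lt_one _).le) hb.2⟩
  show h ∈ goodSet K β N a c.p ((c.U + 1) * N ^ 2 - i)
  rw [show (c.U + 1) * N ^ 2 - i = k + 1 by rw [add_one_mul]; omega]
  rcases hk1.lt_or_eq with hlt | heq
  · -- both levels above the switch
    have hδm : moveB c.Λ c.p ≤ c.p.δ := by
      rw [moveB, div_le_iff₀ (by positivity)]
      nlinarith [hok.hε, hok.η1, hok.δ0]
    have hm0 : 0 ≤ moveB c.Λ c.p := by have := hok.ε0; unfold moveB; positivity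
    have hd' : nrm (ctr a k h - ctr a (k + 1) h) ≤ moveB c.Λ c.p * √n := by
      rw [hak, hctr k hlt, show (c.U + 1) * N ^ 2 - k = i + 1 by rw [add_one_mul]; omega]
      refine (amp_lip hd.hK (sq_nonneg β) (pow_le_one₀ hc.hβ hc.hβ1.le) hu0 (by positivity) h h c.J).2.trans ?_
      rw [sub_self, show nrm (0 : Vec n) = 0 by simp [LL.nrm], zero_add, ← mul_assoc]
      refine mul_le_mul_of_nonneg_right (le_trans (le_of_eq ?_) hd.move) (sqrt_nonneg _)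
      rw [hu, ← sub_div, abs_div, abs_of_pos (pow_pos hN0 2)]
      push_cast
      rw [add_sub_cancel_left, abs_one, mul_one_div]
    obtain ⟨hk', hcl⟩ := good_move (k' := k) hd.hn hd.hK hc.hβ hc.hβ1.le (by linarith) hm0 (by
        linarith [hok.hσ, pow_le_pow_left₀ hm0 hδm 2, sq_nonneg c.p.δ]) hb (by
        rw [scl, scl, min_eq_right hk1, min_eq_right (by omega)]) hd'
      (ε' := c.p.ε) (by
        have : (c.Λ + 4) * moveB c.Λ c.p = c.p.ε / 2 := by rw [moveB]; field_simp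
        linarith)
    refine ⟨hG1, ?_, ?_⟩
    · refine ⟨hk'.1, ?_⟩
      have := ball_mono (η' := c.p.η) (θ' := c.p.θ) (σ' := c.p.σ) (by linarith [hok.hδ]) hθ (by linarith)
        (by linarith) (fun i => (abs_tanh_lt_one _).le) hk'.2
      exact this
    · rw [← LL.nrm_neg, neg_sub]
      exact hcl.trans (mul_le_mul_of_nonneg_right hδm (sqrt_nonneg _))
  · -- the switch
    have hU2 : (2 : ℝ) ≤ c.U := by exact_mod_cast hc.hU
    have hi' : i + 1 = c.U * N ^ 2 := by omega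
    have huU : (c.U : ℝ) / 2 ≤ u ∧ u ≤ c.U := by
      have e : (i : ℝ) + 1 = c.U * (N : ℝ) ^ 2 := by exact_mod_cast hi'
      have hN1 : (1 : ℝ) ≤ (N : ℝ) ^ 2 := by exact_mod_cast hNsq
      have hN2 : (0 : ℝ) < (N : ℝ) ^ 2 := by positivity
      rw [hu]
      refine ⟨?_, ?_⟩
      · rw [le_div_iff₀ hN2]; nlinarith
      · rw [div_le_iff₀ hN2]; linarith
    have hL := large_side (by linarith) huU.1 huU.2 x hg
    have hU4 : (0 : ℝ) < (c.U : ℝ) / 4 := by linarith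
    have hκ4 : 64 / (c.U : ℝ) + 4 * (c.Λ ^ 2 + 1) / ((c.U : ℝ) / 4) ^ 2 ≤ c.κ := by
      refine le_trans (add_le_add le_rfl (div_le_div_of_nonneg_right ?_ (by positivity))) hc.κU₁
      linarith
    obtain ⟨hgk, hclk⟩ := good_flat (a := a) (η := c.p.η) (θ := c.p.θ) (σ := c.p.σ) (ε := c.p.ε) (k := k)
      hd.hn hd.hK hd.flat hc.hβ hc.hβ1.le hU4 (by positivity) hκ4 hc.κ1 (by linarith [hc.η'']) hθ
      (by linarith [hc.ν, hc.κν]) (by linarith [hc.ef, hc.κρ]) (by linarith [hc.h32, hc.κρ]) hc.κε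
      (fun _ => if_pos heq.ge) hL
    obtain ⟨-, -, -, hcl1, -⟩ := near_large (D := c.Λ + 1) (a := ctr a (k + 1) h) hd.hn (by linarith) hU4
      (by positivity) hc.κU₁ hc.κ1 hL (by
        rw [hak]; exact nrm_amp_sub hd.hK (sq_nonneg β) (pow_le_one₀ hc.hβ hc.hβ1.le) h c.J)
    refine ⟨hG1, hgk, ?_⟩
    rw [show tv (ctr a k h) - tv (ctr a (k + 1) h)
      = (tv (ctr a k h) - tv h) + -(tv (ctr a (k + 1) h) - tv h) by abel]
    refine ((LL.nrm_add _ _).trans (add_le_add hclk ((LL.nrm_neg _).trans_le hcl1))).trans ?_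
    rw [show 3 * √c.κ * √(n : ℝ) + 3 * √c.κ * √n = 6 * √c.κ * √n by ring]
    exact mul_le_mul_of_nonneg_right hc.κδ (sqrt_nonneg _)

/-- A node below the switch with two typical Gaussian vectors is good. -/
theorem good_node (hc : c.Ok β) (hd : GoodD c β N d) {B : Fin n → Fin n → ℝ} {r : ℝ}
    (hB : ‖(Matrix.of B).transpose‖ ≤ r)
    (hCU : 4 * (2 * √(c.U : ℝ) + (c.Λ + shift β) + 2 * r) ^ 2 ≤ c.CU * c.U) {i : ℕ} (hi : i < N ^ 2)
    (x : Conf n) {g₁ g₂ : Vec n} (h₁ : nrm g₁ ≤ 2 * √n) (h₂ : nrm g₂ ≤ 2 * √n) :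
    nodeField β d B c.U N i x g₁ g₂
      ∈ goodSet (kmat n β d) β N (ctrs (kmat n β d) β c.J c.U N) c.p (N ^ 2 - i) := by
  set h := nodeField β d B c.U N i x g₁ g₂
  set a := ctrs (kmat n β d) β c.J c.U N
  have hU2 : (2 : ℝ) ≤ c.U := by exact_mod_cast hc.hU
  have hU0 : (0 : ℝ) < (c.U : ℝ) / 2 := by linarith
  have hΛ : 0 ≤ c.Λ := (norm_nonneg _).trans hd.hK
  have hL := large_node (U := c.U) hc.hβ (by have := hc.hU; omega) hd.hN hi.le hd.hK hB x h₁ h₂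
  have hL' : Large h ((c.U : ℝ) / 2) (c.CU / c.U) := by
    refine le_trans hL (mul_le_mul_of_nonneg_right ?_ (Nat.cast_nonneg n))
    rw [div_le_div_iff₀ (by positivity) (by positivity)]
    nlinarith
  have hCU0 : 0 ≤ c.CU := by
    refine nonneg_of_mul_nonneg_left (le_trans (by positivity) hCU) (by linarith)
  have hκ : c.CU / (c.U : ℝ) + 4 * (c.Λ ^ 2 + 1) / ((c.U : ℝ) / 2) ^ 2 ≤ c.κ := by
    refine le_trans (add_le_add le_rfl (div_le_div_of_nonneg_right ?_ (by positivity))) hc.κU₂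
    linarith
  have hσ0 : 0 ≤ c.p.σ := by
    have := hc.ok.hσ
    by_contra hneg
    linarith [mul_nonpos_of_nonpos_of_nonneg (not_le.1 hneg).le (sq_nonneg c.p.θ), pow_pos hc.ok.δ0 2]
  have key : ∀ k, k ≤ N ^ 2 → Good (kmat n β d) β N a c.p.η c.p.θ c.p.σ c.p.ε k h ∧
      nrm (tv (ctr a k h) - tv h) ≤ 3 * √c.κ * √n := fun k hk =>
    good_flat hd.hn hd.hK hd.flat hc.hβ hc.hβ1.le hU0 (by positivity) hκ hc.κ1
      (by linarith [hc.η'', hc.ok.η0]) hc.ok.θ0 (by linarith [hc.ν, hc.κν, hc.ok.θ0])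
      (by linarith [hc.ef, hc.κρ]) (by linarith [hc.h32, hc.κρ]) hc.κε (fun _ => if_pos hk) hL'
  obtain ⟨k, hk⟩ : ∃ k, N ^ 2 - i = k + 1 := ⟨N ^ 2 - i - 1, by omega⟩
  rw [hk]
  obtain ⟨g1, c1⟩ := key (k + 1) (by omega)
  obtain ⟨g0, c0⟩ := key k (by omega)
  refine ⟨g1, g0, ?_⟩
  rw [show tv (ctr a k h) - tv (ctr a (k + 1) h) = (tv (ctr a k h) - tv h) + -(tv (ctr a (k + 1) h) - tv h) by abel]
  refine ((LL.nrm_add _ _).trans (add_le_add c0 ((LL.nrm_neg _).trans_le c1))).trans ?_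
  rw [show 3 * √c.κ * √(n : ℝ) + 3 * √c.κ * √n = 6 * √c.κ * √n by ring]
  exact mul_le_mul_of_nonneg_right hc.κδ (sqrt_nonneg _)

theorem exists_par {X Y Z : ℝ} (hX : 0 < X) (hY : 0 < Y) (hZ : 0 < Z) (hX1 : X ≤ 1) :
    ∃ p : Par, p.Ok ∧ 2 * p.η ≤ X ∧ 2 * p.θ ≤ Y ∧ 2 * p.σ ≤ Z := by
  obtain ⟨η, hη⟩ : ∃ x : ℝ, x = X / 2 := ⟨_, rfl⟩
  obtain ⟨θ, hθ⟩ : ∃ x : ℝ, x = Y / 2 := ⟨_, rfl⟩
  obtain ⟨σ, hσ⟩ : ∃ x : ℝ, x = Z / 2 := ⟨_, rfl⟩
  have hη0 : 0 < η := by rw [hη]; positivity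
  have hθ0 : 0 < θ := by rw [hθ]; positivity
  have hσ0 : 0 < σ := by rw [hσ]; positivity
  obtain ⟨δ, hδ⟩ : ∃ x : ℝ, x = min (η / 256) (σ * θ ^ 2 / 2 ^ 14) := ⟨_, rfl⟩
  have hδ0 : 0 < δ := by rw [hδ]; positivity
  have h1 : δ ≤ η / 256 := hδ.trans_le (min_le_left _ _)
  have h2 : δ ≤ σ * θ ^ 2 / 2 ^ 14 := hδ.trans_le (min_le_right _ _)
  have hδ1 : δ ≤ 1 := by linarith
  have h3 : δ ^ 2 ≤ δ := by rw [pow_two]; exact mul_le_of_le_one_left hδ0.le hδ1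
  refine ⟨⟨η, θ, σ, δ, η * δ / 32⟩, ⟨hη0, ?_, hθ0, hδ0, ?_, ?_, ?_, ?_⟩, ?_, ?_, ?_⟩ <;>
    dsimp only <;> first | positivity | linarith

theorem exists_switch {Λ C₀ ε δ ν ρ : ℝ} (hΛ : 0 ≤ Λ) (hε : 0 < ε) (hδ : 0 < δ) (hν : 0 < ν) (hρ : 0 < ρ) :
    ∃ (κ CU : ℝ) (U : ℕ), 0 < κ ∧ κ ≤ 1 ∧ κ ≤ ν ∧ κ ≤ ρ ∧ Λ * (3 * √κ) + 2 * κ ≤ ε ∧ 6 * √κ ≤ δ ∧
      2 ≤ U ∧ 4 * (2 * √(U : ℝ) + C₀) ^ 2 ≤ CU * U ∧
      64 / (U : ℝ) + 4 * ((Λ + 1) ^ 2 + 1) / ((U : ℝ) / 4) ^ 2 ≤ κ ∧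
      CU / (U : ℝ) + 4 * ((Λ + 1) ^ 2 + 1) / ((U : ℝ) / 2) ^ 2 ≤ κ := by
  obtain ⟨z, hz⟩ : ∃ x : ℝ, x = min 1 (min (ε / (3 * Λ + 2)) (δ / 6)) := ⟨_, rfl⟩
  have hz0 : 0 < z := by rw [hz]; positivity
  obtain ⟨κ, hκd⟩ : ∃ x : ℝ, x = min (min ν ρ) (z ^ 2) := ⟨_, rfl⟩
  have hκ0 : 0 < κ := by rw [hκd]; positivity
  have hκm : κ ≤ z ^ 2 := hκd.trans_le (min_le_right _ _)
  have hκz : √κ ≤ z := (sqrt_le_sqrt hκm).trans_eq (sqrt_sq hz0.le)
  have hκ1 : κ ≤ 1 := hκm.trans (pow_le_one₀ hz0.le (hz.trans_le (min_le_left _ _)))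
  have hze : √κ * (3 * Λ + 2) ≤ ε := by
    rw [← le_div_iff₀ (by positivity)]
    exact hκz.trans ((hz.trans_le (min_le_right _ _)).trans (min_le_left _ _))
  have hzd : z ≤ δ / 6 := (hz.trans_le (min_le_right _ _)).trans (min_le_right _ _)
  have hκs : κ ≤ √κ := by
    exact (mul_self_sqrt hκ0.le).symm.trans_le (mul_le_of_le_one_left (sqrt_nonneg _) (sqrt_le_one.2 hκ1))
  obtain ⟨A, hA⟩ : ∃ x : ℝ, x = 4 * ((Λ + 1) ^ 2 + 1) := ⟨_, rfl⟩
  obtain ⟨CU, hCU⟩ : ∃ x : ℝ, x = 32 + 8 * C₀ ^ 2 := ⟨_, rfl⟩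
  have hA0 : 0 ≤ A := by rw [hA]; positivity
  have hC0 : 0 ≤ CU := by rw [hCU]; positivity
  obtain ⟨U, hU⟩ := exists_nat_ge ((64 + CU + 16 * A) / κ + 2)
  have hU2 : (2 : ℝ) ≤ U := le_trans (le_add_of_nonneg_left (by positivity)) hU
  have hUk : (64 + CU + 16 * A) / (U : ℝ) ≤ κ := by
    rw [div_le_iff₀ (by linarith)]
    have := mul_le_mul_of_nonneg_left hU hκ0.le
    rw [mul_add, mul_div_cancel₀ _ hκ0.ne'] at this
    linarith
  rw [add_div, add_div] at hUk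
  have h4 : A / ((U : ℝ) / 4) ^ 2 ≤ 16 * A / U := by
    rw [div_pow, div_div_eq_mul_div, show A * 4 ^ 2 = 16 * A by ring]
    exact div_le_div_of_nonneg_left (by positivity) (by linarith) (le_self_pow₀ (by linarith) two_ne_zero)
  have h2 : A / ((U : ℝ) / 2) ^ 2 ≤ A / ((U : ℝ) / 4) ^ 2 :=
    div_le_div_of_nonneg_left hA0 (by positivity) (pow_le_pow_left₀ (by positivity) (by linarith) 2)
  have hp1 : 0 ≤ CU / (U : ℝ) := by positivity
  have hp2 : 0 ≤ 64 / (U : ℝ) := by positivity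
  refine ⟨κ, CU, U, hκ0, hκ1, (hκd.trans_le (min_le_left _ _)).trans (min_le_left _ _),
    (hκd.trans_le (min_le_left _ _)).trans (min_le_right _ _), by linarith, by linarith,
    by exact_mod_cast hU2, ?_, ?_, ?_⟩
  · rw [hCU]
    have h5 := add_sq_le (a := 2 * √(U : ℝ)) (b := C₀)
    rw [mul_pow, sq_sqrt (by linarith : (0 : ℝ) ≤ U)] at h5
    have h6 : C₀ ^ 2 ≤ C₀ ^ 2 * U := le_mul_of_one_le_right (sq_nonneg _) (by linarith)
    linarith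
  · rw [← hA]; linarith
  · rw [← hA]; linarith

/-- The constants. -/
theorem exists_consts {β ef ηT θT σT a₁ ν ρ : ℝ} (hβ : 0 ≤ β) (hβ1 : β < 1) (hη : 0 < ηT) (hθ : 0 < θT)
    (hσ : 0 < σT) (hν : ν = 1 / (256 * (2 * β + 2) ^ 2)) (hρ : ρ = min ef (1 / 32) / 4)
    (ha₁ : a₁ = ρ * ν) (hef : 0 < ef) :
    ∃ (p : Par) (κ CU : ℝ) (U : ℕ), 4 * (2 * √(U : ℝ) + (2 * β + 1 + shift β)
        + 2 * (√(2 * β + 1 + shift β) + 1)) ^ 2 ≤ CU * U ∧
      ∀ J : ℕ, (⟨2 * β + 1, (1 - β) ^ 2 / 8, ef, (1 - β) ^ 2 / 8, a₁, ν, ρ, ηT, θT, σT, κ, CU, p, J, U⟩ :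
        Consts).Ok β := by
  have h1b : 0 < 1 - β := by linarith
  have hν0 : 0 < ν := by rw [hν]; positivity
  have hν64 : 4 * ν = 1 / (64 * (2 * β + 1 + 1) ^ 2) := by rw [hν]; field_simp; ring
  have hρ0 : 0 < ρ := by rw [hρ]; positivity
  have hρe : 4 * ρ ≤ ef := by rw [hρ]; linarith [min_le_left ef (1 / 32)]
  have hρ32 : 4 * ρ ≤ 1 / 32 := by rw [hρ]; linarith [min_le_right ef (1 / 32)]
  obtain ⟨p, hp, hpη, hpθ, hpσ⟩ := exists_par (X := min (min ηT ((1 - β) ^ 2 / 2)) (1 / 2))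
    (Y := min θT ν) (Z := min σT ρ) (by positivity) (by positivity) (by positivity)
    ((min_le_right _ _).trans (by norm_num))
  obtain ⟨κ, CU, U, k0, k1, kν, kρ, kε, kδ, hU, hCU, hU1, hU2⟩ := exists_switch
    (Λ := 2 * β + 1) (C₀ := (2 * β + 1 + shift β) + 2 * (√(2 * β + 1 + shift β) + 1))
    (by linarith) hp.ε0 hp.δ0 hν0 hρ0
  refine ⟨p, κ, CU, U, by rw [add_assoc]; exact hCU, fun J => ?_⟩
  have hη' : 2 * p.η ≤ (1 - β) ^ 2 - (1 - β) ^ 2 / 8 - 3 * ((1 - β) ^ 2 / 8) :=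
    (hpη.trans ((min_le_left _ _).trans (min_le_right _ _))).trans_eq (by ring)
  exact
    { hβ := hβ, hβ1 := hβ1, ok := hp
      η := hpη.trans ((min_le_left _ _).trans (min_le_left _ _))
      η' := hη'
      η'' := hpη.trans (min_le_right _ _)
      θ := hpθ.trans (min_le_left _ _)
      σ := hpσ.trans (min_le_left _ _)
      ν0 := hν0
      ν := by
        have := hpθ.trans (min_le_right θT ν)
        dsimp only
        rw [← hν64]
        linarith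
      a₁ := ha₁.le
      ef := by have := hpσ.trans (min_le_right σT ρ); dsimp only; linarith
      h32 := by have := hpσ.trans (min_le_right σT ρ); dsimp only; linarith
      κν := kν, κρ := kρ, κ0 := k0, κ1 := k1, κε := kε, κδ := kδ, hU := hU, κU₁ := hU1, κU₂ := hU2 }

/-- At a good disorder the nodes exist. -/
theorem node_data (hc : c.Ok β) (hd : GoodD c β N d) (hΛ : c.Λ = 2 * β + 1) (hη₀ : c.η₀ < 1)
    (hform : ∀ v, |Ent.qform (kmat n β d) v| ≤ (2 * β + c.η₀) * ∑ i, v i ^ 2)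
    {r C L γ kp γA D Lc : ℝ} (hr : r = √(c.Λ + shift β) + 1)
    (hCU : 4 * (2 * √(c.U : ℝ) + (c.Λ + shift β) + 2 * r) ^ 2 ≤ c.CU * c.U)
    (hlaw : Laws β (c.p.η / 4) C d)
    (hL1 : r ^ 2 / (c.p.η / 4) ≤ L)
    (hL2 : 1 / (c.p.η / 4) * (curvB (c.p.η / 4) c.Λ r C + 2 * r ^ 2 / (c.p.η / 4) ^ 2) ≤ L)
    (hL3 : c.Λ + shift β ≤ L)
    (hLc : Lc = lipA c.Λ c.J + (c.Λ + 1))
    (hmesh : (Lc + 1) * (c.Λ + 5) * r * √(1 / (N : ℝ)) ≤ c.p.ε)
    (hlo : exp (kp * n) ≤ N) (hhi : (N : ℝ) ≤ exp (γ * n / 4))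
    (hD : 0 ≤ D) (hPoly : stepPoly n c.Λ (c.p.η / 4) (16 * (c.Λ + 3) / c.p.η) r ≤ D * (n : ℝ) ^ 10)
    (hP : D ^ 4 * (n : ℝ) ^ 40 ≤ N)
    (hamp : ∀ i, i ≤ c.U * N ^ 2 → ∑ x, mu n β (offd d) x
          * (gp (Fin n)).real {g | (((kmat n β d : Matrix (Fin n) (Fin n) ℝ) : Fin n → Fin n → ℝ),
              sideField ((i : ℝ) / (N : ℝ) ^ 2) x g) ∉
                AmpGood n β c.ηT c.θT c.σT c.a₀ c.a₁ (c.p.ε / 2) c.J ((i : ℝ) / (N : ℝ) ^ 2)}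
            ≤ exp (-(γA * n)))
    (he1 : exp (-(γA * n)) + exp (-(2 / π ^ 2 * n)) ≤ exp (-(γ * n)))
    (he2 : exp (-(2 / π ^ 2 * n)) + exp (-(2 / π ^ 2 * n)) ≤ exp (-(γ * n))) :
    ∃ B N P M G, NodeData β L γ kp c.U d B N P M G := by
  have hβ := hc.hβ
  have hβ1 := hc.hβ1
  have hsh : 0 ≤ c.Λ + shift β := by rw [hΛ, shift]; linarith
  have hr1 : 1 ≤ r := by rw [hr]; linarith [sqrt_nonneg (c.Λ + shift β)]
  have hr2 : c.Λ + shift β ≤ r ^ 2 := by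
    rw [hr]; linarith [sq_sqrt hsh, sqrt_nonneg (c.Λ + shift β), add_sq (√(c.Λ + shift β)) 1]
  obtain ⟨B, hBf, hBn, hBfac, hBop⟩ := exists_factor hβ hη₀ hform hd.hK hr2 (by linarith)
  have hlipc : ∀ k h h', nrm (ctrs (kmat n β d) β c.J c.U N k h' - ctrs (kmat n β d) β c.J c.U N k h)
      ≤ Lc * nrm (h' - h) := fun k h h' => by rw [hLc]; exact ctrs_lip hd.hK hβ hβ1.le c.J c.U N k h h'
  have hLc0 : 0 ≤ Lc := by
    have := lipA_nonneg (show 0 ≤ c.Λ by rw [hΛ]; linarith) c.J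
    rw [hLc, hΛ] at *
    linarith
  have D0 : CtrData β c.Λ r C d B N (ctrs (kmat n β d) β c.J c.U N) c.p Lc :=
    { hn := hd.hn, hβ := hβ, hβ1 := hβ1, ok := hc.ok, hN := hd.hN, hr := hr1, hK := hd.hK, factor := hBf
      hBn := hBn, hLc := hLc0, lip := hlipc, law := hlaw, mesh := hmesh }
  have hmu := fun x => (mu_pos (β := β) (offd d) x).le
  have htail := nrm_gauss_tail n
  refine ⟨B, N, D * (n : ℝ) ^ 10, centre (kmat n β d) β N (ctrs (kmat n β d) β c.J c.U N) c.p,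
    goodSet (kmat n β d) β N (ctrs (kmat n β d) β c.J c.U N) c.p,
    { factor := hBfac
      opn := fun v => (hBop v).trans (mul_le_mul_of_nonneg_right hL3 (sum_nonneg fun i _ => sq_nonneg _))
      mesh_lo := hlo, mesh_hi := hhi, err_nonneg := by positivity
      err_le := le_trans (le_of_eq (by ring)) hP
      meas := measurable_centre hd.hn hc.ok (LL.kmat_transpose β d) hd.hK hβ hβ1.le hLc0 hlipc
      bdd := abs_centre_le (kmat n β d) β N (ctrs (kmat n β d) β c.J c.U N) c.p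
      base := fun h j => rfl
      meas_good := measurableSet_goodSet hc.ok hLc0 hlipc
      step := fun k _ h hh => stepOK_centre D0 hL1 hL2 hPoly hh
      bad_side := fun i hi => ?_
      bad_small := fun i hi => ?_ }⟩
  · refine le_trans (sum_le_sum fun x _ => mul_le_mul_of_nonneg_left ((measureReal_mono
      (s₂ := {g | (((kmat n β d : Matrix (Fin n) (Fin n) ℝ) : Fin n → Fin n → ℝ),
        sideField ((i : ℝ) / (N : ℝ) ^ 2) x g) ∉
          AmpGood n β c.ηT c.θT c.σT c.a₀ c.a₁ (c.p.ε / 2) c.J ((i : ℝ) / (N : ℝ) ^ 2)}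
          ∪ {g | 2 * √n < nrm g}) (fun g hg => ?_) (measure_ne_top _ _)).trans (measureReal_union_le _ _))
      (hmu x)) ?_
    · by_contra hne
      simp only [Set.mem_union, not_or, Set.mem_ofPred_eq, not_not, not_lt] at hne
      exact hg (good_side hc hd hi hne.2 hne.1)
    · simp only [mul_add, sum_add_distrib, ← sum_mul, mu_sum, one_mul]
      exact (add_le_add (hamp i hi.le) htail).trans he1
  · obtain ⟨S, hS⟩ : ∃ S : Set (Vec n), S = {g | 2 * √n < nrm g} := ⟨_, rfl⟩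
    have hSm : MeasurableSet S := by
      rw [hS]
      exact measurableSet_lt measurable_const (show Continuous (nrm (n := n)) by unfold LL.nrm; fun_prop).measurable
    refine le_trans (sum_le_sum fun x _ => mul_le_mul_of_nonneg_left
      (integral_mono_of_nonneg (g := fun g₁ => S.indicator (fun _ => (1 : ℝ)) g₁ + exp (-(2 / π ^ 2 * n)))
        (ae_of_all _ fun _ => measureReal_nonneg)
        (((integrable_const (1 : ℝ)).indicator hSm).add (integrable_const _))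
        (ae_of_all _ fun g₁ => ?_)) (hmu x)) ?_
    · show (gp (Fin n)).real _ ≤ S.indicator (fun _ => (1 : ℝ)) g₁ + _
      by_cases h₁ : g₁ ∈ S
      · rw [Set.indicator_of_mem h₁]
        exact measureReal_le_one.trans (le_add_of_nonneg_right (exp_pos _).le)
      · rw [Set.indicator_of_notMem h₁, zero_add]
        refine le_trans (measureReal_mono (fun g₂ hg₂ => ?_) (measure_ne_top _ _)) htail
        by_contra h₂
        rw [hS] at h₁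
        exact hg₂ (good_node hc hd hBn hCU hi x (not_lt.1 h₁) (not_lt.1 h₂))
    · rw [integral_add ((integrable_const (1 : ℝ)).indicator hSm) (integrable_const _),
        integral_indicator_const _ hSm, integral_const, ← sum_mul, mu_sum, one_mul, probReal_univ,
        smul_eq_mul, mul_one, one_smul, hS]
      exact (add_le_add htail le_rfl).trans he2

/-- The nodes exist with high probability. -/
theorem node_of {β : ℝ} (hβ : 0 ≤ β) (hβ1 : β < 1) (hE : AmpEventStmt)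
    (hL : ∀ η : ℝ, 0 < η → ∃ C c : ℝ, 0 < c ∧ ∀ᶠ n : ℕ in atTop,
      (disX n).real {d | ¬ Laws β η C d} ≤ exp (-(c * n))) : NodeStmt β := by
  have h1b : 0 < 1 - β := by linarith
  obtain ⟨Λ, hΛ⟩ : ∃ x : ℝ, x = 2 * β + 1 := ⟨_, rfl⟩
  obtain ⟨η₀, hη₀d⟩ : ∃ x : ℝ, x = (1 - β) ^ 2 / 8 := ⟨_, rfl⟩
  have hη₀ : 0 < η₀ := by rw [hη₀d]; positivity
  have hη₀1 : η₀ < 1 := by
    rw [hη₀d]; linarith [pow_le_one₀ (n := 2) h1b.le (by linarith : 1 - β ≤ 1)]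
  obtain ⟨ef, cF, hef, hcF, hF⟩ := flatEvent β (1 / 16) hβ (by norm_num)
  obtain ⟨cN, hcN, hNE⟩ := normEvent β η₀ hβ hη₀
  obtain ⟨ν, hν⟩ : ∃ x : ℝ, x = 1 / (256 * (2 * β + 2) ^ 2) := ⟨_, rfl⟩
  obtain ⟨ρ, hρ⟩ : ∃ x : ℝ, x = min ef (1 / 32) / 4 := ⟨_, rfl⟩
  obtain ⟨a₁, ha₁⟩ : ∃ x : ℝ, x = ρ * ν := ⟨_, rfl⟩
  obtain ⟨ηT, θT, σT, hηT, hθT, hσT, hE'⟩ := hE β hβ hβ1 η₀ a₁ hη₀
    (by rw [ha₁, hρ, hν]; positivity)
  obtain ⟨p, κ, CU, U, hCU, hCok⟩ := exists_consts hβ hβ1 hηT hθT hσT hν hρ ha₁ hef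
  rw [← hΛ, ← hη₀d] at hCok
  rw [← hΛ] at hCU
  have hp : p.Ok := (hCok 0).ok
  have hε0 := hp.ε0
  have hp0 := hp.η0
  obtain ⟨J, hJ⟩ := hE' (p.ε / 2) (by linarith) U
  obtain ⟨γA, hγA, hAmp⟩ := hJ J le_rfl
  obtain ⟨co, hco⟩ : ∃ co : Consts,
      co = ⟨Λ, η₀, ef, η₀, a₁, ν, ρ, ηT, θT, σT, κ, CU, p, J, U⟩ := ⟨_, rfl⟩
  have hc : co.Ok β := by rw [hco]; exact hCok J
  obtain ⟨CL, cL, hcL, hLaw⟩ := hL (p.η / 4) (by linarith)
  have hΛ0 : 0 ≤ Λ := by rw [hΛ]; linarith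
  have hsh : 0 < Λ + shift β := by rw [hΛ, shift]; linarith
  obtain ⟨r, hr⟩ : ∃ x : ℝ, x = √(Λ + shift β) + 1 := ⟨_, rfl⟩
  have hr0 : 0 < r := by rw [hr]; positivity
  rw [← hr] at hCU
  obtain ⟨L, hLd⟩ : ∃ x : ℝ, x = max (max (r ^ 2 / (p.η / 4))
    (1 / (p.η / 4) * (curvB (p.η / 4) Λ r CL + 2 * r ^ 2 / (p.η / 4) ^ 2))) (Λ + shift β) := ⟨_, rfl⟩
  obtain ⟨γ, hγd⟩ : ∃ x : ℝ, x = min γA (2 / π ^ 2) / 2 := ⟨_, rfl⟩
  have hγ : 0 < γ := by rw [hγd]; positivity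
  have hγA' : 2 * γ ≤ γA := by rw [hγd]; linarith [min_le_left γA (2 / π ^ 2)]
  have hγG : 2 * γ ≤ 2 / π ^ 2 := by rw [hγd]; linarith [min_le_right γA (2 / π ^ 2)]
  obtain ⟨D, hD0, hPoly⟩ := stepPoly_le (η := p.η / 4) (C₁ := 16 * (Λ + 3) / p.η) (r := r) hΛ0 (by linarith)
    (by positivity) hr0.le
  obtain ⟨Lc, hLcd⟩ : ∃ x : ℝ, x = lipA Λ J + (Λ + 1) := ⟨_, rfl⟩
  have hlip := lipA_nonneg hΛ0 J
  have hLc0 : 0 ≤ Lc := by rw [hLcd]; linarith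
  refine ⟨U, L, γ, γ / 8, ?_, hγ, by linarith, fun δ hδ => ?_⟩
  · rw [hLd]; exact lt_of_lt_of_le hsh (le_max_right _ _)
  have hbM : 0 < moveB Λ p := by unfold moveB; positivity
  filter_upwards [hF, hNE, hLaw, hAmp (δ / 4) (by linarith), eventually_ge_atTop 1,
    eventually_exp_le hcF (show 0 < δ / 4 by linarith), eventually_exp_le hcN (show 0 < δ / 4 by linarith),
    eventually_exp_le hcL (show 0 < δ / 4 by linarith),
    eventually_le_exp (a := 2) hγ,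
    eventually_poly_le (D := 2) (show 0 < γ / 8 by linarith) 0,
    eventually_poly_le (D := D ^ 4) (show 0 < γ / 8 by linarith) 40,
    eventually_exp_le (show 0 < γ / 8 by linarith) (show 0 < moveB Λ p / (lipA Λ J + 1) by positivity),
    eventually_exp_le (show 0 < γ / 8 by linarith) (show 0 < (p.ε / ((Lc + 1) * (Λ + 5) * r)) ^ 2 by positivity)]
    with n hFn hNn hLn hAn hn eF eN eL e2 hNhi hP hmove hmesh
  have : IsProbabilityMeasure (disX n) := by unfold disX; infer_instance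
  obtain ⟨N, hNd⟩ : ∃ N : ℕ, N = ⌈exp (γ / 8 * n)⌉₊ := ⟨_, rfl⟩
  have hN : 1 ≤ N := by rw [hNd]; exact Nat.one_le_ceil_iff.2 (exp_pos _)
  have hNlo : exp (γ / 8 * n) ≤ N := by rw [hNd]; exact Nat.le_ceil _
  have hexp1 : 1 ≤ exp (γ / 8 * n) := one_le_exp (by positivity)
  have hNup : (N : ℝ) ≤ exp (γ * n / 4) := by
    have h : (N : ℝ) ≤ 2 * exp (γ / 8 * n) := by
      rw [hNd]; linarith [Nat.ceil_lt_add_one (exp_pos (γ / 8 * n)).le]
    rw [pow_zero, mul_one] at hNhi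
    refine (h.trans (mul_le_mul_of_nonneg_right hNhi (exp_pos _).le)).trans_eq ?_
    rw [← exp_add]; ring_nf
  have hgn : 0 ≤ γ * n := by positivity
  have hA2 := mul_le_mul_of_nonneg_right hγA' (Nat.cast_nonneg (α := ℝ) n)
  have hG2 := mul_le_mul_of_nonneg_right hγG (Nat.cast_nonneg (α := ℝ) n)
  have hNγ : (N : ℝ) ≤ exp (γA * n) := hNup.trans (exp_le_exp.2 (by linarith))
  have hN1 : (1 : ℝ) ≤ N := by exact_mod_cast hN
  have hinv : (1 : ℝ) / N ≤ exp (-(γ / 8 * n)) := by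
    rw [exp_neg, one_div]; exact inv_anti₀ (exp_pos _) hNlo
  have hm : lipA Λ J / (N : ℝ) ^ 2 ≤ moveB Λ p := by
    rw [le_div_iff₀ (by positivity)] at hmove
    calc lipA Λ J / (N : ℝ) ^ 2 = lipA Λ J * (1 / (N : ℝ) ^ 2) := (mul_one_div _ _).symm
      _ ≤ lipA Λ J * exp (-(γ / 8 * n)) := mul_le_mul_of_nonneg_left
          ((one_div_le_one_div_of_le (by linarith) (le_self_pow₀ hN1 two_ne_zero)).trans hinv) hlip
      _ ≤ exp (-(γ / 8 * n)) * (lipA Λ J + 1) := by linarith [exp_pos (-(γ / 8 * n))]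
      _ ≤ moveB Λ p := hmove
  have hmesh' : (Lc + 1) * (Λ + 5) * r * √(1 / (N : ℝ)) ≤ p.ε := by
    rw [mul_comm, ← le_div_iff₀ (by positivity), sqrt_le_left (by positivity)]
    exact hinv.trans hmesh
  have h1 : exp (-(γA * n)) ≤ exp (-(2 * γ * n)) := exp_le_exp.2 (by linarith)
  have h2 : exp (-(2 / π ^ 2 * n)) ≤ exp (-(2 * γ * n)) := exp_le_exp.2 (by linarith)
  refine le_trans (measureReal_mono (s₂ :=
    {d | ¬ ∀ v, |Ent.qform (kmat n β d) v| ≤ (2 * β + η₀) * ∑ i, v i ^ 2} ∪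
    {d | ¬ ∀ v : Fin n → ℝ, (({i | v i ≠ 0} : Finset (Fin n)).card : ℝ) ≤ ef * n →
      |Ent.qform (kmat n β d) v| ≤ 1 / 16 * ∑ i, v i ^ 2} ∪
    {d | ¬ Laws β (p.η / 4) CL d} ∪
    {d | ¬ ∀ i, i ≤ U * N ^ 2 → ∑ x, mu n β (offd d) x
          * (gp (Fin n)).real {g | (((kmat n β d : Matrix (Fin n) (Fin n) ℝ) : Fin n → Fin n → ℝ),
              sideField ((i : ℝ) / (N : ℝ) ^ 2) x g) ∉ AmpGood n β ηT θT σT η₀ a₁ (p.ε / 2) J ((i : ℝ) / (N : ℝ) ^ 2)}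
            ≤ exp (-(γA * n))}) ?_ (measure_ne_top _ _))
    (le_trans ((measureReal_union_le _ _).trans (add_le_add ((measureReal_union_le _ _).trans
      (add_le_add ((measureReal_union_le _ _).trans (add_le_add (hNn.trans eN) (hFn.trans eF)))
        (hLn.trans eL))) (hAn N hN hNγ))) (by linarith))
  intro d hbad
  by_contra hgood
  simp only [Set.mem_union, not_or, Set.mem_ofPred_eq, not_not] at hgood
  obtain ⟨⟨⟨hform, hflat⟩, hlaw⟩, hamp⟩ := hgood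
  have hK : ‖kmat n β d‖ ≤ Λ := LL.norm_kmat_le (by rw [hΛ]; linarith) fun v =>
    (hform v).trans (mul_le_mul_of_nonneg_right (by rw [hΛ]; linarith) (sum_nonneg fun i _ => sq_nonneg _))
  subst hco
  refine hbad (node_data hc
    { hn := hn, hN := hN, hK := hK, form := fun v => (le_abs_self _).trans (hform v), flat := hflat, move := hm }
    hΛ hη₀1 hform (γA := γA) (D := D) (Lc := Lc) hr hCU hlaw ?_ ?_ ?_ hLcd hmesh' hNlo hNup hD0
    (hPoly n hn) (hP.trans hNlo) hamp (by linarith) (by linarith))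
  · exact hLd ▸ (le_max_left _ _).trans (le_max_left _ _)
  · exact hLd ▸ (le_max_right _ _).trans (le_max_left _ _)
  · exact hLd ▸ le_max_right _ _

end Vale.Agent.P150.Fast.StepC
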