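import Vale.Agent.P150.Fast.Transfer
import Vale.Agent.P150.Fast.Step.AmpEvent
import Vale.Agent.P150.Fast.Step.Laws
import Vale.Agent.P150.Fast.Step.Node

/-!
The nodes and centres of the localisation exist with high probability at every coupling below the
critical one (P150, module M6).
-/

namespace Vale.Agent.P150.Fast

/-- The centres exist at every `β < 1`. -/
theorem nodeStmt {β : ℝ} (hβ : 0 ≤ β) (hβ1 : β < 1) : NodeStmt β :=
  StepC.node_of hβ hβ1 (StepC.ampEvent transferThm) fun _ hη => StepC.lawsEvent hβ hβ1 hη

end Vale.Agent.P150.Fast
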