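import Vale.Agent.P150.Fast.Amp.Root
import Vale.Agent.P150.Fast.Step.Root

/-!
Deterministic margins and centres (P150): small overlap, overlap near one, and large fields.
-/

open MeasureTheory Real Finset
open scoped Matrix Matrix.Norms.L2Operator

namespace Vale.Agent.P150.Fast.StepC

open LL (nrm)

variable {n : ℕ} {K : Matrix (Fin n) (Fin n) ℝ}

/-- Small quadratic forms on sparse supports. -/
def Sparse (K : Matrix (Fin n) (Fin n) ℝ) (ef θf : ℝ) : Prop :=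
  ∀ v : Vec n, (((Finset.univ : Finset (Fin n)).filter fun i => v i ≠ 0).card : ℝ) ≤ ef * n →
    |Ent.qform K v| ≤ θf * ∑ i, v i ^ 2

/-- All but `ρ n` sites have a field of absolute value at least `H`. -/
def Large (h : Vec n) (H ρ : ℝ) : Prop :=
  (((Finset.univ : Finset (Fin n)).filter fun i => |h i| < H).card : ℝ) ≤ ρ * n

/-- The centre in a large field. -/
noncomputable def satC (K : Matrix (Fin n) (Fin n) ℝ) (s : ℝ) (h : Vec n) : Vec n :=
  h + s • (K *ᵥ tv h)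

theorem ball_mono {τ η η' θ θ' σ σ' : ℝ} (hη : η' ≤ η) (hθ' : 0 < θ') (hθ : θ' ≤ θ) (hσ : σ' ≤ σ)
    {m : Vec n} (hm : ∀ i, |m i| ≤ 1) (h : BallMargin K τ η θ σ m) : BallMargin K τ η' θ' σ' m := by
  intro S hS u
  have hs : ∑ i, u i ^ 2 / vsec θ m S i ≤ ∑ i, u i ^ 2 / vsec θ' m S i := by
    refine sum_le_sum fun i _ => div_le_div_of_nonneg_left (sq_nonneg _)
      (lt_of_lt_of_le (lt_min one_pos (by linarith)) (vsec_ge hθ'.le hm S i)) ?_
    unfold vsec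
    split
    · exact le_rfl
    · exact min_le_min le_rfl (by linarith)
  have := h S (hS.trans (mul_le_mul_of_nonneg_right hσ (Nat.cast_nonneg n))) u
  linarith [mul_le_mul_of_nonneg_right hη (sum_nonneg fun i (_ : i ∈ univ) => sq_nonneg (u i))]

theorem sq_dot_le (u m : Vec n) : (∑ i, u i * m i) ^ 2 ≤ (∑ i, u i ^ 2) * ∑ i, m i ^ 2 :=
  sum_mul_sq_le_sq_mul_sq _ _ _

theorem one_sub_q_nonneg (m : Vec n) (hm : ∀ i, |m i| ≤ 1) : 0 ≤ 1 - (∑ j, m j ^ 2) / (n : ℝ) :=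
  sub_nonneg.2 (div_le_one_of_le₀ ((sum_le_sum fun i _ =>
    (sq_le_one_iff_abs_le_one _).2 (hm i)).trans_eq (by simp)) (Nat.cast_nonneg n))

/-- A small overlap. -/
theorem ball_small {β η₀ a₀ θ σ : ℝ} (hθ : 0 < θ)
    (hK : ∀ u, Ent.qform K u ≤ (2 * β + η₀) * ∑ i, u i ^ 2) {m : Vec n} (hm : ∀ i, |m i| ≤ 1)
    (hq : β ^ 2 * ((∑ j, m j ^ 2) / n) ≤ a₀) :
    BallMargin K (β ^ 2) ((1 - β) ^ 2 - η₀ - 3 * a₀) θ σ m := by
  intro S _ u
  set A := ∑ i, u i ^ 2 with hA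
  have hA0 : 0 ≤ A := sum_nonneg fun i _ => sq_nonneg _
  have h1 : A ≤ ∑ i, u i ^ 2 / vsec θ m S i := sum_le_sum fun i _ => by
    refine le_div_self (sq_nonneg _)
      (lt_of_lt_of_le (lt_min one_pos (by linarith)) (vsec_ge hθ.le hm S i)) ?_
    unfold vsec
    split
    · exact le_rfl
    · exact min_le_left _ _
  have h2 : 2 * β ^ 2 / n * (∑ i, u i * m i) ^ 2 ≤ 2 * a₀ * A := by
    refine (mul_le_mul_of_nonneg_left (sq_dot_le u m) (by positivity)).trans ?_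
    rw [← hA, show 2 * β ^ 2 / n * (A * ∑ i, m i ^ 2) = 2 * (β ^ 2 * ((∑ i, m i ^ 2) / n)) * A by ring]
    exact mul_le_mul_of_nonneg_right (by linarith) hA0
  linarith [hK u, mul_le_mul_of_nonneg_right hq hA0]

/-- Variances small off a sparse set. -/
theorem ball_flat (hn : 1 ≤ n) {Λ s τ ef ν θ σ ρ : ℝ} (hK : ‖K‖ ≤ Λ) (hflat : Sparse K ef (1 / 16))
    (hs : 0 ≤ s) (hs1 : s ≤ 1) (hτ : 0 ≤ τ) (hτ1 : τ ≤ 1) (hθ : 0 < θ)
    (hν : ν + 2 * θ ≤ 1 / (64 * (Λ + 1) ^ 2)) (hef : ρ + σ ≤ ef) (h32 : ρ + σ ≤ 1 / 32)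
    {m : Vec n} (hm : ∀ i, |m i| ≤ 1) {T : Finset (Fin n)} (hT : (T.card : ℝ) ≤ ρ * n)
    (hv : ∀ i ∉ T, 1 - m i ^ 2 ≤ ν) : BallMargin (s • K) τ (1 / 2) θ σ m := by
  intro S hS u
  have hn0 : (0 : ℝ) < n := by exact_mod_cast hn
  have hΛ : 0 ≤ Λ := (norm_nonneg _).trans hK
  set W := S ∪ T with hW
  have hWc : (W.card : ℝ) ≤ (ρ + σ) * n := by
    have : (W.card : ℝ) ≤ S.card + T.card := by rw [hW]; exact_mod_cast card_union_le S T
    linarith
  set u1 : Vec n := fun i => if i ∈ W then u i else 0 with hu1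
  set u2 : Vec n := fun i => if i ∈ W then 0 else u i with hu2
  have hu : u = u1 + u2 := by
    funext i; simp only [hu1, hu2, Pi.add_apply]; split <;> ring
  set A := ∑ i, u1 i ^ 2 with hA
  set B := ∑ i, u2 i ^ 2 with hB
  have hA0 : 0 ≤ A := sum_nonneg fun i _ => sq_nonneg _
  have hB0 : 0 ≤ B := sum_nonneg fun i _ => sq_nonneg _
  have hAB : ∑ i, u i ^ 2 = A + B := by
    rw [hA, hB, ← sum_add_distrib]
    refine sum_congr rfl fun i _ => ?_
    simp only [hu1, hu2]; split <;> ring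
  have hq11 : |Ent.qform K u1| ≤ A / 16 := by
    refine (hflat u1 (le_trans ?_ (hWc.trans (mul_le_mul_of_nonneg_right hef hn0.le)))).trans_eq
      (by rw [← hA]; ring)
    refine Nat.cast_le.2 (card_le_card fun i hi => ?_)
    simp only [mem_filter, mem_univ, true_and, hu1] at hi
    exact by_contra fun hiW => hi (if_neg hiW)
  have hmv : ∀ x y : Vec n, |x ⬝ᵥ (K *ᵥ y)| ≤ Λ * (nrm x * nrm y) := fun x y => by
    refine (abs_dot_le _ _).trans ?_
    refine (mul_le_mul_of_nonneg_left ((LL.nrm_mulVec _ _).trans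
      (mul_le_mul_of_nonneg_right hK (LL.nrm_nonneg _))) (LL.nrm_nonneg _)).trans_eq ?_
    ring
  have hAM : 2 * (Λ * (nrm u1 * nrm u2)) ≤ A / 16 + 16 * Λ ^ 2 * B := by
    have h := two_mul_le_add_sq (nrm u1 / 4) (4 * Λ * nrm u2)
    rw [mul_pow, div_pow, mul_pow, LL.nrm_sq, LL.nrm_sq, ← hA, ← hB] at h
    linarith
  have hq : Ent.qform (s • K) u ≤ A / 8 + (16 * Λ ^ 2 + Λ) * B := by
    have e : Ent.qform (s • K) u = s * (Ent.qform K u1 + (u1 ⬝ᵥ (K *ᵥ u2) + u2 ⬝ᵥ (K *ᵥ u1))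
        + u2 ⬝ᵥ (K *ᵥ u2)) := by
      simp only [← LL.dot_mulVec_eq, Matrix.smul_mulVec, dotProduct_smul, smul_eq_mul]
      rw [hu, Matrix.mulVec_add, dotProduct_add, add_dotProduct, add_dotProduct]
      ring
    have h22 : |u2 ⬝ᵥ (K *ᵥ u2)| ≤ Λ * B := (hmv u2 u2).trans_eq (by rw [← pow_two, LL.nrm_sq])
    have hpos : Ent.qform K u1 + (u1 ⬝ᵥ (K *ᵥ u2) + u2 ⬝ᵥ (K *ᵥ u1)) + u2 ⬝ᵥ (K *ᵥ u2)
        ≤ A / 8 + (16 * Λ ^ 2 + Λ) * B := by
      linarith [(abs_le.1 hq11).2, (abs_le.1 (hmv u1 u2)).2, (abs_le.1 (hmv u2 u1)).2, (abs_le.1 h22).2,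
        mul_comm (nrm u1) (nrm u2) ▸ hAM]
    rw [e]
    exact (mul_le_mul_of_nonneg_left hpos hs).trans (mul_le_of_le_one_left (by positivity) hs1)
  have hcross : 2 * τ / n * (∑ i, u i * m i) ^ 2 ≤ A / 8 + 4 * B := by
    have e1 : ∑ i, u i * m i = (∑ i, u1 i * m i) + ∑ i, u2 i * m i := by
      rw [← sum_add_distrib, hu]; exact sum_congr rfl fun i _ => by rw [Pi.add_apply]; ring
    have b1 : (∑ i, u1 i * m i) ^ 2 ≤ A * ((ρ + σ) * n) := by
      have : ∑ i, u1 i * m i = ∑ i, u1 i * (if i ∈ W then m i else 0) :=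
        sum_congr rfl fun i _ => by simp only [hu1]; split <;> simp
      rw [this]
      refine (sq_dot_le _ _).trans (mul_le_mul_of_nonneg_left (le_trans ?_ hWc) hA0)
      refine (sum_le_sum fun i _ => ?_).trans_eq
        (show ∑ i : Fin n, (if i ∈ W then (1 : ℝ) else 0) = W.card by simp)
      split
      · exact (sq_le_one_iff_abs_le_one _).2 (hm i)
      · norm_num
    have b2 : (∑ i, u2 i * m i) ^ 2 ≤ B * n :=
      (sq_dot_le _ _).trans (mul_le_mul_of_nonneg_left ((sum_le_sum fun i _ =>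
        (sq_le_one_iff_abs_le_one _).2 (hm i)).trans_eq (by simp)) hB0)
    have b3 : (∑ i, u i * m i) ^ 2 ≤ 2 * (A * ((ρ + σ) * n)) + 2 * (B * n) := by
      rw [e1]; linarith [add_sq_le (a := ∑ i, u1 i * m i) (b := ∑ i, u2 i * m i)]
    refine (mul_le_mul_of_nonneg_left b3 (by positivity)).trans ?_
    rw [show 2 * τ / n * (2 * (A * ((ρ + σ) * n)) + 2 * (B * n))
      = τ * (4 * (ρ + σ) * A + 4 * B) by field_simp; ring]
    linarith [mul_nonneg (sub_nonneg.2 h32) hA0, mul_nonneg (sub_nonneg.2 hτ1) hB0,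
      mul_nonneg (sub_nonneg.2 hτ1) hA0, mul_nonneg (mul_nonneg hτ hA0) (sub_nonneg.2 h32)]
  have hsum : A + 64 * (Λ + 1) ^ 2 * B ≤ ∑ i, u i ^ 2 / vsec θ m S i := by
    rw [hA, hB, mul_sum, ← sum_add_distrib]
    refine sum_le_sum fun i _ => ?_
    have hpos : 0 < vsec θ m S i := lt_of_lt_of_le (lt_min one_pos (by linarith)) (vsec_ge hθ.le hm S i)
    by_cases hi : i ∈ W
    · simp only [hu1, hu2, if_pos hi]
      rw [zero_pow two_ne_zero, mul_zero, add_zero]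
      refine le_div_self (sq_nonneg _) hpos ?_
      unfold vsec
      split
      · exact le_rfl
      · exact min_le_left _ _
    · simp only [hu1, hu2, if_neg hi]
      rw [zero_pow two_ne_zero, zero_add, le_div_iff₀ hpos]
      have hvs : vsec θ m S i ≤ 1 / (64 * (Λ + 1) ^ 2) := by
        rw [hW, mem_union, not_or] at hi
        rw [vsec, if_neg hi.1]
        exact (min_le_right _ _).trans (by linarith [hv i hi.2])
      refine (mul_le_mul_of_nonneg_left hvs (by positivity)).trans_eq ?_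
      field_simp
  have hτq : 0 ≤ τ * (1 - (∑ j, m j ^ 2) / n) := mul_nonneg hτ (one_sub_q_nonneg m hm)
  rw [hAB]
  linarith [mul_nonneg hτq (add_nonneg hA0 hB0), mul_nonneg hΛ hB0, mul_nonneg (sq_nonneg Λ) hB0]

/-- An overlap near one. -/
theorem ball_top (hn : 1 ≤ n) {Λ s τ ef ν θ σ ρ : ℝ} (hK : ‖K‖ ≤ Λ) (hflat : Sparse K ef (1 / 16))
    (hs : 0 ≤ s) (hs1 : s ≤ 1) (hτ : 0 ≤ τ) (hτ1 : τ ≤ 1) (hθ : 0 < θ)
    (hν : ν + 2 * θ ≤ 1 / (64 * (Λ + 1) ^ 2)) (hν0 : 0 < ν) (hef : ρ + σ ≤ ef) (h32 : ρ + σ ≤ 1 / 32)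
    {m : Vec n} (hm : ∀ i, |m i| ≤ 1) (hq : 1 - ρ * ν ≤ (∑ j, m j ^ 2) / n) :
    BallMargin (s • K) τ (1 / 2) θ σ m := by
  have hn0 : (0 : ℝ) < n := by exact_mod_cast hn
  refine ball_flat hn hK hflat hs hs1 hτ hτ1 hθ hν hef h32 hm
    (T := univ.filter fun i => ν < 1 - m i ^ 2) ?_ fun i hi => not_lt.1 fun h => hi (by simp [h])
  refine le_of_mul_le_mul_right ?_ hν0
  have h1 : ((univ.filter fun i => ν < 1 - m i ^ 2).card : ℝ) * ν ≤ ∑ i, (1 - m i ^ 2) := by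
    rw [show ((univ.filter fun i => ν < 1 - m i ^ 2).card : ℝ) * ν
      = ∑ _i ∈ univ.filter (fun i => ν < 1 - m i ^ 2), ν by simp]
    exact (sum_le_sum fun i hi => ((mem_filter.1 hi).2).le).trans
      (sum_le_univ_sum_of_nonneg fun i => sub_nonneg.2 ((sq_le_one_iff_abs_le_one _).2 (hm i)))
  rw [le_div_iff₀ hn0] at hq
  simp only [sum_sub_distrib, sum_const, card_univ, Fintype.card_fin, nsmul_eq_mul, mul_one] at h1
  linarith

theorem one_sub_tanh_sq_le {x H : ℝ} (hH : 0 < H) (hx : H ≤ |x|) : 1 - tanh x ^ 2 ≤ 1 / H ^ 2 := by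
  rw [le_div_iff₀ (by positivity)]
  refine le_trans ?_ (AmpRoot.sq_mul_vF_le x)
  rw [mul_comm, AmpRoot.vF, ← sq_abs x]
  exact mul_le_mul_of_nonneg_right (pow_le_pow_left₀ hH.le hx 2)
    (sub_nonneg.2 ((sq_le_one_iff_abs_le_one _).2 (abs_tanh_lt_one x).le))

theorem tanh_sign_close {a h H : ℝ} (hH : 0 < H) (hh : H ≤ |h|) (hd : |a - h| ≤ H / 2) :
    H / 2 ≤ |a| ∧ |tanh a - tanh h| ≤ 1 / (H / 2) ^ 2 := by
  have key : ∀ x : ℝ, H / 2 ≤ x → 1 - 1 / (H / 2) ^ 2 ≤ tanh x := fun x hx => by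
    have h1 := one_sub_tanh_sq_le (half_pos hH) (hx.trans (le_abs_self x))
    have h2 : 0 ≤ tanh x := by
      rw [tanh_eq_sinh_div_cosh]
      exact div_nonneg (sinh_nonneg_iff.2 ((half_pos hH).le.trans hx)) (cosh_pos x).le
    nlinarith [(abs_tanh_lt_one x), le_abs_self (tanh x)]
  obtain ⟨d1, d2⟩ := abs_le.1 hd
  rcases le_abs.1 hh with hp | hp
  · have ha : H / 2 ≤ a := by linarith
    refine ⟨ha.trans (le_abs_self a), abs_le.2 ⟨?_, ?_⟩⟩ <;>
      linarith [key a ha, key h (by linarith), le_abs_self (tanh a), (abs_tanh_lt_one a),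
        le_abs_self (tanh h), abs_tanh_lt_one h]
  · have ha : H / 2 ≤ -a := by linarith
    refine ⟨ha.trans (neg_le_abs a), abs_le.2 ⟨?_, ?_⟩⟩ <;>
      linarith [tanh_neg a, tanh_neg h, key (-a) ha, key (-h) (by linarith), neg_le_abs (tanh a),
        abs_tanh_lt_one a, neg_le_abs (tanh h), abs_tanh_lt_one h]

/-- A point near a large field. -/
theorem near_large (hn : 1 ≤ n) {D H ρ κ : ℝ} (hD : 0 ≤ D) (hH : 0 < H) (hρ : 0 ≤ ρ)
    (hκ : ρ + 4 * (D ^ 2 + 1) / H ^ 2 ≤ κ) (hκ1 : κ ≤ 1) {h a : Vec n} (hL : Large h H ρ)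
    (hd : nrm (a - h) ≤ D * √n) :
    ∃ T : Finset (Fin n), (T.card : ℝ) ≤ κ * n ∧ (∀ i ∉ T, 1 - tv a i ^ 2 ≤ κ) ∧
      nrm (tv a - tv h) ≤ 3 * √κ * √n ∧ 1 - (∑ j, tv a j ^ 2) / n ≤ 2 * κ := by
  have hn0 : (0 : ℝ) < n := by exact_mod_cast hn
  have hH2 : 0 < (H / 2) ^ 2 := by positivity
  set F := univ.filter fun i => H / 2 < |(a - h) i| with hF
  have hFc : (F.card : ℝ) ≤ 4 * D ^ 2 / H ^ 2 * n := by
    have h1 : (F.card : ℝ) * (H / 2) ^ 2 ≤ ∑ i, (a - h) i ^ 2 := by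
      rw [show (F.card : ℝ) * (H / 2) ^ 2 = ∑ _i ∈ F, (H / 2) ^ 2 by simp]
      refine (sum_le_sum fun i hi => ?_).trans (sum_le_univ_sum_of_nonneg fun i => sq_nonneg ((a - h) i))
      rw [hF, mem_filter] at hi
      rw [← sq_abs ((a - h) i)]
      exact pow_le_pow_left₀ (by positivity) hi.2.le 2
    rw [← LL.nrm_sq] at h1
    have h2 := pow_le_pow_left₀ (LL.nrm_nonneg _) hd 2
    rw [mul_pow, sq_sqrt hn0.le] at h2
    rw [div_mul_eq_mul_div, le_div_iff₀ (by positivity)]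
    linarith
  have hHκ : 1 / (H / 2) ^ 2 ≤ κ := by
    rw [show (1 : ℝ) / (H / 2) ^ 2 = 4 / H ^ 2 by field_simp; norm_num]
    have : 4 / H ^ 2 ≤ 4 * (D ^ 2 + 1) / H ^ 2 := by
      refine div_le_div_of_nonneg_right ?_ (by positivity)
      nlinarith
    linarith
  set T := univ.filter (fun i => |h i| < H) ∪ F with hT
  have hTc : (T.card : ℝ) ≤ κ * n := by
    have h1 : (T.card : ℝ) ≤ (univ.filter fun i => |h i| < H).card + F.card := by
      rw [hT]; exact_mod_cast card_union_le _ _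
    have e4 : (4 * D ^ 2 / H ^ 2 + 4 / H ^ 2) = 4 * (D ^ 2 + 1) / H ^ 2 := by ring
    have h2 : (4 * D ^ 2 / H ^ 2 + 4 / H ^ 2) * (n : ℝ) ≤ (κ - ρ) * n :=
      mul_le_mul_of_nonneg_right (by linarith) hn0.le
    unfold Large at hL
    linarith [show (0 : ℝ) ≤ 4 / H ^ 2 * n by positivity]
  have hoff : ∀ i ∉ T, H / 2 ≤ |a i| ∧ |tanh (a i) - tanh (h i)| ≤ κ := fun i hi => by
    rw [hT, hF, mem_union, not_or] at hi
    simp only [mem_filter, mem_univ, true_and, not_lt, Pi.sub_apply] at hi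
    obtain ⟨h1, h2⟩ := tanh_sign_close hH hi.1 hi.2
    exact ⟨h1, h2.trans hHκ⟩
  have hv : ∀ i ∉ T, 1 - tv a i ^ 2 ≤ κ := fun i hi =>
    (one_sub_tanh_sq_le (half_pos hH) (hoff i hi).1).trans hHκ
  have hκ0 : 0 ≤ κ := le_trans (by positivity) hHκ
  have hcount : ∑ i : Fin n, ((if i ∈ T then (1 : ℝ) else 0) + κ) ≤ 2 * κ * n := by
    rw [sum_add_distrib]; simp only [sum_boole, sum_const, card_univ, Fintype.card_fin, nsmul_eq_mul,
      filter_univ_mem]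
    linarith
  refine ⟨T, hTc, hv, ?_, ?_⟩
  · refine (pow_le_pow_iff_left₀ (LL.nrm_nonneg _) (by positivity) two_ne_zero).1 ?_
    rw [LL.nrm_sq, mul_pow, mul_pow, sq_sqrt hκ0, sq_sqrt hn0.le]
    refine le_trans (sum_le_sum fun i _ => ?_) (le_trans (le_of_eq (mul_sum _ _ (4 : ℝ)).symm)
      ((mul_le_mul_of_nonneg_left hcount (by norm_num)).trans (by linarith)))
    simp only [Pi.sub_apply, tv]
    rw [← sq_abs]
    by_cases hi : i ∈ T
    · rw [if_pos hi]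
      linarith [pow_le_pow_left₀ (abs_nonneg _) ((abs_sub _ _).trans (add_le_add
        (abs_tanh_lt_one (a i)).le (abs_tanh_lt_one (h i)).le)) 2]
    · rw [if_neg hi]
      linarith [pow_le_pow_left₀ (abs_nonneg _) (hoff i hi).2 2, mul_le_mul_of_nonneg_right hκ1 hκ0]
  · rw [one_sub_div hn0.ne', div_le_iff₀ hn0]
    have h1 : ∑ j, (1 - tv a j ^ 2) ≤ ∑ j : Fin n, ((if j ∈ T then (1 : ℝ) else 0) + κ) := by
      refine sum_le_sum fun i _ => ?_
      by_cases hi : i ∈ T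
      · rw [if_pos hi]; linarith [sq_nonneg (tv a i)]
      · rw [if_neg hi]; linarith [hv i hi]
    rw [sum_sub_distrib, sum_const, card_univ, Fintype.card_fin, nsmul_one] at h1
    linarith

theorem nrm_satC_sub {Λ s : ℝ} (hK : ‖K‖ ≤ Λ) (hs : |s| ≤ 1) (h : Vec n) :
    nrm (satC K s h - h) ≤ Λ * √n := by
  rw [satC, add_sub_cancel_left]
  refine (nrm_smul_le hs ((LL.nrm_mulVec _ _).trans (mul_le_mul hK (nrm_tv_le h) (LL.nrm_nonneg _)
    ((norm_nonneg _).trans hK)))).trans_eq (one_mul _)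

/-- In a large field the centres below the switch are good. -/
theorem good_flat (hn : 1 ≤ n) {β Λ ef H ρ κ η θ σ ε : ℝ} {N : ℕ} {a : ℕ → Vec n → Vec n}
    (hK : ‖K‖ ≤ Λ) (hflat : Sparse K ef (1 / 16)) (hβ : 0 ≤ β) (hβ1 : β ≤ 1) (hH : 0 < H) (hρ : 0 ≤ ρ)
    (hκ : ρ + 4 * (Λ ^ 2 + 1) / H ^ 2 ≤ κ) (hκ1 : κ ≤ 1) (hη : η ≤ 1 / 2) (hθ : 0 < θ)
    (hν : κ + 2 * θ ≤ 1 / (64 * (Λ + 1) ^ 2)) (hef : κ + σ ≤ ef) (h32 : κ + σ ≤ 1 / 32)
    (hε : Λ * (3 * √κ) + 2 * κ ≤ ε) {k : ℕ} {h : Vec n}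
    (ha : k ≠ 0 → a k h = satC K (scl N k) h) (hL : Large h H ρ) :
    Good K β N a η θ σ ε k h ∧ nrm (tv (ctr a k h) - tv h) ≤ 3 * √κ * √n := by
  obtain ⟨s0, s1⟩ := scl_mem N k
  obtain ⟨hτ, hτ1⟩ := ons_mem hβ hβ1 N k
  have hΛ : 0 ≤ Λ := (norm_nonneg _).trans hK
  have hsn : (0 : ℝ) ≤ √n := sqrt_nonneg _
  have hc : ctr a k h = satC K (scl N k) h := by
    unfold ctr
    split
    · subst k; simp [satC, scl]
    · exact ha ‹_›
  obtain ⟨T, hT, hv, hclose, hq⟩ := near_large hn hΛ hH hρ hκ hκ1 hL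
    (nrm_satC_sub hK (by rw [abs_of_nonneg s0]; exact s1) h)
  rw [← hc] at hclose hq hv
  refine ⟨⟨?_, ?_⟩, hclose⟩
  · set c := ctr a k h
    have e : act K (scl N k) (ons β N k) c - h = scl N k • (K *ᵥ (tv h - tv c))
        + (ons β N k * (1 - (∑ j, tv c j ^ 2) / n)) • tv c := by
      funext i
      have h1 : c i = h i + scl N k * (K *ᵥ tv h) i := by rw [hc]; rfl
      simp only [act, Pi.sub_apply, Pi.add_apply, Pi.smul_apply, smul_eq_mul, Matrix.mulVec_sub, h1]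
      ring
    rw [e]
    refine (LL.nrm_add _ _).trans ?_
    have t1 : nrm (scl N k • (K *ᵥ (tv h - tv c))) ≤ 1 * (Λ * (3 * √κ * √n)) :=
      nrm_smul_le (by rw [abs_of_nonneg s0]; exact s1) ((LL.nrm_mulVec _ _).trans
        (mul_le_mul hK (by rwa [← LL.nrm_neg, neg_sub]) (LL.nrm_nonneg _) hΛ))
    have t2 : nrm ((ons β N k * (1 - (∑ j, tv c j ^ 2) / n)) • tv c) ≤ 2 * κ * √n := by
      refine nrm_smul_le ?_ (nrm_tv_le c)
      have hq0 := one_sub_q_nonneg (tv c) fun i => (abs_tanh_lt_one (c i)).le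
      rw [abs_mul, abs_of_nonneg hτ, abs_of_nonneg hq0]
      exact (mul_le_of_le_one_left hq0 hτ1).trans hq
    refine (add_le_add t1 t2).trans (le_of_eq_of_le ?_ (mul_le_mul_of_nonneg_right hε hsn))
    ring
  · exact ball_mono hη hθ le_rfl le_rfl (fun i => (abs_tanh_lt_one _).le)
      (ball_flat hn hK hflat s0 s1 hτ hτ1 hθ hν hef h32 (fun i => (abs_tanh_lt_one _).le) hT hv)

/-- Sparse exceptions of a large field. -/
theorem large_of_split {u C : ℝ} (hu : 0 < u) {h w : Vec n} (hw : nrm w ≤ C * √n)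
    (hh : ∀ i, u ≤ |h i - w i|) : Large h (u / 2) (4 * C ^ 2 / u ^ 2) := by
  rw [Large, div_mul_eq_mul_div, le_div_iff₀ (by positivity)]
  set F := univ.filter fun i => |h i| < u / 2
  have h1 : (F.card : ℝ) * (u / 2) ^ 2 ≤ ∑ i, w i ^ 2 := by
    rw [show (F.card : ℝ) * (u / 2) ^ 2 = ∑ _i ∈ F, (u / 2) ^ 2 by simp]
    refine (sum_le_sum fun i hi => ?_).trans (sum_le_univ_sum_of_nonneg fun i => sq_nonneg (w i))
    rw [← sq_abs (w i)]
    refine pow_le_pow_left₀ (by positivity) ?_ 2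
    linarith [(mem_filter.1 hi).2, hh i, abs_sub (h i) (w i)]
  rw [← LL.nrm_sq] at h1
  have h2 := pow_le_pow_left₀ (LL.nrm_nonneg _) hw 2
  rw [mul_pow, sq_sqrt (Nat.cast_nonneg n)] at h2
  linarith

end Vale.Agent.P150.Fast.StepC
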