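import Vale.Agent.P150.Fast.Amp.Err
import Vale.Agent.P150.Fast.Step.AmpGood
import Vale.Agent.P150.Fast.Step.Flat

/-!
The AMP centres above the switch (P150): they stay near the field, depend Lipschitz continuously on
the field and the strength, and are good on the event of the iterate.
-/

open MeasureTheory Real Finset
open scoped Matrix Matrix.Norms.L2Operator

namespace Vale.Agent.P150.Fast.StepC

open LL (nrm)

variable {n : ℕ} {K : Matrix (Fin n) (Fin n) ℝ}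

/-- The Lipschitz constant of the iterate. -/
def lipA (Λ : ℝ) : ℕ → ℝ
  | 0 => 1
  | j + 1 => (Λ + 2) * lipA Λ j + (j + 2)

theorem lipA_nonneg {Λ : ℝ} (hΛ : 0 ≤ Λ) : ∀ j, 0 ≤ lipA Λ j
  | 0 => zero_le_one
  | j + 1 => by have := lipA_nonneg hΛ j; unfold lipA; positivity

theorem abs_ampQ_sub {t u u' : ℝ} (ht : 0 ≤ t) (ht1 : t ≤ 1) (hu : 0 ≤ u) (hu' : 0 ≤ u') :
    ∀ j, |ampQ t u j - ampQ t u' j| ≤ j * |u - u'|
  | 0 => by simp [ampQ]
  | j + 1 => by
    have ih := abs_ampQ_sub ht ht1 hu hu' j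
    have h0 := (Amp.psi_mem' t u j).1
    have h1 := (Amp.psi_mem' t u' j).1
    refine (Entropy.psi_lip (by positivity) (by positivity)).trans ?_
    rw [show u + t * ampQ t u j - (u' + t * ampQ t u' j) = (u - u') + t * (ampQ t u j - ampQ t u' j) by ring]
    refine (abs_add_le _ _).trans ?_
    rw [abs_mul, abs_of_nonneg ht]
    push_cast
    linarith [(mul_le_of_le_one_left (abs_nonneg (ampQ t u j - ampQ t u' j)) ht1)]

theorem ampState_fst (K : Matrix (Fin n) (Fin n) ℝ) (t u : ℝ) (h : Vec n) :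
    ∀ j i, |(ampState K t u h j).1 i| ≤ 1
  | 0, _ => by simp [ampState]
  | _ + 1, _ => (abs_tanh_lt_one _).le

theorem ampState_snd (K : Matrix (Fin n) (Fin n) ℝ) (t u : ℝ) (h : Vec n) (j : ℕ) :
    (ampState K t u h (j + 1)).2 = h + K *ᵥ tv (ampState K t u h j).2
      + (-(t * (1 - ampQ t u (j + 1)))) • (ampState K t u h j).1 := by
  funext i
  simp only [ampState, Pi.add_apply, Pi.smul_apply, smul_eq_mul, Matrix.mulVec, dotProduct, tv]
  ring

/-- The iterate stays near the field. -/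
theorem nrm_amp_sub {Λ t u : ℝ} (hK : ‖K‖ ≤ Λ) (ht : 0 ≤ t) (ht1 : t ≤ 1) (h : Vec n) (j : ℕ) :
    nrm (ampA K t u h j - h) ≤ (Λ + 1) * √n := by
  have hΛ : 0 ≤ Λ := (norm_nonneg _).trans hK
  cases j with
  | zero =>
    rw [show ampA K t u h 0 - h = 0 from sub_self h, show nrm (0 : Vec n) = 0 by simp [LL.nrm]]
    positivity
  | succ j =>
    rw [ampA, ampState_snd, add_assoc, add_sub_cancel_left, add_mul]
    obtain ⟨q0, q1⟩ := Amp.psi_mem' t u (j + 1)
    refine (LL.nrm_add _ _).trans (add_le_add ((LL.nrm_mulVec _ _).trans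
      (mul_le_mul hK (nrm_tv_le _) (LL.nrm_nonneg _) hΛ)) (nrm_smul_le ?_ (nrm_one_le (ampState_fst K t u h j))))
    rw [abs_neg, abs_of_nonneg (mul_nonneg ht (by linarith))]
    exact mul_le_one₀ ht1 (by linarith) (by linarith)

/-- The iterate is Lipschitz in the field and the strength. -/
theorem amp_lip {Λ t u u' : ℝ} (hK : ‖K‖ ≤ Λ) (ht : 0 ≤ t) (ht1 : t ≤ 1) (hu : 0 ≤ u) (hu' : 0 ≤ u')
    (h h' : Vec n) (j : ℕ) :
    nrm ((ampState K t u' h' j).1 - (ampState K t u h j).1) ≤ lipA Λ j * (nrm (h' - h) + |u' - u| * √n) ∧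
      nrm ((ampState K t u' h' j).2 - (ampState K t u h j).2)
        ≤ lipA Λ j * (nrm (h' - h) + |u' - u| * √n) := by
  have hΛ : 0 ≤ Λ := (norm_nonneg _).trans hK
  set D := nrm (h' - h) + |u' - u| * √n with hD
  have hu0 : 0 ≤ |u' - u| * √n := by positivity
  have hd : nrm (h' - h) ≤ D := by linarith
  have hdu : |u' - u| * √n ≤ D := by linarith [LL.nrm_nonneg (h' - h)]
  have hD0 : 0 ≤ D := (LL.nrm_nonneg _).trans hd
  induction j with
  | zero =>
    simp only [ampState, sub_self, lipA, one_mul]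
    exact ⟨by rw [show nrm (0 : Vec n) = 0 by simp [LL.nrm]]; exact hD0, hd⟩
  | succ j ih =>
    obtain ⟨i1, i2⟩ := ih
    set L := lipA Λ j
    have hL : 0 ≤ L := lipA_nonneg hΛ j
    set F := (ampState K t u h j).2
    set F' := (ampState K t u' h' j).2
    have htv : nrm (tv F' - tv F) ≤ L * D := (nrm_tv_sub_le _ _).trans i2
    refine ⟨le_trans htv (mul_le_mul_of_nonneg_right ?_ hD0), ?_⟩
    · show L ≤ (Λ + 2) * L + (j + 2)
      nlinarith
    set P := (ampState K t u h j).1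
    set P' := (ampState K t u' h' j).1
    obtain ⟨q0, q1⟩ := Amp.psi_mem' t u (j + 1)
    set c := t * (1 - ampQ t u (j + 1))
    set c' := t * (1 - ampQ t u' (j + 1))
    have e : (ampState K t u' h' (j + 1)).2 - (ampState K t u h (j + 1)).2
        = (h' - h) + K *ᵥ (tv F' - tv F) + ((-c) • (P' - P) + (c - c') • P') := by
      rw [ampState_snd, ampState_snd, Matrix.mulVec_sub]
      funext i; simp only [Pi.add_apply, Pi.sub_apply, Pi.smul_apply, smul_eq_mul]; ring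
    have hc : |-c| ≤ 1 := by
      rw [abs_neg, abs_of_nonneg (mul_nonneg ht (by linarith))]
      exact mul_le_one₀ ht1 (by linarith) (by linarith)
    have hcc : |c - c'| * √n ≤ (j + 1) * D := by
      have h1 := abs_ampQ_sub ht ht1 hu' hu (j + 1)
      push_cast at h1
      rw [show c - c' = t * (ampQ t u' (j + 1) - ampQ t u (j + 1)) by simp only [c, c']; ring,
        abs_mul, abs_of_nonneg ht]
      refine (mul_le_mul_of_nonneg_right ((mul_le_of_le_one_left (abs_nonneg _) ht1).trans h1)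
        (sqrt_nonneg _)).trans ?_
      rw [mul_assoc]
      exact mul_le_mul_of_nonneg_left hdu (by positivity)
    rw [e]
    refine ((LL.nrm_add _ _).trans (add_le_add ((LL.nrm_add _ _).trans (add_le_add hd
      ((LL.nrm_mulVec _ _).trans (mul_le_mul hK htv (LL.nrm_nonneg _) hΛ))))
      ((LL.nrm_add _ _).trans (add_le_add (nrm_smul_le hc i1)
        ((nrm_smul_le le_rfl (nrm_one_le (ampState_fst K t u' h' j))).trans hcc))))).trans ?_
    show _ ≤ ((Λ + 2) * L + (j + 2)) * D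
    nlinarith [mul_nonneg hL hD0]

/-- On the event of the iterate, with a bounded coupling, the iterate is a good centre. -/
theorem good_amp (hn : 1 ≤ n) {β Λ η₀ ef ν ρ η θ σ a₀ a₁ ε η' θ' σ' : ℝ} {J N : ℕ} {u : ℝ} {h : Vec n}
    {a : ℕ → Vec n → Vec n} (hK : ‖K‖ ≤ Λ) (hform : ∀ v, Ent.qform K v ≤ (2 * β + η₀) * ∑ i, v i ^ 2)
    (hflat : Sparse K ef (1 / 16)) (hβ : 0 ≤ β) (hβ1 : β ≤ 1)
    (hη : η' ≤ η) (hη0 : η' ≤ (1 - β) ^ 2 - η₀ - 3 * a₀) (hηh : η' ≤ 1 / 2) (hθ0 : 0 < θ') (hθ : θ' ≤ θ)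
    (hσ : σ' ≤ σ) (hν0 : 0 < ν) (hν : ν + 2 * θ' ≤ 1 / (64 * (Λ + 1) ^ 2)) (ha₁ : a₁ ≤ ρ * ν)
    (hef : ρ + σ' ≤ ef) (h32 : ρ + σ' ≤ 1 / 32) (hε : 0 ≤ ε)
    (hG : (((K : Matrix (Fin n) (Fin n) ℝ) : Fin n → Fin n → ℝ), h) ∈ AmpGood n β η θ σ a₀ a₁ ε J u)
    (hN : 1 ≤ N) {k : ℕ} (hk : N ^ 2 ≤ k) (hk0 : k ≠ 0) (ha : a k h = ampA K (β ^ 2) u h J) :
    Good K β N a η' θ' σ' ε k h := by
  obtain ⟨hres, hmarg⟩ := hG
  have hs : scl N k = 1 := by
    rw [scl, min_eq_right hk]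
    have : (N : ℝ) ≠ 0 := Nat.cast_ne_zero.2 (by omega)
    push_cast; field_simp
  have ho : ons β N k = β ^ 2 := by rw [ons, hs, one_pow, one_mul]
  have hc : ctr a k h = ampA K (β ^ 2) u h J := (if_neg hk0).trans ha
  rw [Good, hs, ho, hc, one_smul]
  set A := ampA K (β ^ 2) u h J
  refine ⟨?_, ?_⟩
  · have e : act K 1 (β ^ 2) A - h = fun i => fieldRes K h (β ^ 2) A i := by
      funext i
      simp only [act, fieldRes, Pi.sub_apply, Matrix.mulVec, dotProduct, tv]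
      ring
    rw [e, LL.nrm, ← sqrt_sq hε, ← sqrt_mul (sq_nonneg _)]
    exact sqrt_le_sqrt hres
  · have hm : ∀ i, |tv A i| ≤ 1 := fun i => (abs_tanh_lt_one _).le
    rcases hmarg with hb | hq | hq
    · exact ball_mono hη hθ0 hθ hσ hm hb
    · exact ball_mono hη0 hθ0 le_rfl le_rfl hm (ball_small hθ0 hform hm hq)
    · have h := ball_top hn hK hflat zero_le_one le_rfl (sq_nonneg β) (pow_le_one₀ hβ hβ1) hθ0 hν hν0
        hef h32 hm (le_trans (by linarith) hq)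
      rw [one_smul] at h
      exact ball_mono hηh hθ0 le_rfl le_rfl hm h

/-- A good centre moves a little. -/
theorem good_move (hn : 1 ≤ n) {β Λ η θ σ δ ε ε' : ℝ} {N k k' : ℕ} {h : Vec n} {a : ℕ → Vec n → Vec n}
    (hK : ‖K‖ ≤ Λ) (hβ : 0 ≤ β) (hβ1 : β ≤ 1) (hθ : 0 < θ) (hδ : 0 ≤ δ) (hσ : δ ^ 2 ≤ σ / 2 * (θ / 2) ^ 2)
    (hG : Good K β N a η θ σ ε k h) (hs : scl N k' = scl N k)
    (hd : nrm (ctr a k' h - ctr a k h) ≤ δ * √n) (hε : ε + (Λ + 4) * δ ≤ ε') :
    Good K β N a (η - 6 * δ) (θ / 2) (σ / 2) ε' k' h ∧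
      nrm (tv (ctr a k h) - tv (ctr a k' h)) ≤ δ * √n := by
  obtain ⟨hres, hB⟩ := hG
  obtain ⟨hτ, hτ1⟩ := ons_mem hβ hβ1 N k
  have hm : ∀ (b : Vec n) i, |tv b i| ≤ 1 := fun b i => (abs_tanh_lt_one _).le
  have ho : ons β N k' = ons β N k := by rw [ons, ons, hs]
  have hΛ : 0 ≤ Λ := (norm_nonneg _).trans hK
  have htv := (nrm_tv_sub_le (ctr a k h) (ctr a k' h)).trans hd
  refine ⟨?_, by rwa [← LL.nrm_neg, neg_sub]⟩
  rw [Good, hs, ho]
  refine ⟨?_, ?_⟩
  · rw [show act K (scl N k) (ons β N k) (ctr a k' h) - h = (act K (scl N k) (ons β N k) (ctr a k' h)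
      - act K (scl N k) (ons β N k) (ctr a k h)) + (act K (scl N k) (ons β N k) (ctr a k h) - h) by abel]
    refine (LL.nrm_add _ _).trans ((add_le_add ((act_lip hn hK (by
      rw [abs_of_nonneg (scl_mem N k).1]; exact (scl_mem N k).2) hτ hτ1 _ _).trans
      (mul_le_mul_of_nonneg_left hd (by linarith))) hres).trans ?_)
    nlinarith [sqrt_nonneg (n : ℝ)]
  · refine ball_mono ?_ (half_pos hθ) le_rfl le_rfl (hm _) (ball_move hn hτ hθ hδ (hm _) (hm _) hB htv hσ)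
    nlinarith

end Vale.Agent.P150.Fast.StepC
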