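import Vale.Agent.P150.Fast.Tap
import Vale.Agent.P150.Fast.StepKL
import Vale.Agent.P150.Fast.Step.Lin

/-!
The second-order expansion of a TAP point in the field and the scale (P150): in the local fields
`a = artanh m` all derivatives are bounded, so the remainder is cubic uniformly in the variances.
-/

open Real Finset
open scoped Matrix Matrix.Norms.L2Operator

namespace Vale.Agent.P150.Fast.StepC

open LL (nrm)

variable {n : ℕ}

/-- The magnetisations of local fields. -/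
noncomputable def tv (a : Fin n → ℝ) : Fin n → ℝ := fun i => tanh (a i)

/-- The variances of local fields. -/
noncomputable def vv (a : Fin n → ℝ) : Fin n → ℝ := fun i => 1 - tanh (a i) ^ 2

/-- The field of which `a` are the local fields of a TAP point. -/
noncomputable def act (K : Matrix (Fin n) (Fin n) ℝ) (s τ : ℝ) (a : Fin n → ℝ) : Fin n → ℝ :=
  fun i => a i - s * (K *ᵥ tv a) i + τ * (1 - (∑ j, tv a j ^ 2) / n) * tv a i

/-- The interaction part of the Hessian at the local fields `a`. -/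
noncomputable def yFull (K : Matrix (Fin n) (Fin n) ℝ) (s τ : ℝ) (a : Fin n → ℝ) :
    Matrix (Fin n) (Fin n) ℝ :=
  (τ * (1 - (∑ j, tv a j ^ 2) / n)) • (1 : Matrix (Fin n) (Fin n) ℝ) - s • K
    - (2 * τ / n) • Matrix.vecMulVec (tv a) (tv a)

/-- The quadratic part of the expansion. -/
noncomputable def quadPart (τ : ℝ) (v m : Fin n → ℝ) (Y : Matrix (Fin n) (Fin n) ℝ) (e : Fin n → ℝ) :
    Fin n → ℝ :=
  fun i => τ / n * ((∑ j, (res v Y *ᵥ e) j ^ 2) * m i + 2 * (m ⬝ᵥ (res v Y *ᵥ e)) * (res v Y *ᵥ e) i)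
    - m i * (pmat v Y *ᵥ e) i ^ 2

theorem hasDerivAt_tanh_line (x d s : ℝ) :
    HasDerivAt (fun r => tanh (x + r * d)) ((1 - tanh (x + s * d) ^ 2) * d) s :=
  HasDerivAt.comp (h₂ := tanh) s (hasDerivAt_tanh' _)
    (by simpa using ((hasDerivAt_id' s).mul_const d).const_add x)

/-- Taylor expansion of `tanh` to the second order. -/
theorem tanh_taylor (x d : ℝ) :
    |tanh (x + d) - tanh x - (1 - tanh x ^ 2) * d + tanh x * (1 - tanh x ^ 2) * d ^ 2| ≤ 4 * |d| ^ 3 ∧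
    |tanh (x + d) - tanh x - (1 - tanh x ^ 2) * d| ≤ 6 * d ^ 2 := by
  set m := tanh x
  set f := fun r => tanh (x + r * d) with hf
  have hm : ∀ r, f r ^ 2 ≤ 1 := fun r => (sq_le_one_iff_abs_le_one _).2 (abs_tanh_lt_one _).le
  have df : ∀ r, HasDerivAt f ((1 - f r ^ 2) * d) r := hasDerivAt_tanh_line x d
  set g0 := fun r => f r - m - (1 - m ^ 2) * d * r + m * (1 - m ^ 2) * d ^ 2 * r ^ 2 with hg0
  set g1 := fun r => (1 - f r ^ 2) * d - (1 - m ^ 2) * d + 2 * m * (1 - m ^ 2) * d ^ 2 * r with hg1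
  set g2 := fun r => -2 * f r * (1 - f r ^ 2) * d ^ 2 + 2 * m * (1 - m ^ 2) * d ^ 2 with hg2
  have d0 : ∀ r, HasDerivAt g0 (g1 r) r := fun r => by
    refine (((df r).sub_const m).sub ((hasDerivAt_id' r).const_mul ((1 - m ^ 2) * d))).add
      ((hasDerivAt_pow 2 r).const_mul (m * (1 - m ^ 2) * d ^ 2)) |>.congr_deriv ?_
    simp [hg1]; ring
  have d1 : ∀ r, HasDerivAt g1 (g2 r) r := fun r => by
    refine (((((df r).pow 2).const_sub 1).mul_const d).sub_const ((1 - m ^ 2) * d)).add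
      ((hasDerivAt_id' r).const_mul (2 * m * (1 - m ^ 2) * d ^ 2)) |>.congr_deriv ?_
    simp [hg2]; ring
  have d2 : ∀ r, HasDerivAt g2 ((1 - f r ^ 2) * (6 * f r ^ 2 - 2) * d ^ 3) r := fun r => by
    refine ((((df r).const_mul (-2)).mul (((df r).pow 2).const_sub 1)).mul_const (d ^ 2)).add_const
      (2 * m * (1 - m ^ 2) * d ^ 2) |>.congr_deriv ?_
    simp; ring
  have seg : ∀ (g g' : ℝ → ℝ) (C : ℝ), (∀ r, HasDerivAt g (g' r) r) → g 0 = 0 →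
      (∀ r ∈ Set.Icc (0 : ℝ) 1, |g' r| ≤ C) → ∀ r ∈ Set.Icc (0 : ℝ) 1, |g r| ≤ C := by
    intro g g' C hd h0 hC r hr
    have h := Convex.norm_image_sub_le_of_norm_hasDerivWithin_le
      (fun y _ => (hd y).hasDerivWithinAt) (C := C)
      (fun y hy => by rw [Real.norm_eq_abs]; exact hC y hy) (convex_Icc 0 1)
      (Set.left_mem_Icc.2 zero_le_one) hr
    rw [h0, sub_zero, sub_zero, Real.norm_eq_abs, Real.norm_eq_abs, abs_of_nonneg hr.1] at h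
    refine h.trans (mul_le_of_le_one_right ?_ hr.2)
    exact (abs_nonneg _).trans (hC r hr)
  have f0 : f 0 = m := by simp [hf, m]
  have b3 : ∀ r ∈ Set.Icc (0 : ℝ) 1, |(1 - f r ^ 2) * (6 * f r ^ 2 - 2) * d ^ 3| ≤ 4 * |d| ^ 3 := by
    intro r _
    rw [abs_mul, abs_mul, abs_pow]
    refine mul_le_mul_of_nonneg_right ?_ (pow_nonneg (abs_nonneg d) 3)
    have h1 := hm r
    have h2 : |1 - f r ^ 2| ≤ 1 := abs_le.2 ⟨by linarith, by linarith [sq_nonneg (f r)]⟩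
    have h3 : |6 * f r ^ 2 - 2| ≤ 4 := abs_le.2 ⟨by linarith [sq_nonneg (f r)], by linarith⟩
    calc |1 - f r ^ 2| * |6 * f r ^ 2 - 2| ≤ 1 * 4 := mul_le_mul h2 h3 (abs_nonneg _) zero_le_one
      _ = 4 := by norm_num
  have b2 := seg g2 _ _ d2 (by simp [hg2, f0]) b3
  have b1 := seg g1 g2 _ d1 (by simp [hg1, f0]) b2
  have b0 := seg g0 g1 _ d0 (by simp [hg0, f0]) b1 1 (Set.right_mem_Icc.2 zero_le_one)
  simp only [hg0, one_pow, mul_one] at b0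
  simp only [hf, one_mul] at b0
  refine ⟨b0, ?_⟩
  set h1 := fun r => (1 - f r ^ 2) * d - (1 - m ^ 2) * d with hh1
  set h0 := fun r => f r - m - (1 - m ^ 2) * d * r with hh0
  have e0 : ∀ r, HasDerivAt h0 (h1 r) r := fun r => by
    refine ((df r).sub_const m).sub ((hasDerivAt_id' r).const_mul ((1 - m ^ 2) * d)) |>.congr_deriv ?_
    simp [hh1]
  have e1 : ∀ r, HasDerivAt h1 (-2 * f r * (1 - f r ^ 2) * d ^ 2) r := fun r => by
    refine ((((df r).pow 2).const_sub 1).mul_const d).sub_const ((1 - m ^ 2) * d) |>.congr_deriv ?_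
    simp; ring
  have c2 : ∀ r ∈ Set.Icc (0 : ℝ) 1, |-2 * f r * (1 - f r ^ 2) * d ^ 2| ≤ 6 * d ^ 2 := by
    intro r _
    rw [abs_mul, abs_of_nonneg (sq_nonneg d)]
    refine mul_le_mul_of_nonneg_right ?_ (sq_nonneg d)
    have h1 := hm r
    have h2 : |1 - f r ^ 2| ≤ 1 := abs_le.2 ⟨by linarith, by linarith [sq_nonneg (f r)]⟩
    have h3 : |f r| ≤ 1 := (sq_le_one_iff_abs_le_one _).1 h1
    rw [abs_mul, abs_mul, abs_neg, abs_two]
    linarith [mul_le_mul h3 h2 (abs_nonneg _) zero_le_one]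
  have c0 := seg h0 h1 _ e0 (by simp [hh0, f0]) (seg h1 _ _ e1 (by simp [hh1, f0]) c2)
    1 (Set.right_mem_Icc.2 zero_le_one)
  simpa [hh0, hf] using c0

theorem nrm_const_smul (c : ℝ) (x : Fin n → ℝ) : nrm (c • x) = |c| * nrm x := by
  simp only [LL.nrm, Pi.smul_apply, smul_eq_mul, mul_pow, ← mul_sum]
  rw [sqrt_mul (sq_nonneg _), sqrt_sq_eq_abs]

theorem nrm_sub_le (x y : Fin n → ℝ) : nrm (x - y) ≤ nrm x + nrm y := by
  rw [sub_eq_add_neg]; exact (LL.nrm_add _ _).trans_eq (by rw [LL.nrm_neg])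

theorem abs_le_nrm (x : Fin n → ℝ) (i : Fin n) : |x i| ≤ nrm x := by
  rw [LL.nrm, ← sqrt_sq_eq_abs]
  exact sqrt_le_sqrt (single_le_sum (f := fun j => x j ^ 2) (fun j _ => sq_nonneg _) (mem_univ i))

theorem nrm_le_mul {x y : Fin n → ℝ} {c : ℝ} (hc : 0 ≤ c) (h : ∀ i, |x i| ≤ c * |y i|) :
    nrm x ≤ c * nrm y := by
  rw [LL.nrm, LL.nrm, ← sqrt_sq hc, ← sqrt_mul (sq_nonneg _), mul_sum]
  refine sqrt_le_sqrt (sum_le_sum fun i _ => ?_)
  rw [← sq_abs, ← sq_abs (y i), ← mul_pow]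
  exact pow_le_pow_left₀ (abs_nonneg _) (h i) 2

theorem nrm_tv_le (a : Fin n → ℝ) : nrm (tv a) ≤ √n := by
  refine sqrt_le_sqrt ((sum_le_sum fun i _ => ?_).trans_eq (show ∑ _i : Fin n, (1 : ℝ) = n by simp))
  exact (sq_le_one_iff_abs_le_one _).2 (abs_tanh_lt_one _).le

theorem abs_dot_le (x y : Fin n → ℝ) : |x ⬝ᵥ y| ≤ nrm x * nrm y :=
  abs_le.2 ⟨by
    have := LL.dot_le (-x) y
    rw [neg_dotProduct, LL.nrm_neg] at this
    linarith, LL.dot_le x y⟩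

theorem sum_sq_sub (x y : Fin n → ℝ) :
    |∑ j, x j ^ 2 - ∑ j, y j ^ 2| ≤ nrm (x - y) * (nrm x + nrm y) := by
  rw [← LL.nrm_sq, ← LL.nrm_sq]
  have h1 := LL.nrm_add (x - y) y
  rw [sub_add_cancel] at h1
  have h2 := LL.nrm_add (y - x) x
  rw [sub_add_cancel] at h2
  rw [show nrm x ^ 2 - nrm y ^ 2 = (nrm x - nrm y) * (nrm x + nrm y) by ring, abs_mul,
    abs_of_nonneg (add_nonneg (LL.nrm_nonneg x) (LL.nrm_nonneg y))]
  refine mul_le_mul_of_nonneg_right (abs_le.2 ⟨?_, by linarith⟩) (add_nonneg (LL.nrm_nonneg x) (LL.nrm_nonneg y))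
  rw [← LL.nrm_neg (x - y), neg_sub]; linarith

/-- The constant of the expansion. -/
noncomputable def expandC (Λ η C₁ : ℝ) : ℝ :=
  let C₂ := 1 + (Λ + 2 + 6 * C₁) + (Λ + 3) * C₁
  let p := 1 + (Λ + 3) / η
  let C₃ := (Λ + 2 + 3 * C₁ ^ 2) / η + p * (6 * C₂ ^ 2)
  let C₄ := (Λ + 2 + 3 * C₁ ^ 2) + (Λ + 3) * C₃
  1 / η * ((Λ + 7) * C₁ + 1 + C₁ ^ 3 + 3 * C₃ * (C₁ + 1 / η))
    + p * (4 * C₂ ^ 3 + C₄ * (C₂ + p))

theorem norm_yFull_le {K : Matrix (Fin n) (Fin n) ℝ} {s τ Λ : ℝ} (hK : ‖K‖ ≤ Λ) (hs : |s| ≤ 1)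
    (hτ : 0 ≤ τ) (hτ1 : τ ≤ 1) (hn : 1 ≤ n) (a : Fin n → ℝ) : ‖yFull K s τ a‖ ≤ Λ + 3 := by
  have hn0 : (0 : ℝ) < n := by exact_mod_cast hn
  have hq : |τ * (1 - (∑ j, tv a j ^ 2) / n)| ≤ 1 := by
    have h1 : ∑ j, tv a j ^ 2 ≤ n := by
      rw [← LL.nrm_sq, ← sq_sqrt hn0.le]; exact pow_le_pow_left₀ (LL.nrm_nonneg _) (nrm_tv_le a) 2
    have h2 : 0 ≤ (∑ j, tv a j ^ 2) / n := by positivity
    have h3 : (∑ j, tv a j ^ 2) / n ≤ 1 := (div_le_one hn0).2 h1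
    rw [abs_of_nonneg (mul_nonneg hτ (by linarith))]
    exact mul_le_one₀ hτ1 (by linarith) (by linarith)
  have hv : ‖Matrix.vecMulVec (tv a) (tv a)‖ ≤ n := LL.norm_le _ hn0.le fun u => by
    rw [Matrix.vecMulVec_mulVec]
    have : nrm (MulOpposite.op (tv a ⬝ᵥ u) • tv a) = |tv a ⬝ᵥ u| * nrm (tv a) := by
      rw [← nrm_const_smul]; congr 1; funext i; simp [mul_comm]
    rw [this]
    refine (mul_le_mul_of_nonneg_right (abs_dot_le _ _) (LL.nrm_nonneg _)).trans ?_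
    have := mul_le_mul (nrm_tv_le a) (nrm_tv_le a) (LL.nrm_nonneg _) (sqrt_nonneg _)
    rw [mul_self_sqrt hn0.le] at this
    linarith [mul_le_mul_of_nonneg_right this (LL.nrm_nonneg u)]
  unfold yFull
  refine (norm_sub_le _ _).trans ((add_le_add ((norm_sub_le _ _).trans (add_le_add
    (b := 1) (d := Λ) ?_ ?_)) (b := 1 + Λ) (d := 2) ?_).trans (by linarith))
  · rw [norm_smul, Real.norm_eq_abs]
    exact mul_le_one₀ hq (norm_nonneg _) LL.norm_one_le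
  · rw [norm_smul, Real.norm_eq_abs]
    exact (mul_le_of_le_one_left (norm_nonneg _) hs).trans hK
  · rw [norm_smul, Real.norm_eq_abs, abs_of_nonneg (by positivity)]
    refine (mul_le_mul_of_nonneg_left hv (by positivity)).trans ?_
    rw [div_mul_cancel₀ _ hn0.ne']; linarith

theorem nrm_smul_le {c C N : ℝ} {x : Fin n → ℝ} (hc : |c| ≤ C) (hx : nrm x ≤ N) :
    nrm (c • x) ≤ C * N := by
  rw [nrm_const_smul]
  exact mul_le_mul hc hx (LL.nrm_nonneg _) ((abs_nonneg c).trans hc)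

/-- The source of the linearised equation. -/
noncomputable def source (K : Matrix (Fin n) (Fin n) ℝ) (ds τ τ' : ℝ) (m m' : Fin n → ℝ) : Fin n → ℝ :=
  ds • (K *ᵥ m') - ((τ' - τ) * (1 - (∑ j, m' j ^ 2) / n)) • m'
    + (τ * ((∑ j, (m' - m) j ^ 2) / n)) • m' + (2 * τ * ((m ⬝ᵥ (m' - m)) / n)) • (m' - m)

/-- The direction of the scale. -/
noncomputable def sdir (K : Matrix (Fin n) (Fin n) ℝ) (b : ℝ) (m : Fin n → ℝ) : Fin n → ℝ :=
  fun i => (K *ᵥ m) i - b * (1 - (∑ j, m j ^ 2) / n) * m i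

theorem act_diff {K : Matrix (Fin n) (Fin n) ℝ} {s ds τ τ' : ℝ} {a a' e : Fin n → ℝ}
    (h : act K (s + ds) τ' a' = act K s τ a + e) :
    (a' - a) + yFull K s τ a *ᵥ (tv a' - tv a) = e + source K ds τ τ' (tv a) (tv a') := by
  funext i
  have h' := congrFun h i
  simp only [act, Pi.add_apply] at h'
  set m := tv a
  set m' := tv a'
  set Δ := m' - m with hΔ
  set q' := (∑ j, m' j ^ 2) / n with hq'
  set q := (∑ j, m j ^ 2) / n with hq
  have eQ : q' = q + (2 * (m ⬝ᵥ Δ) + ∑ j, Δ j ^ 2) / n := by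
    rw [hq, hq', ← add_div, dotProduct, mul_sum, ← sum_add_distrib, ← sum_add_distrib]
    congr 1
    exact sum_congr rfl fun j _ => by simp only [hΔ, Pi.sub_apply]; ring
  have eY : (yFull K s τ a *ᵥ Δ) i
      = τ * (1 - q) * Δ i - s * (K *ᵥ Δ) i - 2 * τ / n * ((m ⬝ᵥ Δ) * m i) := by
    simp only [yFull, Matrix.sub_mulVec, Matrix.smul_mulVec, Matrix.one_mulVec,
      Matrix.vecMulVec_mulVec, Pi.sub_apply, Pi.smul_apply, smul_eq_mul]
    simp [m, q, mul_comm]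
  have eK : (K *ᵥ Δ) i = (K *ᵥ m') i - (K *ᵥ m) i := by simp [hΔ, Matrix.mulVec_sub]
  simp only [source, Pi.add_apply, Pi.sub_apply, Pi.smul_apply, smul_eq_mul, eY, eK, ← hΔ, ← hq']
  have eΔ : Δ i = m' i - m i := rfl
  linear_combination h' + τ * m' i * eQ + τ * (1 - q) * eΔ + (2 * τ / n * (m ⬝ᵥ Δ)) * (-eΔ)

theorem q_facts (hn : 1 ≤ n) {m : Fin n → ℝ} (hm : nrm m ≤ √n) :
    |1 - (∑ j, m j ^ 2) / n| ≤ 1 := by
  have hn0 : (0 : ℝ) < n := by exact_mod_cast hn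
  have h1 : ∑ j, m j ^ 2 ≤ n := by
    rw [← LL.nrm_sq, ← sq_sqrt hn0.le]; exact pow_le_pow_left₀ (LL.nrm_nonneg _) hm 2
  have h2 : 0 ≤ (∑ j, m j ^ 2) / n := by positivity
  have h3 : (∑ j, m j ^ 2) / n ≤ 1 := (div_le_one hn0).2 h1
  exact abs_le.2 ⟨by linarith, by linarith⟩

theorem source_le (hn : 1 ≤ n) {K : Matrix (Fin n) (Fin n) ℝ} {ds τ τ' Λ : ℝ} {m m' : Fin n → ℝ}
    (hτ : 0 ≤ τ) (hτ1 : τ ≤ 1) (hK : ‖K‖ ≤ Λ) (hd1 : |τ' - τ| ≤ 2 * |ds|) (hm : nrm m ≤ √n)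
    (hm' : nrm m' ≤ √n) :
    nrm (source K ds τ τ' m m') ≤ (Λ + 2) * (|ds| * √n) + 3 * (nrm (m' - m) ^ 2 / √n) := by
  have hn1 : (1 : ℝ) ≤ n := by exact_mod_cast hn
  have hn0 : (0 : ℝ) < n := by linarith
  set Δ := m' - m with hΔ
  have hN := LL.nrm_nonneg Δ
  have hdiv : ∀ x : ℝ, x / n * √n = x / √n := fun x => by
    rw [div_mul_eq_mul_div, div_eq_div_iff hn0.ne' (by positivity), mul_assoc, mul_self_sqrt hn0.le]
  have t1 : nrm (ds • (K *ᵥ m')) ≤ |ds| * (Λ * √n) := nrm_smul_le le_rfl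
    ((LL.nrm_mulVec _ _).trans (mul_le_mul hK hm' (LL.nrm_nonneg _) ((norm_nonneg _).trans hK)))
  have t2 : nrm (((τ' - τ) * (1 - (∑ j, m' j ^ 2) / n)) • m') ≤ 2 * |ds| * 1 * √n :=
    nrm_smul_le (by rw [abs_mul]; exact mul_le_mul hd1 (q_facts hn hm') (abs_nonneg _) (by positivity)) hm'
  have t3 : nrm ((τ * ((∑ j, Δ j ^ 2) / n)) • m') ≤ nrm Δ ^ 2 / √n := by
    rw [← LL.nrm_sq, ← hdiv]
    refine nrm_smul_le ?_ hm'
    rw [abs_of_nonneg (by positivity)]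
    exact mul_le_of_le_one_left (by positivity) hτ1
  have t4 : nrm ((2 * τ * ((m ⬝ᵥ Δ) / n)) • Δ) ≤ 2 * (√n * nrm Δ / n) * nrm Δ := by
    refine nrm_smul_le ?_ le_rfl
    rw [abs_mul, abs_div, Nat.abs_cast, abs_of_nonneg (by positivity : 0 ≤ 2 * τ)]
    refine mul_le_mul (by linarith) (div_le_div_of_nonneg_right ((abs_dot_le m Δ).trans
      (mul_le_mul_of_nonneg_right hm hN)) hn0.le) (by positivity) zero_le_two
  have e4 : 2 * (√(n : ℝ) * nrm Δ / n) * nrm Δ = 2 * (nrm Δ ^ 2 / √n) := by rw [← hdiv]; ring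
  refine (LL.nrm_add _ _).trans ((add_le_add ((LL.nrm_add _ _).trans (add_le_add
    ((nrm_sub_le _ _).trans (add_le_add t1 t2)) t3)) t4).trans (le_of_eq ?_))
  rw [e4]; ring

theorem source_err (hn : 1 ≤ n) {K : Matrix (Fin n) (Fin n) ℝ} {ds τ τ' b Λ η C₁ C₃ w D : ℝ}
    {m m' u : Fin n → ℝ} (hτ : 0 ≤ τ) (hτ1 : τ ≤ 1) (hK : ‖K‖ ≤ Λ) (hb : |b| ≤ 2)
    (hd2 : |τ' - τ - ds * b| ≤ ds ^ 2) (hm : nrm m ≤ √n) (hm' : nrm m' ≤ √n) (hC₁ : 0 ≤ C₁)
    (hC₃ : 0 ≤ C₃) (hw0 : 0 ≤ w) (hdw : |ds| * √n ≤ w) (hdD : |ds| * √n ≤ D) (hwD : w ^ 2 ≤ D)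
    (hΔw : nrm (m' - m) ≤ C₁ * w) (hfirst : nrm (m' - m - u) ≤ C₃ * D) (huw : nrm u ≤ 1 / η * w) :
    nrm (source K ds τ τ' m m' - ds • sdir K b m
        - fun i => τ / n * ((∑ j, u j ^ 2) * m i + 2 * (m ⬝ᵥ u) * u i))
      ≤ ((Λ + 7) * C₁ + 1 + C₁ ^ 3 + 3 * C₃ * (C₁ + 1 / η)) * (w * D) := by
  have hn1 : (1 : ℝ) ≤ n := by exact_mod_cast hn
  have hn0 : (0 : ℝ) < n := by linarith
  have hsn : 1 ≤ √(n : ℝ) := one_le_sqrt.2 hn1
  have hΛ : 0 ≤ Λ := (norm_nonneg _).trans hK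
  have hD0 : 0 ≤ D := le_trans (by positivity) hdD
  set Δ := m' - m with hΔd
  have hN := LL.nrm_nonneg Δ
  set q' := (∑ j, m' j ^ 2) / n with hq'
  set q := (∑ j, m j ^ 2) / n with hq
  have hq'1 := q_facts hn hm'
  rw [← hq'] at hq'1
  have e1 : (source K ds τ τ' m m' - ds • sdir K b m
        - fun i => τ / n * ((∑ j, u j ^ 2) * m i + 2 * (m ⬝ᵥ u) * u i))
      = ds • (K *ᵥ Δ) + (-((τ' - τ - ds * b) * (1 - q'))) • m'
        + (-(ds * b)) • ((1 - q') • Δ + (q - q') • m)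
        + (τ * ((∑ j, Δ j ^ 2) / n)) • Δ
        + (τ / n * (∑ j, Δ j ^ 2 - ∑ j, u j ^ 2)) • m
        + ((2 * τ / n * (m ⬝ᵥ (Δ - u))) • Δ + (2 * τ / n * (m ⬝ᵥ u)) • (Δ - u)) := by
    funext i
    simp only [source, sdir, ← hΔd, ← hq', ← hq]
    clear_value Δ
    simp only [sdir, ← hq, Pi.add_apply, Pi.sub_apply, Pi.smul_apply, smul_eq_mul,
      show (K *ᵥ Δ) i = (K *ᵥ m') i - (K *ᵥ m) i by simp [hΔd, Matrix.mulVec_sub],
      show Δ i = m' i - m i by simp [hΔd], dotProduct_sub]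
    ring
  have hqq : |q - q'| * √n ≤ 2 * nrm Δ := by
    rw [hq, hq', ← sub_div, abs_div, Nat.abs_cast, div_mul_eq_mul_div, div_le_iff₀ hn0]
    have h1 := sum_sq_sub m m'
    rw [← LL.nrm_neg (m - m'), neg_sub, ← hΔd] at h1
    calc |∑ j, m j ^ 2 - ∑ j, m' j ^ 2| * √n ≤ nrm Δ * (√n + √n) * √n :=
          mul_le_mul_of_nonneg_right (h1.trans (mul_le_mul_of_nonneg_left (add_le_add hm hm') hN))
            (sqrt_nonneg _)
      _ = 2 * nrm Δ * n := by linear_combination (2 * nrm Δ) * mul_self_sqrt hn0.le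
  have hds : |ds| * nrm Δ ≤ C₁ * (w * D) :=
    ((mul_le_mul ((le_mul_of_one_le_right (abs_nonneg _) hsn).trans hdD) hΔw hN hD0)).trans_eq (by ring)
  have t1 : nrm (ds • (K *ᵥ Δ)) ≤ |ds| * (Λ * nrm Δ) := nrm_smul_le le_rfl
    ((LL.nrm_mulVec _ _).trans (mul_le_mul_of_nonneg_right hK hN))
  have t2 : nrm ((-((τ' - τ - ds * b) * (1 - q'))) • m') ≤ ds ^ 2 * 1 * √n :=
    nrm_smul_le (by rw [abs_neg, abs_mul]; exact mul_le_mul hd2 hq'1 (abs_nonneg _) (sq_nonneg _)) hm'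
  have t2' : ds ^ 2 * 1 * √n ≤ w * D := by
    refine le_trans ?_ (mul_le_mul hdw hdD (by positivity) hw0)
    rw [mul_one, ← sq_abs, show |ds| * √n * (|ds| * √n) = |ds| ^ 2 * √n * √n by ring]
    exact le_mul_of_one_le_right (by positivity) hsn
  have t3 : nrm ((-(ds * b)) • ((1 - q') • Δ + (q - q') • m)) ≤ |ds| * 2 * (3 * nrm Δ) := by
    refine nrm_smul_le (by rw [abs_neg, abs_mul]; exact mul_le_mul_of_nonneg_left hb (abs_nonneg _)) ?_
    refine (LL.nrm_add _ _).trans ((add_le_add (nrm_smul_le hq'1 le_rfl)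
      ((nrm_smul_le le_rfl hm).trans hqq)).trans_eq (by ring))
  have hw3 : w * w ^ 2 ≤ w * D := mul_le_mul_of_nonneg_left hwD hw0
  have t4 : nrm ((τ * ((∑ j, Δ j ^ 2) / n)) • Δ) ≤ (C₁ * w) ^ 2 * (C₁ * w) := by
    refine nrm_smul_le ?_ hΔw
    rw [← LL.nrm_sq, abs_of_nonneg (by positivity)]
    exact (mul_le_of_le_one_left (by positivity) hτ1).trans
      ((div_le_self (sq_nonneg _) hn1).trans (pow_le_pow_left₀ hN hΔw 2))
  have t4' : (C₁ * w) ^ 2 * (C₁ * w) ≤ C₁ ^ 3 * (w * D) := by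
    rw [show (C₁ * w) ^ 2 * (C₁ * w) = C₁ ^ 3 * (w * w ^ 2) by ring]
    exact mul_le_mul_of_nonneg_left hw3 (pow_nonneg hC₁ 3)
  have hu0 := LL.nrm_nonneg u
  have hd0 := LL.nrm_nonneg (Δ - u)
  have hprod : nrm (Δ - u) * (nrm Δ + nrm u) ≤ C₃ * (C₁ + 1 / η) * (w * D) :=
    (mul_le_mul hfirst (add_le_add hΔw huw) (add_nonneg hN hu0) (by positivity)).trans_eq (by ring)
  have hτn : τ / n * √n ≤ 1 := by
    rw [div_mul_eq_mul_div, div_le_one hn0]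
    exact (mul_le_of_le_one_left (sqrt_nonneg _) hτ1).trans
      ((sqrt_le_left hn0.le).2 (le_self_pow₀ hn1 two_ne_zero))
  have t5 : nrm ((τ / n * (∑ j, Δ j ^ 2 - ∑ j, u j ^ 2)) • m)
      ≤ τ / n * (nrm (Δ - u) * (nrm Δ + nrm u)) * √n := by
    refine nrm_smul_le ?_ hm
    rw [abs_mul, abs_of_nonneg (by positivity : 0 ≤ τ / n)]
    exact mul_le_mul_of_nonneg_left (sum_sq_sub Δ u) (by positivity)
  have t5' : τ / n * (nrm (Δ - u) * (nrm Δ + nrm u)) * √n ≤ C₃ * (C₁ + 1 / η) * (w * D) := by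
    rw [mul_right_comm]
    exact (mul_le_of_le_one_left (by positivity) hτn).trans hprod
  have hc : ∀ y, |2 * τ / n * (m ⬝ᵥ y)| ≤ 2 * nrm y := fun y => by
    rw [abs_mul, abs_of_nonneg (by positivity : 0 ≤ 2 * τ / n)]
    refine (mul_le_mul_of_nonneg_left ((abs_dot_le m y).trans
      (mul_le_mul_of_nonneg_right hm (LL.nrm_nonneg _))) (by positivity)).trans ?_
    rw [show 2 * τ / n * (√n * nrm y) = 2 * (τ / n * √n * nrm y) by ring]
    exact mul_le_mul_of_nonneg_left (mul_le_of_le_one_left (LL.nrm_nonneg _) hτn) zero_le_two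
  have t6 : nrm ((2 * τ / n * (m ⬝ᵥ (Δ - u))) • Δ + (2 * τ / n * (m ⬝ᵥ u)) • (Δ - u))
      ≤ 2 * nrm (Δ - u) * nrm Δ + 2 * nrm u * nrm (Δ - u) :=
    (LL.nrm_add _ _).trans (add_le_add (nrm_smul_le (hc _) le_rfl) (nrm_smul_le (hc _) le_rfl))
  rw [e1]
  refine (LL.nrm_add _ _).trans ((add_le_add ((LL.nrm_add _ _).trans (add_le_add ((LL.nrm_add _ _).trans
    (add_le_add ((LL.nrm_add _ _).trans (add_le_add ((LL.nrm_add _ _).trans
      (add_le_add t1 t2)) t3)) t4)) t5)) t6).trans ?_)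
  have := mul_le_mul_of_nonneg_left hds hΛ
  linarith [mul_nonneg hC₁ (mul_nonneg hw0 hD0)]

theorem tanh_err {C₂ C₄ p w D : ℝ} {a a' δ₁ : Fin n → ℝ} (hC₄ : 0 ≤ C₄) (hp : 0 ≤ p)
    (hw0 : 0 ≤ w) (hwD : w ^ 2 ≤ D) (hC₂ : 0 ≤ C₂)
    (hδw : nrm (a' - a) ≤ C₂ * w) (hdiff : nrm (a' - a - δ₁) ≤ C₄ * D) (hδ₁w : nrm δ₁ ≤ p * w) :
    nrm ((fun i => (tv a' - tv a) i - vv a i * (a' - a) i) - fun i => vv a i * -(tv a i * δ₁ i ^ 2))
      ≤ (4 * C₂ ^ 3 + C₄ * (C₂ + p)) * (w * D) := by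
  set δ := a' - a with hδd
  have hD0 : 0 ≤ D := (sq_nonneg w).trans hwD
  set y : Fin n → ℝ := fun i => 4 * |δ i| ^ 3 + |δ i - δ₁ i| * (|δ i| + |δ₁ i|)
  have hy : nrm ((fun i => (tv a' - tv a) i - vv a i * δ i) - fun i => vv a i * -(tv a i * δ₁ i ^ 2))
      ≤ 1 * nrm y := by
    refine nrm_le_mul zero_le_one fun i => ?_
    have h1 := (tanh_taylor (a i) (δ i)).1
    rw [show a i + δ i = a' i by simp [hδd]] at h1
    have h3 : |tanh (a i)| ≤ 1 := (abs_tanh_lt_one _).le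
    have hv : |1 - tanh (a i) ^ 2| ≤ 1 := abs_le.2
      ⟨by linarith [(sq_le_one_iff_abs_le_one _).2 h3], by linarith [sq_nonneg (tanh (a i))]⟩
    have h2 : |tanh (a i) * (1 - tanh (a i) ^ 2) * (δ₁ i ^ 2 - δ i ^ 2)|
        ≤ |δ i - δ₁ i| * (|δ i| + |δ₁ i|) := by
      rw [abs_mul, abs_mul, show δ₁ i ^ 2 - δ i ^ 2 = (δ₁ i - δ i) * (δ₁ i + δ i) by ring, abs_mul,
        abs_sub_comm (δ₁ i), add_comm (δ₁ i)]
      calc |tanh (a i)| * |1 - tanh (a i) ^ 2| * (|δ i - δ₁ i| * |δ i + δ₁ i|)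
          ≤ 1 * (|δ i - δ₁ i| * (|δ i| + |δ₁ i|)) :=
            mul_le_mul (mul_le_one₀ h3 (abs_nonneg _) hv)
              (mul_le_mul_of_nonneg_left (abs_add_le _ _) (abs_nonneg _)) (by positivity) zero_le_one
        _ = _ := one_mul _
    have hy0 : 0 ≤ y i := by positivity
    rw [one_mul, abs_of_nonneg hy0]
    have e2 : ((fun i => (tv a' - tv a) i - vv a i * δ i) - fun i => vv a i * -(tv a i * δ₁ i ^ 2)) i
        = (tanh (a' i) - tanh (a i) - (1 - tanh (a i) ^ 2) * δ i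
            + tanh (a i) * (1 - tanh (a i) ^ 2) * δ i ^ 2)
          + tanh (a i) * (1 - tanh (a i) ^ 2) * (δ₁ i ^ 2 - δ i ^ 2) := by
      simp only [tv, vv, Pi.sub_apply]; ring
    rw [e2]
    exact (abs_add_le _ _).trans (add_le_add h1 h2)
  refine hy.trans ?_
  rw [one_mul]
  have hδ0 := LL.nrm_nonneg δ
  have hδ₁0 := LL.nrm_nonneg δ₁
  have y1 : nrm (fun i => 4 * |δ i| ^ 3) ≤ 4 * nrm δ ^ 2 * nrm δ := by
    refine nrm_le_mul (by positivity) fun i => ?_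
    rw [abs_mul, abs_pow, abs_abs, abs_of_pos (by norm_num : (0 : ℝ) < 4), mul_assoc, pow_succ]
    gcongr
    exact abs_le_nrm δ i
  have y2 : nrm (fun i => |δ i - δ₁ i| * (|δ i| + |δ₁ i|)) ≤ (nrm δ + nrm δ₁) * nrm (δ - δ₁) := by
    refine nrm_le_mul (add_nonneg hδ0 hδ₁0) fun i => ?_
    rw [abs_mul, abs_abs, abs_of_nonneg (add_nonneg (abs_nonneg (δ i)) (abs_nonneg (δ₁ i))), mul_comm,
      Pi.sub_apply]
    exact mul_le_mul_of_nonneg_right (add_le_add (abs_le_nrm δ i) (abs_le_nrm δ₁ i)) (abs_nonneg _)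
  have b1 : 4 * nrm δ ^ 2 * nrm δ ≤ 4 * C₂ ^ 3 * (w * D) := by
    calc 4 * nrm δ ^ 2 * nrm δ = 4 * nrm δ ^ 3 := by ring
      _ ≤ 4 * (C₂ * w) ^ 3 := mul_le_mul_of_nonneg_left (pow_le_pow_left₀ hδ0 hδw 3) (by norm_num)
      _ = 4 * C₂ ^ 3 * (w * w ^ 2) := by ring
      _ ≤ _ := mul_le_mul_of_nonneg_left (mul_le_mul_of_nonneg_left hwD hw0) (by positivity)
  have b2 : (nrm δ + nrm δ₁) * nrm (δ - δ₁) ≤ C₄ * (C₂ + p) * (w * D) :=
    (mul_le_mul (add_le_add hδw hδ₁w) hdiff (LL.nrm_nonneg _) (by positivity)).trans_eq (by ring)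
  refine (LL.nrm_add _ _).trans ((add_le_add (y1.trans b1) (y2.trans b2)).trans_eq (by ring))

theorem res_diag {v : Fin n → ℝ} {Y : Matrix (Fin n) (Fin n) ℝ} {η : ℝ} (hH : Margined v Y η) :
    (1 - res v Y * Y) * Matrix.diagonal v = res v Y := by
  have h1 : hess v Y * Matrix.diagonal v = 1 + Y * Matrix.diagonal v := by
    rw [hess, add_mul, Matrix.diagonal_mul_diagonal]
    congr 1
    rw [← Matrix.diagonal_one]
    congr 1
    funext i
    exact one_div_mul_cancel (hH.v0 i).ne'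
  have h2 := congrArg (res v Y * ·) h1
  simp only [← mul_assoc, hH.res_hess, one_mul, mul_add, mul_one] at h2
  rw [sub_mul, one_mul]
  nth_rw 1 [h2]
  rw [add_sub_cancel_right]

/-- The expansion of a TAP point to the second order, with a cubic remainder. -/
theorem expand (hn : 1 ≤ n) {K : Matrix (Fin n) (Fin n) ℝ} {s ds τ τ' b Λ η C₁ : ℝ}
    {a a' e : Fin n → ℝ} (hs : |s| ≤ 1) (hτ : 0 ≤ τ) (hτ1 : τ ≤ 1) (hK : ‖K‖ ≤ Λ)
    (hb : |b| ≤ 2) (hd1 : |τ' - τ| ≤ 2 * |ds|) (hd2 : |τ' - τ - ds * b| ≤ ds ^ 2)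
    (hH : Margined (vv a) (yFull K s τ a) η) (hC₁ : 0 ≤ C₁)
    (h : act K (s + ds) τ' a' = act K s τ a + e)
    (hΔ : nrm (tv a' - tv a) ≤ C₁ * (nrm e + |ds| * √n)) :
    nrm (tv a' - tv a - res (vv a) (yFull K s τ a) *ᵥ
        (e + ds • sdir K b (tv a) + quadPart τ (vv a) (tv a) (yFull K s τ a) e))
      ≤ expandC Λ η C₁ * ((nrm e + |ds| * √n) * (|ds| * √n + (nrm e + |ds| * √n) ^ 2)) := by
  have hsn : 1 ≤ √(n : ℝ) := one_le_sqrt.2 (by exact_mod_cast hn)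
  set Y := yFull K s τ a with hYd
  set v := vv a with hvd
  set Δ : Fin n → ℝ := tv a' - tv a with hΔd
  set f := source K ds τ τ' (tv a) (tv a') with hfd
  set J := res v Y with hJd
  set w := nrm e + |ds| * √n with hw
  set D := |ds| * √(n : ℝ) + w ^ 2 with hD
  have hη := hH.pos
  have hw0 : 0 ≤ w := add_nonneg (LL.nrm_nonneg _) (by positivity)
  have hew : nrm e ≤ w := le_add_of_nonneg_right (by positivity)
  have hdw : |ds| * √n ≤ w := le_add_of_nonneg_left (LL.nrm_nonneg _)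
  have hdD : |ds| * √n ≤ D := le_add_of_nonneg_right (sq_nonneg _)
  have hwD : w ^ 2 ≤ D := le_add_of_nonneg_left (by positivity)
  have hD0 : 0 ≤ D := by positivity
  have hΛ : 0 ≤ Λ := (norm_nonneg _).trans hK
  have hY : ‖Y‖ ≤ Λ + 3 := norm_yFull_le hK hs hτ hτ1 hn a
  set p := 1 + (Λ + 3) / η with hp
  have hp0 : 0 ≤ p := by positivity
  have hP : ‖pmat v Y‖ ≤ p := hH.norm_pmat.trans (add_le_add le_rfl (div_le_div_of_nonneg_right hY hη.le))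
  have hJY : ‖1 - J * Y‖ ≤ p := (norm_sub_le _ _).trans (add_le_add LL.norm_one_le
    ((norm_mul_le _ _).trans (by
      rw [div_eq_mul_inv (Λ + 3), mul_comm (Λ + 3), ← one_div]
      exact mul_le_mul hH.norm_res hY (norm_nonneg _) (by positivity))))
  have hJv : ∀ {x N}, nrm x ≤ N → nrm (J *ᵥ x) ≤ 1 / η * N := fun {x N} hx =>
    (LL.nrm_mulVec _ _).trans (mul_le_mul hH.norm_res hx (LL.nrm_nonneg _) (by positivity))
  have hYv : ∀ {x N}, nrm x ≤ N → nrm (Y *ᵥ x) ≤ (Λ + 3) * N := fun {x N} hx =>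
    (LL.nrm_mulVec _ _).trans (mul_le_mul hY hx (LL.nrm_nonneg _) (by linarith))
  have hQv : ∀ {x N}, nrm x ≤ N → nrm ((1 - J * Y) *ᵥ x) ≤ p * N := fun {x N} hx =>
    (LL.nrm_mulVec _ _).trans (mul_le_mul hJY hx (LL.nrm_nonneg _) hp0)
  have key : (a' - a) + Y *ᵥ Δ = e + f := act_diff h
  have hf1 : nrm f ≤ (Λ + 2) * (|ds| * √n) + 3 * (nrm Δ ^ 2 / √n) :=
    source_le hn hτ hτ1 hK hd1 (nrm_tv_le a) (nrm_tv_le a')
  have hN := LL.nrm_nonneg Δ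
  have hΔ2 : nrm Δ ≤ 2 * √n := (nrm_sub_le _ _).trans (by linarith [nrm_tv_le a, nrm_tv_le a'])
  have hf2 : nrm f ≤ (Λ + 2 + 6 * C₁) * w := by
    refine hf1.trans ?_
    have h1 : nrm Δ ^ 2 / √n ≤ 2 * (C₁ * w) := by
      rw [div_le_iff₀ (by linarith), pow_two]
      exact (mul_le_mul hΔ2 hΔ hN (by positivity)).trans_eq (by ring)
    linarith [mul_le_mul_of_nonneg_left hdw (by linarith : 0 ≤ Λ + 2)]
  have hf3 : nrm f ≤ (Λ + 2 + 3 * C₁ ^ 2) * D := by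
    refine hf1.trans ?_
    have h1 : nrm Δ ^ 2 / √n ≤ C₁ ^ 2 * D :=
      (div_le_self (sq_nonneg _) hsn).trans ((pow_le_pow_left₀ hN hΔ 2).trans
        (by rw [mul_pow]; exact mul_le_mul_of_nonneg_left hwD (sq_nonneg _)))
    linarith [mul_le_mul_of_nonneg_left hdD (by linarith : 0 ≤ Λ + 2)]
  set C₂ := 1 + (Λ + 2 + 6 * C₁) + (Λ + 3) * C₁ with hC₂
  have hC₂0 : 0 ≤ C₂ := by positivity
  have hδw : nrm (a' - a) ≤ C₂ * w := by
    rw [eq_sub_of_add_eq key]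
    refine (nrm_sub_le _ _).trans ((add_le_add ((LL.nrm_add _ _).trans (add_le_add hew hf2))
      (hYv hΔ)).trans_eq ?_)
    rw [hC₂]; ring
  set r : Fin n → ℝ := fun i => Δ i - v i * (a' - a) i with hr
  have hfact : Δ = J *ᵥ (e + f) + (1 - J * Y) *ᵥ r := by
    have e1 : hess v Y *ᵥ (Δ - r) = e + f - Y *ᵥ r := by
      rw [← key, hess, Matrix.add_mulVec, Matrix.mulVec_sub Y]
      have : Matrix.diagonal (fun i => 1 / v i) *ᵥ (Δ - r) = a' - a := by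
        funext i
        rw [Matrix.mulVec_diagonal, Pi.sub_apply, hr]
        have := (hH.v0 i).ne'
        field_simp; ring
      rw [this]; abel
    have e2 := congrArg (J *ᵥ ·) e1
    simp only [Matrix.mulVec_mulVec] at e2
    rw [show J * hess v Y = 1 from hH.res_hess, Matrix.one_mulVec, Matrix.mulVec_sub,
      Matrix.mulVec_mulVec] at e2
    rw [Matrix.sub_mulVec, Matrix.one_mulVec]
    calc Δ = Δ - r + r := (sub_add_cancel _ _).symm
      _ = _ := by rw [e2]; abel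
  have hr1 : nrm r ≤ 6 * nrm (a' - a) * nrm (a' - a) := by
    refine nrm_le_mul (by have := LL.nrm_nonneg (a' - a); positivity) fun i => ?_
    have := (tanh_taylor (a i) ((a' - a) i)).2
    rw [show a i + (a' - a) i = a' i by simp] at this
    refine this.trans ?_
    rw [← sq_abs, pow_two, mul_assoc]
    exact mul_le_mul_of_nonneg_left (mul_le_mul_of_nonneg_right (abs_le_nrm _ i) (abs_nonneg _)) (by norm_num)
  have hr2 : nrm r ≤ 6 * C₂ ^ 2 * D := by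
    refine hr1.trans ?_
    have h0 := LL.nrm_nonneg (a' - a)
    calc 6 * nrm (a' - a) * nrm (a' - a) = 6 * nrm (a' - a) ^ 2 := by ring
      _ ≤ 6 * (C₂ * w) ^ 2 := mul_le_mul_of_nonneg_left (pow_le_pow_left₀ h0 hδw 2) (by norm_num)
      _ = 6 * C₂ ^ 2 * w ^ 2 := by ring
      _ ≤ _ := mul_le_mul_of_nonneg_left hwD (by positivity)
  set C₃ := (Λ + 2 + 3 * C₁ ^ 2) / η + p * (6 * C₂ ^ 2) with hC₃
  have hC₃0 : 0 ≤ C₃ := by positivity
  have hfirst : nrm (Δ - J *ᵥ e) ≤ C₃ * D := by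
    have : Δ - J *ᵥ e = J *ᵥ f + (1 - J * Y) *ᵥ r := by
      nth_rw 1 [hfact]
      rw [Matrix.mulVec_add]; abel
    rw [this]
    refine (LL.nrm_add _ _).trans ((add_le_add (hJv hf3) (hQv hr2)).trans_eq ?_)
    rw [hC₃]; ring
  set C₄ := (Λ + 2 + 3 * C₁ ^ 2) + (Λ + 3) * C₃ with hC₄
  have hδdiff : nrm (a' - a - pmat v Y *ᵥ e) ≤ C₄ * D := by
    have : a' - a - pmat v Y *ᵥ e = f - Y *ᵥ (Δ - J *ᵥ e) := by
      rw [eq_sub_of_add_eq key, hH.pmat_eq, Matrix.sub_mulVec, Matrix.one_mulVec,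
        Matrix.mulVec_sub Y Δ, hJd, Matrix.mulVec_mulVec]
      abel
    rw [this]
    refine (nrm_sub_le _ _).trans ((add_le_add hf3 (hYv hfirst)).trans_eq ?_)
    rw [hC₄]; ring
  have hR1 := source_err hn hτ hτ1 hK hb hd2 (nrm_tv_le a) (nrm_tv_le a') hC₁ hC₃0 hw0 hdw hdD hwD
    hΔ hfirst (hJv hew)
  have hR2 := tanh_err (a := a) (a' := a') (δ₁ := pmat v Y *ᵥ e) (show 0 ≤ C₄ by positivity) hp0 hw0 hwD
    hC₂0 hδw hδdiff ((LL.nrm_mulVec _ _).trans (mul_le_mul hP hew (LL.nrm_nonneg _) hp0))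
  set g : Fin n → ℝ := fun i =>
    τ / n * ((∑ j, (J *ᵥ e) j ^ 2) * tv a i + 2 * (tv a ⬝ᵥ (J *ᵥ e)) * (J *ᵥ e) i)
  set x : Fin n → ℝ := fun i => -(tv a i * (pmat v Y *ᵥ e) i ^ 2)
  have hquad : quadPart τ v (tv a) Y e = g + x := by
    funext i
    simp only [quadPart, g, x, Pi.add_apply, sub_eq_add_neg]
    rfl
  have hVx : (1 - J * Y) *ᵥ (fun i => v i * x i) = J *ᵥ x := by
    have : (fun i => v i * x i) = Matrix.diagonal v *ᵥ x := by funext i; rw [Matrix.mulVec_diagonal]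
    rw [this, Matrix.mulVec_mulVec, hJd, res_diag hH]
  have herr : Δ - J *ᵥ (e + ds • sdir K b (tv a) + quadPart τ v (tv a) Y e)
      = J *ᵥ (f - ds • sdir K b (tv a) - g) + (1 - J * Y) *ᵥ (r - fun i => v i * x i) := by
    nth_rw 1 [hfact]
    rw [hquad, Matrix.mulVec_sub (1 - J * Y), hVx]
    simp only [Matrix.mulVec_add, Matrix.mulVec_sub]
    abel
  rw [herr]
  refine (LL.nrm_add _ _).trans ((add_le_add (hJv hR1) (hQv hR2)).trans_eq ?_)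
  simp only [expandC]
  rw [← hp, ← hC₂, ← hC₃, ← hC₄, hD]
  ring

end Vale.Agent.P150.Fast.StepC
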