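import Vale.Agent.P150.Fast.Drift.Gauss
import Vale.Agent.P150.Fast.Step.Expand

/-!
Gaussian means of the expansion of one step (P150): the first-order term and the curvature are
exact, the mixed term is cubic, and the moments of the Gaussian vector are polynomial.
-/

open MeasureTheory ProbabilityTheory Real Finset
open scoped Matrix Matrix.Norms.L2Operator

namespace Vale.Agent.P150.Fast.StepC

open LL (nrm)

variable {n : ℕ}

/-- The tenth moment of a standard Gaussian. -/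
noncomputable def mom10 : ℝ := ∫ x : ℝ, x ^ 10 ∂gaussianReal 0 1

theorem mom10_nonneg : 0 ≤ mom10 := integral_nonneg fun x => by positivity

/-- The bound on the moments of the Euclidean norm. -/
noncomputable def momC (n : ℕ) : ℝ := 1 + mom10 * (n : ℝ) ^ 5

theorem momC_pos (n : ℕ) : 0 < momC n := by have := mom10_nonneg; unfold momC; positivity

theorem nrm_moment {k : ℕ} (hk : k ≤ 10) :
    Integrable (fun g : Fin n → ℝ => nrm g ^ k) (gp (Fin n)) ∧
      ∫ g, nrm g ^ k ∂gp (Fin n) ≤ momC n := by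
  have h10 : ∀ u : Fin n, Integrable (fun g : Fin n → ℝ => g u ^ 10) (gp (Fin n)) ∧
      ∫ g, g u ^ 10 ∂gp (Fin n) = mom10 := fun u => by
    have h : MeasurePreserving (fun g : Fin n → ℝ => g u) (gp (Fin n)) (gaussianReal 0 1) :=
      measurePreserving_eval _ u
    have hi : Integrable (fun x : ℝ => x ^ 10) (gaussianReal 0 1) := by
      have := (memLp_id_gaussianReal (μ := 0) (v := 1) 10).integrable_norm_pow (p := 10) (by norm_num)
      refine this.congr (ae_of_all _ fun x => ?_)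
      simp only [Real.norm_eq_abs, id]
      exact Even.pow_abs ⟨5, rfl⟩ x
    refine ⟨(h.integrable_comp (by fun_prop)).2 hi, ?_⟩
    exact (integral_map h.measurable.aemeasurable (f := fun x : ℝ => x ^ 10) (by fun_prop)).symm.trans
      (by rw [h.map_eq]; rfl)
  have hb : ∀ g : Fin n → ℝ, nrm g ^ k ≤ 1 + (n : ℝ) ^ 4 * ∑ u, g u ^ 10 := fun g => by
    have h1 : nrm g ^ k ≤ 1 + nrm g ^ 10 := by
      rcases le_or_gt (nrm g) 1 with h | h
      · exact (pow_le_one₀ (LL.nrm_nonneg g) h).trans (le_add_of_nonneg_right (by positivity))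
      · exact (pow_le_pow_right₀ h.le hk).trans (le_add_of_nonneg_left zero_le_one)
    refine h1.trans (add_le_add le_rfl ?_)
    have h2 := pow_sum_le_card_mul_sum_pow (s := univ) (f := fun u : Fin n => g u ^ 2)
      (fun u _ => sq_nonneg _) 4
    rw [card_univ, Fintype.card_fin] at h2
    calc nrm g ^ 10 = (nrm g ^ 2) ^ (4 + 1) := by rw [← pow_mul]
      _ = (∑ u, g u ^ 2) ^ (4 + 1) := by rw [LL.nrm_sq]
      _ ≤ (n : ℝ) ^ 4 * ∑ u, (g u ^ 2) ^ (4 + 1) := h2
      _ = _ := by simp only [← pow_mul]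
  have hi : Integrable (fun g : Fin n → ℝ => 1 + (n : ℝ) ^ 4 * ∑ u, g u ^ 10) (gp (Fin n)) :=
    (integrable_const _).add ((integrable_finsetSum _ fun u _ => (h10 u).1).const_mul _)
  have hk' : Integrable (fun g : Fin n → ℝ => nrm g ^ k) (gp (Fin n)) :=
    hi.mono' ((Continuous.sqrt (by fun_prop : Continuous fun g : Fin n → ℝ => ∑ u, g u ^ 2)).pow k).aestronglyMeasurable (ae_of_all _ fun g => by
      rw [Real.norm_eq_abs, abs_of_nonneg (pow_nonneg (LL.nrm_nonneg g) k)]; exact hb g)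
  refine ⟨hk', (integral_mono hk' hi hb).trans_eq ?_⟩
  rw [integral_add (integrable_const _) ((integrable_finsetSum _ fun u _ => (h10 u).1).const_mul _),
    integral_const_mul, integral_finsetSum _ fun u _ => (h10 u).1]
  simp [(h10 _).2, momC]
  ring

theorem lin_row (M : Matrix (Fin n) (Fin n) ℝ) (g : Fin n → ℝ) (i : Fin n) :
    (M *ᵥ g) i = Vale.Agent.P150.lin (M i) g := by
  simp only [Matrix.mulVec, dotProduct, Vale.Agent.P150.lin, mul_comm]

theorem integrable_lin_mul (a b : Fin n → ℝ) :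
    Integrable (fun g => Vale.Agent.P150.lin a g * Vale.Agent.P150.lin b g) (gp (Fin n)) := by
  have : ∀ g : Fin n → ℝ, Vale.Agent.P150.lin a g * Vale.Agent.P150.lin b g
      = ∑ u, a u * (g u * Vale.Agent.P150.lin b g) := fun g => by
    conv_lhs => arg 1; unfold Vale.Agent.P150.lin
    rw [sum_mul]; exact sum_congr rfl fun u _ => by ring
  simp only [this]
  exact integrable_finsetSum _ fun u _ => (Drift.integrable_coord_lin u b).const_mul _

theorem integral_lin_mul (a b : Fin n → ℝ) :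
    ∫ g, Vale.Agent.P150.lin a g * Vale.Agent.P150.lin b g ∂gp (Fin n) = ∑ u, a u * b u := by
  have : ∀ g : Fin n → ℝ, Vale.Agent.P150.lin a g * Vale.Agent.P150.lin b g
      = ∑ u, a u * (g u * Vale.Agent.P150.lin b g) := fun g => by
    conv_lhs => arg 1; unfold Vale.Agent.P150.lin
    rw [sum_mul]; exact sum_congr rfl fun u _ => by ring
  simp only [this]
  rw [integral_finsetSum _ fun u _ => (Drift.integrable_coord_lin u b).const_mul _]
  simp only [integral_const_mul, Drift.integral_coord_lin]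

theorem integral_row_mul (M N : Matrix (Fin n) (Fin n) ℝ) (i j : Fin n) :
    ∫ g, (M *ᵥ g) i * (N *ᵥ g) j ∂gp (Fin n) = (M * N.transpose) i j := by
  simp only [lin_row, integral_lin_mul]; rfl

theorem integrable_row_mul (M N : Matrix (Fin n) (Fin n) ℝ) (i j : Fin n) :
    Integrable (fun g => (M *ᵥ g) i * (N *ᵥ g) j) (gp (Fin n)) := by
  simp only [lin_row]; exact integrable_lin_mul _ _

/-- The mean of the quadratic part along a factor of `A`. -/
noncomputable def quadMean (τ : ℝ) (v m : Fin n → ℝ) (Y A : Matrix (Fin n) (Fin n) ℝ) : Fin n → ℝ :=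
  fun i => τ / n * ((∑ j, (res v Y * A * res v Y) j j) * m i + 2 * ((res v Y * A * res v Y) *ᵥ m) i)
    - m i * zdiag v Y A i

theorem integral_quadPart {τ : ℝ} {v m : Fin n → ℝ} {Y A B : Matrix (Fin n) (Fin n) ℝ} {η : ℝ}
    (hH : Margined v Y η) (hB : B.transpose * B = A) (i : Fin n) :
    Integrable (fun g => quadPart τ v m Y (B.transpose *ᵥ g) i) (gp (Fin n)) ∧
    ∫ g, quadPart τ v m Y (B.transpose *ᵥ g) i ∂gp (Fin n) = quadMean τ v m Y A i := by
  set J := res v Y with hJ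
  set M := J * B.transpose with hM
  set N := pmat v Y * B.transpose with hN
  have e : ∀ g, quadPart τ v m Y (B.transpose *ᵥ g) i
      = τ / n * ((∑ j, (M *ᵥ g) j * (M *ᵥ g) j) * m i
          + 2 * ∑ j, m j * ((M *ᵥ g) j * (M *ᵥ g) i)) - m i * ((N *ᵥ g) i * (N *ᵥ g) i) := fun g => by
    have e0 : ∑ j, m j * ((M *ᵥ g) j * (M *ᵥ g) i) = (m ⬝ᵥ (M *ᵥ g)) * (M *ᵥ g) i := by
      rw [dotProduct, sum_mul]; exact sum_congr rfl fun j _ => by ring
    simp only [quadPart, Matrix.mulVec_mulVec, ← hJ, ← hM, ← hN, e0, pow_two]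
    ring
  have i1 : Integrable (fun g => (∑ j, (M *ᵥ g) j * (M *ᵥ g) j) * m i) (gp (Fin n)) :=
    (integrable_finsetSum _ fun j _ => integrable_row_mul M M j j).mul_const _
  have i2 : Integrable (fun g => 2 * ∑ j, m j * ((M *ᵥ g) j * (M *ᵥ g) i)) (gp (Fin n)) :=
    (integrable_finsetSum _ fun j _ => (integrable_row_mul M M j i).const_mul _).const_mul 2
  have i3 : Integrable (fun g => m i * ((N *ᵥ g) i * (N *ᵥ g) i)) (gp (Fin n)) :=
    (integrable_row_mul N N i i).const_mul _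
  have i12 : Integrable (fun g => τ / n * ((∑ j, (M *ᵥ g) j * (M *ᵥ g) j) * m i
      + 2 * ∑ j, m j * ((M *ᵥ g) j * (M *ᵥ g) i))) (gp (Fin n)) := (i1.add i2).const_mul _
  simp only [e]
  refine ⟨i12.sub i3, ?_⟩
  rw [integral_sub i12 i3, integral_const_mul, integral_add i1 i2, integral_mul_const,
    integral_const_mul, integral_finsetSum _ (fun j _ => integrable_row_mul M M j j),
    integral_finsetSum _ (fun j _ => (integrable_row_mul M M j i).const_mul _)]
  simp only [integral_const_mul, integral_row_mul]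
  have hMM : M * M.transpose = J * A * J := by
    rw [hM, Matrix.transpose_mul, Matrix.transpose_transpose, hJ, hH.res_symm, ← hB]
    simp only [mul_assoc]
  have hNN : (N * N.transpose) i i = zdiag v Y A i := by
    rw [hH.zdiag_eq, hN, Matrix.transpose_mul, Matrix.transpose_transpose, ← hB]
    simp only [mul_assoc]
  have hsym : ∀ j, (M * M.transpose) j i = (M * M.transpose) i j := fun j => by
    simp only [Matrix.mul_apply, Matrix.transpose_apply, mul_comm]
  have e2 : ∑ j, m j * (J * A * J) j i = ((J * A * J) *ᵥ m) i := by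
    rw [← hMM]; exact sum_congr rfl fun j _ => by rw [hsym]; ring
  rw [hNN, hMM, quadMean, ← hJ, e2]

theorem quadPart_smul (τ : ℝ) (v m : Fin n → ℝ) (Y : Matrix (Fin n) (Fin n) ℝ) (t : ℝ) (e : Fin n → ℝ) :
    quadPart τ v m Y (t • e) = t ^ 2 • quadPart τ v m Y e := by
  funext i
  simp only [quadPart, Matrix.mulVec_smul, dotProduct_smul, Pi.smul_apply, smul_eq_mul]
  have : ∑ j, (t * (res v Y *ᵥ e) j) ^ 2 = t ^ 2 * ∑ j, (res v Y *ᵥ e) j ^ 2 := by
    rw [mul_sum]; exact sum_congr rfl fun j _ => by ring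
  rw [this]; ring

theorem quadPart_le (hn : 1 ≤ n) {τ η p : ℝ} {v m : Fin n → ℝ} {Y : Matrix (Fin n) (Fin n) ℝ}
    (hH : Margined v Y η) (hτ : 0 ≤ τ) (hτ1 : τ ≤ 1) (hm : nrm m ≤ √n) (hm1 : ∀ i, |m i| ≤ 1)
    (hP : ‖pmat v Y‖ ≤ p) (e : Fin n → ℝ) :
    nrm (quadPart τ v m Y e) ≤ (3 / η ^ 2 + p ^ 2) * nrm e ^ 2 := by
  have hn1 : (1 : ℝ) ≤ n := by exact_mod_cast hn
  have hn0 : (0 : ℝ) < n := by linarith
  set u := res v Y *ᵥ e
  set w := pmat v Y *ᵥ e
  have hu0 := LL.nrm_nonneg u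
  have hu : nrm u ≤ 1 / η * nrm e :=
    (LL.nrm_mulVec _ _).trans (mul_le_mul_of_nonneg_right hH.norm_res (LL.nrm_nonneg _))
  have hw : nrm w ≤ p * nrm e :=
    (LL.nrm_mulVec _ _).trans (mul_le_mul_of_nonneg_right hP (LL.nrm_nonneg _))
  have e1 : quadPart τ v m Y e = (τ / n * ∑ j, u j ^ 2) • m + (2 * τ / n * (m ⬝ᵥ u)) • u
      + fun i => -(m i * w i ^ 2) := by
    funext i
    simp only [quadPart, Pi.add_apply, Pi.smul_apply, smul_eq_mul, sub_eq_add_neg]
    ring
  have hτn : τ / n * √n ≤ 1 := by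
    rw [div_mul_eq_mul_div, div_le_one hn0]
    exact (mul_le_of_le_one_left (sqrt_nonneg _) hτ1).trans
      ((sqrt_le_left hn0.le).2 (le_self_pow₀ hn1 two_ne_zero))
  have t1 : nrm ((τ / n * ∑ j, u j ^ 2) • m) ≤ nrm u ^ 2 := by
    refine (nrm_smul_le le_rfl hm).trans ?_
    rw [← LL.nrm_sq, abs_of_nonneg (by positivity), mul_right_comm]
    exact mul_le_of_le_one_left (sq_nonneg _) hτn
  have t2 : nrm ((2 * τ / n * (m ⬝ᵥ u)) • u) ≤ 2 * nrm u ^ 2 := by
    refine (nrm_smul_le (C := 2 * nrm u) ?_ le_rfl).trans_eq (by ring)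
    rw [abs_mul, abs_of_nonneg (by positivity : 0 ≤ 2 * τ / n)]
    refine (mul_le_mul_of_nonneg_left ((abs_dot_le m u).trans
      (mul_le_mul_of_nonneg_right hm hu0)) (by positivity)).trans ?_
    rw [show 2 * τ / n * (√n * nrm u) = 2 * (τ / n * √n * nrm u) by ring]
    exact mul_le_mul_of_nonneg_left (mul_le_of_le_one_left hu0 hτn) zero_le_two
  have t3 : nrm (fun i => -(m i * w i ^ 2)) ≤ nrm w * nrm w := by
    refine nrm_le_mul (LL.nrm_nonneg w) fun i => ?_
    rw [abs_neg, abs_mul, abs_pow, pow_two]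
    exact mul_le_of_le_one_left (by positivity) (hm1 i) |>.trans
      (mul_le_mul_of_nonneg_right (abs_le_nrm w i) (abs_nonneg _))
  rw [e1]
  refine (LL.nrm_add _ _).trans ((add_le_add ((LL.nrm_add _ _).trans (add_le_add t1 t2)) t3).trans ?_)
  have h1 := pow_le_pow_left₀ hu0 hu 2
  have h2 := pow_le_pow_left₀ (LL.nrm_nonneg w) hw 2
  rw [mul_pow, div_pow, one_pow] at h1
  rw [mul_pow] at h2
  rw [show (3 : ℝ) / η ^ 2 = 3 * (1 / η ^ 2) by ring]
  linarith

theorem nrm_integral_le {F : (Fin n → ℝ) → Fin n → ℝ} {D : (Fin n → ℝ) → ℝ}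
    (hF : ∀ j, Integrable (fun g => F g j) (gp (Fin n))) (hD : Integrable D (gp (Fin n)))
    (h : ∀ g, nrm (F g) ≤ D g) :
    nrm (fun j => ∫ g, F g j ∂gp (Fin n)) ≤ ∫ g, D g ∂gp (Fin n) := by
  set S : Fin n → ℝ := fun j => ∫ g, F g j ∂gp (Fin n)
  have h1 : nrm S ^ 2 ≤ nrm S * ∫ g, D g ∂gp (Fin n) := by
    rw [LL.nrm_sq, show ∑ j, S j ^ 2 = ∑ j, ∫ g, S j * F g j ∂gp (Fin n) from
      sum_congr rfl fun j _ => by rw [integral_const_mul, pow_two],
      ← integral_finsetSum _ fun j _ => (hF j).const_mul _, ← integral_const_mul]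
    exact integral_mono (integrable_finsetSum _ fun j _ => (hF j).const_mul _) (hD.const_mul _)
      fun g => (LL.dot_le S (F g)).trans (mul_le_mul_of_nonneg_left (h g) (LL.nrm_nonneg _))
  rcases (LL.nrm_nonneg S).eq_or_lt with h0 | h0
  · rw [← h0]; exact integral_nonneg fun g => (LL.nrm_nonneg _).trans (h g)
  · rw [pow_two] at h1; exact le_of_mul_le_mul_left h1 h0

/-- The mean of the expansion weighted by the linearised tilt. -/
theorem mean_step (hn : 1 ≤ n) {t ds τ η p r : ℝ} {v m a₀ b : Fin n → ℝ}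
    {Y A B : Matrix (Fin n) (Fin n) ℝ} (hH : Margined v Y η) (hB : B.transpose * B = A)
    (hτ : 0 ≤ τ) (hτ1 : τ ≤ 1) (hm : nrm m ≤ √n) (hm1 : ∀ i, |m i| ≤ 1) (hP : ‖pmat v Y‖ ≤ p)
    (hr : ‖B.transpose‖ ≤ r) (ht : 0 ≤ t) :
    let Φ : (Fin n → ℝ) → Fin n → ℝ := fun g => res v Y *ᵥ
      (t • (B.transpose *ᵥ g) + ds • a₀ + quadPart τ v m Y (t • (B.transpose *ᵥ g)))
    let c : (Fin n → ℝ) → ℝ := fun g => 1 + t * Vale.Agent.P150.lin b g
    (∀ j, Integrable (fun g => c g * Φ g j) (gp (Fin n))) ∧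
    nrm ((fun j => ∫ g, c g * Φ g j ∂gp (Fin n)) - res v Y *ᵥ
        (t ^ 2 • (B.transpose *ᵥ b) + ds • a₀ + t ^ 2 • quadMean τ v m Y A))
      ≤ 1 / η * (3 / η ^ 2 + p ^ 2) * r ^ 2 * nrm b * momC n * t ^ 3 := by
  intro Φ c
  set J := res v Y with hJ
  set M := J * B.transpose with hM
  set Q : (Fin n → ℝ) → Fin n → ℝ := fun g => J *ᵥ quadPart τ v m Y (B.transpose *ᵥ g) with hQ
  have hη := hH.pos
  have hp : 0 ≤ p := (norm_nonneg _).trans hP
  have hr0 : 0 ≤ r := (norm_nonneg _).trans hr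
  set kq := 1 / η * (3 / η ^ 2 + p ^ 2) * r ^ 2 with hkq
  have hkq0 : 0 ≤ kq := by positivity
  have hQb : ∀ g, nrm (Q g) ≤ kq * nrm g ^ 2 := fun g => by
    refine (LL.nrm_mulVec _ _).trans ((mul_le_mul hH.norm_res (quadPart_le hn hH hτ hτ1 hm hm1 hP _)
      (LL.nrm_nonneg _) (by positivity)).trans ?_)
    have := pow_le_pow_left₀ (LL.nrm_nonneg _) ((LL.nrm_mulVec B.transpose g).trans
      (mul_le_mul_of_nonneg_right hr (LL.nrm_nonneg g))) 2
    rw [mul_pow] at this
    refine (mul_le_mul_of_nonneg_left (mul_le_mul_of_nonneg_left this (by positivity)) (by positivity)).trans_eq ?_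
    rw [hkq]; ring
  have iQ : ∀ j, Integrable (fun g => Q g j) (gp (Fin n)) ∧
      ∫ g, Q g j ∂gp (Fin n) = (J *ᵥ quadMean τ v m Y A) j := fun j => by
    have e : ∀ g, Q g j = ∑ i, J j i * quadPart τ v m Y (B.transpose *ᵥ g) i := fun g => rfl
    simp only [e]
    refine ⟨integrable_finsetSum _ fun i _ => (integral_quadPart hH hB i).1.const_mul _, ?_⟩
    rw [integral_finsetSum _ fun i _ => (integral_quadPart hH hB i).1.const_mul _]
    refine sum_congr rfl fun i _ => ?_
    rw [integral_const_mul, (integral_quadPart (τ := τ) (m := m) hH hB i).2]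
  have hlin : ∀ g, |Vale.Agent.P150.lin b g| ≤ nrm b * nrm g := fun g => by
    have : Vale.Agent.P150.lin b g = b ⬝ᵥ g := sum_congr rfl fun _ _ => mul_comm _ _
    rw [this]; exact abs_dot_le b g
  have hcQ : ∀ g, nrm (fun j => Vale.Agent.P150.lin b g * Q g j) ≤ kq * nrm b * nrm g ^ 3 := fun g => by
    refine ((nrm_const_smul (Vale.Agent.P150.lin b g) (Q g)).trans_le
      (mul_le_mul (hlin g) (hQb g) (LL.nrm_nonneg _)
        (mul_nonneg (LL.nrm_nonneg _) (LL.nrm_nonneg _)))).trans_eq ?_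
    ring
  have hQm : ∀ j, Continuous fun g => Q g j := fun j => by
    simp only [hQ, quadPart, Matrix.mulVec, dotProduct]; fun_prop
  have iLQ : ∀ j, Integrable (fun g => Vale.Agent.P150.lin b g * Q g j) (gp (Fin n)) := fun j =>
    (((nrm_moment (n := n) (k := 3) (by norm_num)).1).const_mul (kq * nrm b)).mono'
      ((by unfold Vale.Agent.P150.lin; fun_prop : Continuous (Vale.Agent.P150.lin b)).mul (hQm j)).aestronglyMeasurable
      (ae_of_all _ fun g => (abs_le_nrm (fun j => Vale.Agent.P150.lin b g * Q g j) j).trans (hcQ g))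
  have eΦ : ∀ g j, c g * Φ g j = (t * Vale.Agent.P150.lin (M j) g + (ds * (J *ᵥ a₀) j + t ^ 2 * Q g j))
      + (t ^ 2 * (Vale.Agent.P150.lin b g * Vale.Agent.P150.lin (M j) g)
        + (t * ds * (J *ᵥ a₀) j * Vale.Agent.P150.lin b g + t ^ 3 * (Vale.Agent.P150.lin b g * Q g j))) :=
    fun g j => by
      simp only [c, Φ, Matrix.mulVec_add, Matrix.mulVec_smul, quadPart_smul, Matrix.mulVec_mulVec,
        Pi.add_apply, Pi.smul_apply, smul_eq_mul, ← lin_row, hM, hQ]
      ring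
  have a1 : ∀ j, Integrable (fun g => t * Vale.Agent.P150.lin (M j) g) (gp (Fin n)) :=
    fun j => (Drift.integrable_lin _).const_mul _
  have a2 : ∀ j, Integrable (fun g => ds * (J *ᵥ a₀) j + t ^ 2 * Q g j) (gp (Fin n)) :=
    fun j => (integrable_const _).add ((iQ j).1.const_mul _)
  have a3 : ∀ j, Integrable (fun g => t ^ 2 * (Vale.Agent.P150.lin b g * Vale.Agent.P150.lin (M j) g))
      (gp (Fin n)) := fun j => (integrable_lin_mul _ _).const_mul _
  have a4 : ∀ j, Integrable (fun g => t * ds * (J *ᵥ a₀) j * Vale.Agent.P150.lin b g) (gp (Fin n)) :=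
    fun j => (Drift.integrable_lin _).const_mul _
  have a5 : ∀ j, Integrable (fun g => t ^ 3 * (Vale.Agent.P150.lin b g * Q g j)) (gp (Fin n)) :=
    fun j => (iLQ j).const_mul _
  have a12 : ∀ j, Integrable (fun g => t * Vale.Agent.P150.lin (M j) g
      + (ds * (J *ᵥ a₀) j + t ^ 2 * Q g j)) (gp (Fin n)) := fun j => (a1 j).add (a2 j)
  have a45 : ∀ j, Integrable (fun g => t * ds * (J *ᵥ a₀) j * Vale.Agent.P150.lin b g
      + t ^ 3 * (Vale.Agent.P150.lin b g * Q g j)) (gp (Fin n)) := fun j => (a4 j).add (a5 j)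
  have a345 : ∀ j, Integrable (fun g => t ^ 2 * (Vale.Agent.P150.lin b g * Vale.Agent.P150.lin (M j) g)
      + (t * ds * (J *ᵥ a₀) j * Vale.Agent.P150.lin b g
        + t ^ 3 * (Vale.Agent.P150.lin b g * Q g j))) (gp (Fin n)) := fun j => (a3 j).add (a45 j)
  refine ⟨fun j => ((a12 j).add (a345 j)).congr (ae_of_all _ fun g => (eΦ g j).symm), ?_⟩
  have hid : ((fun j => ∫ g, c g * Φ g j ∂gp (Fin n)) - J *ᵥ
        (t ^ 2 • (B.transpose *ᵥ b) + ds • a₀ + t ^ 2 • quadMean τ v m Y A))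
      = t ^ 3 • fun j => ∫ g, Vale.Agent.P150.lin b g * Q g j ∂gp (Fin n) := by
    funext j
    simp only [Pi.sub_apply, eΦ, Pi.smul_apply, smul_eq_mul]
    rw [integral_add (a12 j) (a345 j), integral_add (a1 j) (a2 j),
      integral_add (integrable_const _) ((iQ j).1.const_mul _), integral_add (a3 j) (a45 j),
      integral_add (a4 j) (a5 j)]
    simp only [integral_const_mul, Drift.integral_lin, integral_lin_mul, (iQ j).2, integral_const,
      probReal_univ, one_smul, Matrix.mulVec_add, Matrix.mulVec_smul, Matrix.mulVec_mulVec,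
      Pi.add_apply, Pi.smul_apply, smul_eq_mul]
    have : ∑ u, b u * M j u = (M *ᵥ b) j := sum_congr rfl fun _ _ => mul_comm _ _
    rw [this, ← hM]
    ring
  show nrm ((fun j => ∫ g, c g * Φ g j ∂gp (Fin n)) - J *ᵥ
      (t ^ 2 • (B.transpose *ᵥ b) + ds • a₀ + t ^ 2 • quadMean τ v m Y A)) ≤ _
  rw [hid, nrm_const_smul, abs_of_nonneg (by positivity)]
  have hb : 0 ≤ kq * nrm b := mul_nonneg hkq0 (LL.nrm_nonneg _)
  refine (mul_le_mul_of_nonneg_left ((nrm_integral_le iLQ
    ((nrm_moment (n := n) (k := 3) (by norm_num)).1.const_mul _) hcQ).trans ?_) (pow_nonneg ht 3)).trans_eq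
    (show t ^ 3 * (kq * nrm b * momC n) = _ by rw [hkq]; ring)
  rw [integral_const_mul]
  exact mul_le_mul_of_nonneg_left (nrm_moment (by norm_num)).2 hb

end Vale.Agent.P150.Fast.StepC
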