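import Vale.Agent.P150.Fast.DriftStmt
import Vale.Agent.P150.Fast.Step.Mean

/-!
One step of the centres (P150): if the centres next to a margined TAP point are the nearby TAP
points, the increments are small and their first moment in a tilted direction is `L |y - M| + ρ`.
-/

open MeasureTheory Real Finset
open scoped Matrix Matrix.Norms.L2Operator

namespace Vale.Agent.P150.Fast.StepC

open LL (nrm)

variable {n : ℕ}

/-- The bound on the cubic remainder of one step. -/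
noncomputable def stepPoly (n : ℕ) (Λ η C₁ r : ℝ) : ℝ :=
  let R := r + √n + 1
  let p := 1 + (Λ + 3) / η
  let Φ := 1 / η * (r + (Λ + 2) * √n + (3 / η ^ 2 + p ^ 2) * r ^ 2) * R
  (1 + C₁ ^ 2 * R ^ 2 + 4 * n) * (1024 * momC n)
    + 1024 * momC n * (1 + r * √n) * (2 * expandC Λ η C₁ * R ^ 3 + 2 * √n + Φ)
    + 1 / η * (3 / η ^ 2 + p ^ 2) * r ^ 2 * (r * √n) * momC n

theorem expandC_nonneg {Λ η C₁ : ℝ} (hΛ : 0 ≤ Λ) (hη : 0 < η) (hC₁ : 0 ≤ C₁) :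
    0 ≤ expandC Λ η C₁ := by simp only [expandC]; positivity

theorem poly_moment {k : ℕ} (hk : k ≤ 10) :
    Integrable (fun g : Fin n → ℝ => (1 + nrm g) ^ k) (gp (Fin n)) ∧
      ∫ g, (1 + nrm g) ^ k ∂gp (Fin n) ≤ 1024 * momC n := by
  have hb : ∀ g : Fin n → ℝ, (1 + nrm g) ^ k ≤ 512 * (1 + nrm g ^ 10) := fun g => by
    have h0 := LL.nrm_nonneg g
    refine (pow_le_pow_right₀ (by linarith) hk).trans ((add_pow_le zero_le_one h0 10).trans ?_)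
    norm_num
  obtain ⟨i10, e10⟩ := nrm_moment (n := n) (k := 10) le_rfl
  have hi : Integrable (fun g : Fin n → ℝ => 512 * (1 + nrm g ^ 10)) (gp (Fin n)) :=
    ((integrable_const _).add i10).const_mul _
  have hk' : Integrable (fun g : Fin n → ℝ => (1 + nrm g) ^ k) (gp (Fin n)) :=
    hi.mono' ((continuous_const.add (Continuous.sqrt (by fun_prop :
        Continuous fun g : Fin n → ℝ => ∑ u, g u ^ 2))).pow k).aestronglyMeasurable
      (ae_of_all _ fun g => by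
        rw [Real.norm_eq_abs, abs_of_nonneg (pow_nonneg (by linarith [LL.nrm_nonneg g]) k)]
        exact hb g)
  obtain ⟨i0, e0⟩ := nrm_moment (n := n) (k := 0) (by norm_num)
  refine ⟨hk', (integral_mono hk' hi hb).trans ?_⟩
  rw [integral_const_mul, integral_add (integrable_const _) i10]
  simp only [pow_zero, integral_const, probReal_univ, one_smul] at e0 ⊢
  have h1 : ∫ g : Fin n → ℝ, (1 : ℝ) ∂gp (Fin n) = 1 := by simp
  unfold momC at e10 ⊢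
  linarith [mom10_nonneg, pow_nonneg (Nat.cast_nonneg n : (0 : ℝ) ≤ n) 5,
    mul_nonneg mom10_nonneg (pow_nonneg (Nat.cast_nonneg n : (0 : ℝ) ≤ n) 5)]

theorem shiftH_eq (Bf : Fin n → Fin n → ℝ) (t : ℝ) (h g : Vec n) :
    shiftH Bf t h g = h + t • ((Matrix.of Bf).transpose *ᵥ g) := by
  funext j
  simp [shiftH, Matrix.mulVec, dotProduct, mul_comm]

theorem bvec_eq (Bf : Fin n → Fin n → ℝ) (y : Vec n) : bvec Bf y = Matrix.of Bf *ᵥ y := rfl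

theorem nrm_one_le {y : Vec n} (hy : ∀ j, |y j| ≤ 1) : nrm y ≤ √n := by
  refine sqrt_le_sqrt ((sum_le_sum fun i _ => ?_).trans_eq (show ∑ _i : Fin n, (1 : ℝ) = n by simp))
  exact (sq_le_one_iff_abs_le_one _).2 (hy i)

/-- What one step needs. -/
structure StepIn (β Λ η C₁ r ρ₀ : ℝ) (Bf : Fin n → Fin n → ℝ) (K A : Matrix (Fin n) (Fin n) ℝ)
    (σ c s t : ℝ) (M : ℕ → Vec n → Vec n) (k : ℕ) (h a : Vec n) : Prop where
  hn : 1 ≤ n
  hβ : 0 ≤ β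
  hβ1 : β ≤ 1
  hs : 0 ≤ s
  hs1 : s ≤ 1
  hσ : 0 ≤ σ
  hσ1 : σ ≤ 1
  ht : 0 < t
  ht1 : t ≤ 1
  hC₁ : 0 ≤ C₁
  hK : ‖K‖ ≤ Λ
  factor : (Matrix.of Bf).transpose * Matrix.of Bf = A
  hA : A = σ • K + c • (1 : Matrix (Fin n) (Fin n) ℝ)
  hBn : ‖(Matrix.of Bf).transpose‖ ≤ r
  root : act K s (s ^ 2 * β ^ 2) a = h
  centre : M (k + 1) h = tv a
  margin : Margined (vv a) (yFull K s (s ^ 2 * β ^ 2) a) η
  curv : nrm (fun i => tv a i * (c + σ * (2 * s * β ^ 2) * (1 - (∑ j, tv a j ^ 2) / n)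
      - zdiag (vv a) (yFull K s (s ^ 2 * β ^ 2) a) A i
      + s ^ 2 * β ^ 2 * ((∑ j, vv a j ^ 2 * zdiag (vv a) (yFull K s (s ^ 2 * β ^ 2) a) A j) / n))) ≤ ρ₀
  bdd : ∀ k h j, |M k h j| ≤ 1
  meas : Measurable (M k)
  near : ∀ g : Vec n, √t * nrm g ≤ 1 → ∃ a',
    act K (s + -(σ * t ^ 2)) ((s + -(σ * t ^ 2)) ^ 2 * β ^ 2) a' = shiftH Bf t h g ∧
    M k (shiftH Bf t h g) = tv a' ∧
    nrm (tv a' - tv a) ≤ C₁ * (t * nrm ((Matrix.of Bf).transpose *ᵥ g) + σ * t ^ 2 * √n)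

/-- Inside the radius the increment is the expansion. -/
theorem good_case (hn : 1 ≤ n) {K Bt : Matrix (Fin n) (Fin n) ℝ} {s ds τ τ' b₀ Λ η C₁ r t : ℝ}
    {a a' g : Vec n} (hs : |s| ≤ 1) (hτ : 0 ≤ τ) (hτ1 : τ ≤ 1) (hK : ‖K‖ ≤ Λ) (hb : |b₀| ≤ 2)
    (hd1 : |τ' - τ| ≤ 2 * |ds|) (hd2 : |τ' - τ - ds * b₀| ≤ ds ^ 2) (hds : |ds| ≤ t ^ 2)
    (hH : Margined (vv a) (yFull K s τ a) η) (hC₁ : 0 ≤ C₁) (hB : ‖Bt‖ ≤ r) (ht : 0 < t) (ht1 : t ≤ 1)
    (hr : 0 ≤ r) (hroot : act K (s + ds) τ' a' = act K s τ a + t • (Bt *ᵥ g))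
    (h3 : nrm (tv a' - tv a) ≤ C₁ * (t * nrm (Bt *ᵥ g) + |ds| * √n)) :
    nrm (tv a' - tv a) ≤ C₁ * (t * ((r + √n + 1) * (1 + nrm g))) ∧
    nrm (tv a' - tv a - res (vv a) (yFull K s τ a) *ᵥ
      (t • (Bt *ᵥ g) + ds • sdir K b₀ (tv a) + quadPart τ (vv a) (tv a) (yFull K s τ a) (t • (Bt *ᵥ g))))
      ≤ t ^ 3 * (2 * expandC Λ η C₁ * (r + √n + 1) ^ 3) * (1 + nrm g) ^ 3 := by
  have hΛ : 0 ≤ Λ := (norm_nonneg _).trans hK
  have hη := hH.pos
  have h0 := LL.nrm_nonneg g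
  have hg1 : 1 ≤ 1 + nrm g := le_add_of_nonneg_right h0
  set R := r + √(n : ℝ) + 1 with hR
  have hR1 : 1 ≤ R := by rw [hR]; linarith [sqrt_nonneg (n : ℝ)]
  set W := t * nrm (Bt *ᵥ g) + |ds| * √n
  set S := R * (1 + nrm g) with hS
  have hS1 : 1 ≤ S := one_le_mul_of_one_le_of_one_le hR1 hg1
  have hW0 : 0 ≤ W := add_nonneg (mul_nonneg ht.le (LL.nrm_nonneg _)) (by positivity)
  have hnS : |ds| * √n ≤ t ^ 2 * S := by
    refine mul_le_mul hds ?_ (sqrt_nonneg _) (sq_nonneg t)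
    rw [hS]
    exact le_trans (by rw [hR]; linarith) (le_mul_of_one_le_right (by linarith) hg1)
  have hW : W ≤ t * S := by
    have h1 : t * nrm (Bt *ᵥ g) ≤ t * (r * nrm g) := mul_le_mul_of_nonneg_left
      ((LL.nrm_mulVec _ _).trans (mul_le_mul_of_nonneg_right hB h0)) ht.le
    have h2 : |ds| * √n ≤ t * √n :=
      mul_le_mul_of_nonneg_right (hds.trans (by rw [pow_two]; exact mul_le_of_le_one_left ht.le ht1))
        (sqrt_nonneg _)
    have h5 : t * (r * nrm g) + t * √n ≤ t * S := by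
      rw [← mul_add, hS, hR]
      refine mul_le_mul_of_nonneg_left ?_ ht.le
      linarith [mul_nonneg (sqrt_nonneg (n : ℝ)) h0]
    linarith
  refine ⟨h3.trans (mul_le_mul_of_nonneg_left hW hC₁), ?_⟩
  have hne : nrm (t • (Bt *ᵥ g)) = t * nrm (Bt *ᵥ g) := by rw [nrm_const_smul, abs_of_pos ht]
  refine (expand hn hs hτ hτ1 hK hb hd1 hd2 hH hC₁ hroot (by rw [hne]; exact h3)).trans ?_
  rw [hne]
  have hsum : |ds| * √n + W ^ 2 ≤ t ^ 2 * S ^ 2 + (t * S) ^ 2 :=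
    add_le_add (hnS.trans (mul_le_mul_of_nonneg_left (le_self_pow₀ hS1 two_ne_zero) (sq_nonneg t)))
      (pow_le_pow_left₀ hW0 hW 2)
  refine (mul_le_mul_of_nonneg_left (mul_le_mul hW hsum (by positivity) (by positivity))
    (expandC_nonneg hΛ hη hC₁)).trans_eq ?_
  rw [hS]; ring

theorem one_le_bad {t : ℝ} (ht : 0 < t) {g : Vec n} (hg : ¬√t * nrm g ≤ 1) :
    (1 : ℝ) ≤ t ^ 3 * (1 + nrm g) ^ 6 := by
  have h1 : 1 ≤ (√t * (1 + nrm g)) ^ 6 :=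
    one_le_pow₀ (by linarith [le_of_not_ge hg, sqrt_nonneg t])
  rwa [mul_pow, show √t ^ 6 = (√t ^ 2) ^ 3 by ring, sq_sqrt ht.le] at h1

/-- Outside the radius crude bounds suffice. -/
theorem cutoff {t c₁ e₃ Φb : ℝ} {D Φ : Vec n → Vec n} (ht : 0 < t) (ht1 : t ≤ 1)
    (he : 0 ≤ e₃) (hΦ0 : 0 ≤ Φb)
    (hgood : ∀ g, √t * nrm g ≤ 1 →
      nrm (D g) ≤ c₁ * (t * (1 + nrm g)) ∧ nrm (D g - Φ g) ≤ t ^ 3 * e₃ * (1 + nrm g) ^ 3)
    (hD2 : ∀ g, nrm (D g) ≤ 2 * √n) (hΦg : ∀ g, nrm (Φ g) ≤ Φb * (1 + nrm g) ^ 2) (g : Vec n) :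
    nrm (D g - Φ g) ≤ t ^ 3 * (e₃ + 2 * √n + Φb) * (1 + nrm g) ^ 8 ∧
    nrm (D g) ^ 2 ≤ t ^ 2 * (c₁ ^ 2 + 4 * n) * (1 + nrm g) ^ 6 := by
  have h1 : 1 ≤ 1 + nrm g := le_add_of_nonneg_right (LL.nrm_nonneg g)
  have hp0 : 0 ≤ 1 + nrm g := zero_le_one.trans h1
  have ht3 : 0 ≤ t ^ 3 := by positivity
  by_cases hg : √t * nrm g ≤ 1
  · obtain ⟨g1, g2⟩ := hgood g hg
    refine ⟨g2.trans (mul_le_mul (mul_le_mul_of_nonneg_left (by linarith [sqrt_nonneg (n : ℝ)]) ht3)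
      (pow_le_pow_right₀ h1 (by norm_num)) (by positivity) (by positivity)), ?_⟩
    refine (pow_le_pow_left₀ (LL.nrm_nonneg _) g1 2).trans ?_
    rw [show (c₁ * (t * (1 + nrm g))) ^ 2 = t ^ 2 * c₁ ^ 2 * (1 + nrm g) ^ 2 by ring]
    exact mul_le_mul (mul_le_mul_of_nonneg_left (by linarith [(Nat.cast_nonneg n : (0 : ℝ) ≤ n)]) (sq_nonneg t))
      (pow_le_pow_right₀ h1 (by norm_num)) (by positivity) (by positivity)
  · have hb := one_le_bad ht hg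
    refine ⟨?_, ?_⟩
    · have h2 : nrm (D g - Φ g) ≤ (2 * √n + Φb) * (1 + nrm g) ^ 2 := by
        refine (nrm_sub_le _ _).trans ((add_le_add (hD2 g) (hΦg g)).trans ?_)
        rw [add_mul]
        exact add_le_add (le_mul_of_one_le_right (by positivity) (one_le_pow₀ h1)) le_rfl
      refine h2.trans ((le_mul_of_one_le_left (by positivity) hb).trans ?_)
      rw [show t ^ 3 * (1 + nrm g) ^ 6 * ((2 * √n + Φb) * (1 + nrm g) ^ 2)
        = t ^ 3 * (2 * √n + Φb) * (1 + nrm g) ^ 8 by ring]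
      exact mul_le_mul_of_nonneg_right (mul_le_mul_of_nonneg_left (by linarith) ht3) (by positivity)
    · refine (pow_le_pow_left₀ (LL.nrm_nonneg _) (hD2 g) 2).trans
        ((le_mul_of_one_le_left (by positivity) hb).trans ?_)
      rw [mul_pow, sq_sqrt (Nat.cast_nonneg n), mul_right_comm]
      refine mul_le_mul_of_nonneg_right (mul_le_mul (pow_le_pow_of_le_one ht.le ht1 (by norm_num))
        (by linarith [sq_nonneg c₁]) (by positivity) (sq_nonneg t)) (by positivity)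

/-- A cubically close pair has cubically close weighted means. -/
theorem weighted_diff {t Ψ w₀ : ℝ} {D Φ : Vec n → Vec n} {bv : Vec n} (ht : 0 ≤ t) (ht1 : t ≤ 1)
    (hΨ : 0 ≤ Ψ) (hw₀ : 0 ≤ w₀) (hbv : nrm bv ≤ w₀) (hmD : ∀ j, Measurable fun g => D g j)
    (hD2 : ∀ g, nrm (D g) ≤ 2 * √n)
    (iΦ : ∀ j, Integrable (fun g => (1 + t * Vale.Agent.P150.lin bv g) * Φ g j) (gp (Fin n)))
    (hdiff : ∀ g, nrm (D g - Φ g) ≤ t ^ 3 * Ψ * (1 + nrm g) ^ 8) :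
    nrm ((fun j => ∫ g, (1 + t * Vale.Agent.P150.lin bv g) * D g j ∂gp (Fin n))
        - fun j => ∫ g, (1 + t * Vale.Agent.P150.lin bv g) * Φ g j ∂gp (Fin n))
      ≤ t ^ 3 * (1024 * momC n * (1 + w₀) * Ψ) := by
  set cf : Vec n → ℝ := fun g => 1 + t * Vale.Agent.P150.lin bv g with hcf
  have icD : ∀ j, Integrable (fun g => cf g * D g j) (gp (Fin n)) := fun j =>
    ((integrable_const _).add ((Drift.integrable_lin bv).const_mul t)).mul_bdd (c := 2 * √n)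
      (hmD j).aestronglyMeasurable (ae_of_all _ fun g => (abs_le_nrm _ j).trans (hD2 g))
  have hc : ∀ g, |cf g| ≤ (1 + w₀) * (1 + nrm g) := fun g => by
    have h0 := LL.nrm_nonneg g
    have : Vale.Agent.P150.lin bv g = bv ⬝ᵥ g := sum_congr rfl fun _ _ => mul_comm _ _
    simp only [hcf, this]
    refine (abs_add_le _ _).trans ?_
    rw [abs_one, abs_mul, abs_of_nonneg ht]
    have h1 := (abs_dot_le bv g).trans (mul_le_mul_of_nonneg_right hbv h0)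
    linarith [mul_le_of_le_one_left (abs_nonneg (bv ⬝ᵥ g)) ht1]
  obtain ⟨i9, e9⟩ := poly_moment (n := n) (k := 9) (by norm_num)
  have e : ((fun j => ∫ g, cf g * D g j ∂gp (Fin n)) - fun j => ∫ g, cf g * Φ g j ∂gp (Fin n))
      = fun j => ∫ g, cf g * (D g - Φ g) j ∂gp (Fin n) := by
    funext j
    simp only [Pi.sub_apply, mul_sub]
    exact (integral_sub (icD j) (iΦ j)).symm
  rw [e]
  refine (nrm_integral_le (fun j => ((icD j).sub (iΦ j)).congr (ae_of_all _ fun g => by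
      simp only [hcf, Pi.sub_apply, mul_sub]))
    (i9.const_mul (t ^ 3 * Ψ * (1 + w₀))) fun g => ?_).trans ?_
  · refine ((nrm_const_smul (cf g) (D g - Φ g)).trans_le (mul_le_mul (hc g) (hdiff g) (LL.nrm_nonneg _)
      (mul_nonneg (by linarith) (by linarith [LL.nrm_nonneg g])))).trans_eq ?_
    ring
  · rw [integral_const_mul]
    refine (mul_le_mul_of_nonneg_left e9 (by positivity)).trans_eq ?_
    ring

/-- The mean increment in closed form. -/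
theorem target_le (hn : 1 ≤ n) {K A Bt : Matrix (Fin n) (Fin n) ℝ} {β σ c s τ b₀ η r ρ₀ t ds : ℝ}
    {v m y bv : Vec n} {Y : Matrix (Fin n) (Fin n) ℝ} (hH : Margined v Y η) (hτ : 0 ≤ τ) (hτ1 : τ ≤ 1)
    (hm : nrm m ≤ √n) (hds : ds = -(σ * t ^ 2)) (hb₀ : b₀ = 2 * s * β ^ 2)
    (hA : A = σ • K + c • (1 : Matrix (Fin n) (Fin n) ℝ)) (hA' : ‖A‖ ≤ r ^ 2)
    (hBb : Bt *ᵥ bv = A *ᵥ y)
    (hcurv : nrm (fun i => m i * (c + σ * b₀ * (1 - (∑ j, m j ^ 2) / n) - zdiag v Y A i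
      + τ * ((∑ j, v j ^ 2 * zdiag v Y A j) / n))) ≤ ρ₀) :
    nrm (res v Y *ᵥ (t ^ 2 • (Bt *ᵥ bv) + ds • sdir K b₀ m + t ^ 2 • quadMean τ v m Y A))
      ≤ t ^ 2 * (1 / η) * (r ^ 2 * nrm (y - m) + ρ₀ + 2 * r ^ 2 / η ^ 2) := by
  have hn1 : (1 : ℝ) ≤ n := by exact_mod_cast hn
  have hη := hH.pos
  set J := res v Y with hJd
  set z := zdiag v Y A with hz
  set w : Vec n := fun i => m i * (c + σ * b₀ * (1 - (∑ j, m j ^ 2) / n) - z i
    + τ * ((∑ j, v j ^ 2 * z j) / n))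
  have htr : ∀ j, (J * A * J) j j = v j ^ 2 * z j := fun j => by
    rw [hz, zdiag, hJd, mul_div_cancel₀ _ (pow_ne_zero 2 (hH.v0 j).ne')]
  have htgt : t ^ 2 • (Bt *ᵥ bv) + ds • sdir K b₀ m + t ^ 2 • quadMean τ v m Y A
      = t ^ 2 • (A *ᵥ (y - m) + w + (2 * τ / n) • ((J * A * J) *ᵥ m)) := by
    funext i
    have hAm : (A *ᵥ m) i = σ * (K *ᵥ m) i + c * m i := by
      simp [hA, Matrix.add_mulVec, Matrix.smul_mulVec, Matrix.one_mulVec]
    simp only [w, hBb, sdir, quadMean, ← hJd, ← hz, htr, Matrix.mulVec_sub, Pi.add_apply,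
      Pi.sub_apply, Pi.smul_apply, smul_eq_mul, hds]
    linear_combination t ^ 2 * hAm
  rw [htgt, Matrix.mulVec_smul, nrm_const_smul, abs_of_nonneg (sq_nonneg t), mul_assoc (t ^ 2)]
  refine mul_le_mul_of_nonneg_left ((LL.nrm_mulVec _ _).trans (mul_le_mul hH.norm_res ?_
    (LL.nrm_nonneg _) (by positivity))) (sq_nonneg t)
  refine (LL.nrm_add _ _).trans (add_le_add ((LL.nrm_add _ _).trans (add_le_add
    ((LL.nrm_mulVec _ _).trans (mul_le_mul_of_nonneg_right hA' (LL.nrm_nonneg _))) hcurv)) ?_)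
  have hJA : ‖J * A * J‖ ≤ 1 / η * r ^ 2 * (1 / η) := (norm_mul_le _ _).trans
    (mul_le_mul ((norm_mul_le _ _).trans (mul_le_mul hH.norm_res hA' (norm_nonneg _) (by positivity)))
      hH.norm_res (norm_nonneg _) (by positivity))
  refine (nrm_smul_le (C := 2 / √n) ?_ ((LL.nrm_mulVec _ _).trans (mul_le_mul hJA hm
    (LL.nrm_nonneg _) (by positivity)))).trans_eq ?_
  · rw [abs_of_nonneg (by positivity), div_le_div_iff₀ (by positivity) (by positivity)]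
    have : √(n : ℝ) ≤ n := (sqrt_le_left (by positivity)).2 (le_self_pow₀ hn1 two_ne_zero)
    linarith [mul_le_of_le_one_left (sqrt_nonneg (n : ℝ)) hτ1]
  · field_simp

theorem expansion_le (hn : 1 ≤ n) {Λ η r t ds τ p : ℝ} {v m a₀ : Vec n}
    {Y Bt : Matrix (Fin n) (Fin n) ℝ} (hH : Margined v Y η) (hτ : 0 ≤ τ) (hτ1 : τ ≤ 1) (hm : nrm m ≤ √n)
    (hm1 : ∀ i, |m i| ≤ 1) (hP : ‖pmat v Y‖ ≤ p) (hB : ‖Bt‖ ≤ r) (ht : 0 ≤ t) (ht1 : t ≤ 1)
    (hds : |ds| ≤ 1) (ha : nrm a₀ ≤ (Λ + 2) * √n) (hΛ : 0 ≤ Λ) (g : Vec n) :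
    nrm (res v Y *ᵥ (t • (Bt *ᵥ g) + ds • a₀ + quadPart τ v m Y (t • (Bt *ᵥ g))))
      ≤ 1 / η * (r + (Λ + 2) * √n + (3 / η ^ 2 + p ^ 2) * r ^ 2) * (1 + nrm g) ^ 2 := by
  have hη := hH.pos
  have hr : 0 ≤ r := (norm_nonneg _).trans hB
  have h0 := LL.nrm_nonneg g
  set kq := 3 / η ^ 2 + p ^ 2 with hkq
  have hkq0 : 0 ≤ kq := by positivity
  have hq := quadPart_le hn hH hτ hτ1 hm hm1 hP (t • (Bt *ᵥ g))
  have e1 : nrm (t • (Bt *ᵥ g)) ≤ r * nrm g :=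
    (nrm_smul_le (C := 1) (by rwa [abs_of_nonneg ht]) ((LL.nrm_mulVec _ _).trans
      (mul_le_mul_of_nonneg_right hB h0))).trans_eq (one_mul _)
  have e2 := pow_le_pow_left₀ (LL.nrm_nonneg _) e1 2
  have e3 : nrm (ds • a₀) ≤ (Λ + 2) * √n := (nrm_smul_le hds ha).trans_eq (one_mul _)
  refine (LL.nrm_mulVec _ _).trans ((mul_le_mul hH.norm_res
    ((LL.nrm_add _ _).trans (add_le_add ((LL.nrm_add _ _).trans (add_le_add e1 e3))
      (hq.trans (mul_le_mul_of_nonneg_left e2 hkq0)))) (LL.nrm_nonneg _) (by positivity)).trans ?_)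
  rw [mul_assoc (1 / η)]
  refine mul_le_mul_of_nonneg_left ?_ (by positivity)
  have g2 : (1 : ℝ) ≤ (1 + nrm g) ^ 2 := one_le_pow₀ (by linarith)
  have g3 : nrm g ≤ (1 + nrm g) ^ 2 := by nlinarith
  have g4 : nrm g ^ 2 ≤ (1 + nrm g) ^ 2 := by linarith
  have a1 := mul_le_mul_of_nonneg_left g3 hr
  have a2 := le_mul_of_one_le_right (show 0 ≤ (Λ + 2) * √(n : ℝ) by positivity) g2
  have a3 := mul_le_mul_of_nonneg_left g4 (show 0 ≤ kq * r ^ 2 by positivity)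
  rw [mul_pow, ← mul_assoc kq]
  linarith

theorem sdir_le (hn : 1 ≤ n) {K : Matrix (Fin n) (Fin n) ℝ} {b₀ Λ : ℝ} {m : Vec n} (hK : ‖K‖ ≤ Λ)
    (hb : |b₀| ≤ 2) (hm : nrm m ≤ √n) : nrm (sdir K b₀ m) ≤ (Λ + 2) * √n := by
  have e : sdir K b₀ m = K *ᵥ m + (-(b₀ * (1 - (∑ j, m j ^ 2) / n))) • m := by
    funext i; simp [sdir, sub_eq_add_neg]
  rw [e]
  refine (LL.nrm_add _ _).trans ((add_le_add ((LL.nrm_mulVec _ _).trans
    (mul_le_mul hK hm (LL.nrm_nonneg _) ((norm_nonneg _).trans hK)))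
    (nrm_smul_le (C := 2 * 1) ?_ hm)).trans_eq (by ring))
  rw [abs_neg, abs_mul]
  exact mul_le_mul hb (q_facts hn hm) (abs_nonneg _) zero_le_two

theorem stepOK_of {β Λ η C₁ r ρ₀ : ℝ} {Bf : Fin n → Fin n → ℝ} {K A : Matrix (Fin n) (Fin n) ℝ}
    {σ c s t : ℝ} {M : ℕ → Vec n → Vec n} {k : ℕ} {h a : Vec n}
    (S : StepIn β Λ η C₁ r ρ₀ Bf K A σ c s t M k h a) {L ρ P : ℝ} (hL : r ^ 2 / η ≤ L)
    (hρ : 1 / η * (ρ₀ + 2 * r ^ 2 / η ^ 2) ≤ ρ) (hP : stepPoly n Λ η C₁ r ≤ P) :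
    StepOK Bf t L ρ P M k h := by
  obtain ⟨hn, hβ, hβ1, hs, hs1, hσ, hσ1, ht, ht1, hC₁, hK, hfac, hA, hBn, hroot, hcen, hH, hcurv,
    hbdd, hmeas, hnear⟩ := S
  have hn1 : (1 : ℝ) ≤ n := by exact_mod_cast hn
  have hη := hH.pos
  have hΛ : 0 ≤ Λ := (norm_nonneg _).trans hK
  have hr : 0 ≤ r := (norm_nonneg _).trans hBn
  set B := Matrix.of Bf with hBd
  set τ := s ^ 2 * β ^ 2 with hτd
  have hβ2 : β ^ 2 ≤ 1 := pow_le_one₀ hβ hβ1
  have hτ : 0 ≤ τ := by positivity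
  have hτ1 : τ ≤ 1 := mul_le_one₀ (pow_le_one₀ hs hs1) (sq_nonneg _) hβ2
  set ds := -(σ * t ^ 2) with hds
  set b₀ := 2 * s * β ^ 2 with hb₀
  set m := tv a with hmd
  set v := vv a with hvd
  set Y := yFull K s τ a with hYd
  have hdsa : |ds| = σ * t ^ 2 := by rw [hds, abs_neg, abs_of_nonneg (by positivity)]
  have hds1 : |ds| ≤ t ^ 2 := hdsa.trans_le (mul_le_of_le_one_left (sq_nonneg t) hσ1)
  have hb : |b₀| ≤ 2 := by
    rw [abs_of_nonneg (by positivity)]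
    linarith [mul_le_mul hs1 hβ2 (sq_nonneg _) zero_le_one]
  have hd2 : |(s + ds) ^ 2 * β ^ 2 - τ - ds * b₀| ≤ ds ^ 2 := by
    rw [show (s + ds) ^ 2 * β ^ 2 - τ - ds * b₀ = ds ^ 2 * β ^ 2 by rw [hτd, hb₀]; ring,
      abs_of_nonneg (by positivity)]
    exact mul_le_of_le_one_right (sq_nonneg _) hβ2
  have hd1 : |(s + ds) ^ 2 * β ^ 2 - τ| ≤ 2 * |ds| := by
    rw [show (s + ds) ^ 2 * β ^ 2 - τ = ds * ((2 * s + ds) * β ^ 2) by rw [hτd]; ring, abs_mul]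
    refine (mul_le_mul_of_nonneg_left (b := |(2 * s + ds) * β ^ 2|) (c := 2) ?_ (abs_nonneg _)).trans_eq
      (mul_comm _ _)
    have h1 : ds ≤ 0 := neg_nonpos.2 (by positivity)
    have h2 : -1 ≤ ds := by linarith [(abs_le.1 hds1).1, pow_le_one₀ (n := 2) ht.le ht1]
    rw [abs_mul, abs_of_nonneg (sq_nonneg β)]
    exact (mul_le_of_le_one_right (abs_nonneg _) hβ2).trans (abs_le.2 ⟨by linarith, by linarith⟩)
  have hm : nrm m ≤ √n := nrm_tv_le a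
  have hm1 : ∀ i, |m i| ≤ 1 := fun i => (abs_tanh_lt_one _).le
  set p := 1 + (Λ + 3) / η with hp
  have hPm : ‖pmat v Y‖ ≤ p := hH.norm_pmat.trans (add_le_add le_rfl (div_le_div_of_nonneg_right
    (norm_yFull_le hK (by rw [abs_of_nonneg hs]; exact hs1) hτ hτ1 hn a) hη.le))
  set R := r + √(n : ℝ) + 1 with hR
  have hR1 : 1 ≤ R := by rw [hR]; linarith [sqrt_nonneg (n : ℝ)]
  set kq := 3 / η ^ 2 + p ^ 2 with hkq
  set Φb := 1 / η * (r + (Λ + 2) * √n + kq * r ^ 2) * R with hΦb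
  have hE : 0 ≤ expandC Λ η C₁ := expandC_nonneg hΛ hη hC₁
  set e₃ := 2 * expandC Λ η C₁ * R ^ 3 with he₃
  set D : Vec n → Vec n := fun g => M k (shiftH Bf t h g) - M (k + 1) h with hD
  set Φ : Vec n → Vec n := fun g => res v Y *ᵥ
    (t • (B.transpose *ᵥ g) + ds • sdir K b₀ m + quadPart τ v m Y (t • (B.transpose *ᵥ g))) with hΦ
  have hD2 : ∀ g, nrm (D g) ≤ 2 * √n := fun g =>
    (nrm_sub_le _ _).trans ((add_le_add (nrm_one_le (hbdd k (shiftH Bf t h g)))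
      (nrm_one_le (hbdd (k + 1) h))).trans_eq (two_mul _).symm)
  have hgood : ∀ g, √t * nrm g ≤ 1 → nrm (D g) ≤ C₁ * R * (t * (1 + nrm g)) ∧
      nrm (D g - Φ g) ≤ t ^ 3 * e₃ * (1 + nrm g) ^ 3 := fun g hg => by
    obtain ⟨a', h1, h2, h3⟩ := hnear g hg
    have hDe : D g = tv a' - tv a := by simp only [hD, h2, hcen, hmd]
    rw [← hdsa] at h3
    have hg2 := good_case (τ := τ) (b₀ := b₀) (g := g) hn (by rw [abs_of_nonneg hs]; exact hs1) hτ hτ1 hK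
      hb hd1 hd2 hds1 hH hC₁ hBn ht ht1 hr (by rw [h1, shiftH_eq, hroot]) h3
    rw [hDe]
    exact ⟨hg2.1.trans_eq (by ring), hg2.2⟩
  have hΦg : ∀ g, nrm (Φ g) ≤ Φb * (1 + nrm g) ^ 2 := fun g =>
    (expansion_le hn hH hτ hτ1 hm hm1 hPm hBn ht.le ht1 (hds1.trans (pow_le_one₀ ht.le ht1))
      (sdir_le hn hK hb hm) hΛ g).trans (mul_le_mul_of_nonneg_right
        (le_mul_of_one_le_right (by positivity) hR1) (by positivity))
  have hΦb0 : 0 ≤ Φb := by rw [hΦb]; positivity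
  have hcut := cutoff ht ht1 (show 0 ≤ e₃ by positivity) hΦb0 hgood hD2 hΦg
  have hmD : ∀ j, Measurable fun g => D g j := fun j =>
    ((measurable_pi_apply j).comp (hmeas.comp (by unfold shiftH; fun_prop))).sub_const _
  have hM0 := momC_pos n
  have hPe : (1 + C₁ ^ 2 * R ^ 2 + 4 * n) * (1024 * momC n)
      + 1024 * momC n * (1 + r * √n) * (e₃ + 2 * √n + Φb)
      + 1 / η * kq * r ^ 2 * (r * √n) * momC n ≤ P := hP
  have hp1 : 0 ≤ 1024 * momC n * (1 + r * √n) * (e₃ + 2 * √n + Φb) := by positivity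
  have hp2 : 0 ≤ 1 / η * kq * r ^ 2 * (r * √n) * momC n := by positivity
  have hp3 : (0 : ℝ) ≤ C₁ ^ 2 * R ^ 2 + 4 * n := by positivity
  refine ⟨?_, fun y hy => ?_⟩
  · have h2 : ∀ g, ∑ j, D g j ^ 2 ≤ t ^ 2 * ((C₁ * R) ^ 2 + 4 * n) * (1 + nrm g) ^ 6 := fun g => by
      rw [← LL.nrm_sq]; exact (hcut g).2
    obtain ⟨i6, e6⟩ := poly_moment (n := n) (k := 6) (by norm_num)
    have iD : Integrable (fun g => ∑ j, D g j ^ 2) (gp (Fin n)) :=
      (i6.const_mul _).mono' (Finset.measurable_sum _ fun j _ => (hmD j).pow_const 2).aestronglyMeasurable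
        (ae_of_all _ fun g => by
          rw [Real.norm_eq_abs, abs_of_nonneg (sum_nonneg fun j _ => sq_nonneg _)]; exact h2 g)
    refine ((integral_mono iD (i6.const_mul _) h2).trans_eq (integral_const_mul _ _)).trans ?_
    refine (mul_le_mul_of_nonneg_left e6 (by positivity)).trans ?_
    have hm1 : 1 ≤ momC n := le_add_of_nonneg_right (mul_nonneg mom10_nonneg (by positivity))
    have hX : (C₁ ^ 2 * R ^ 2 + 4 * n) * (1024 * momC n) ≤ P := by linarith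
    have hX1 : 1 ≤ P := by
      have : (1 : ℝ) ≤ (1 + C₁ ^ 2 * R ^ 2 + 4 * n) * (1024 * momC n) :=
        one_le_mul_of_one_le_of_one_le (by linarith) (by linarith)
      linarith
    rw [mul_pow C₁, mul_assoc, mul_pow P t, mul_comm (P ^ 2)]
    exact mul_le_mul_of_nonneg_left (hX.trans (le_self_pow₀ hX1 two_ne_zero)) (sq_nonneg t)
  · set bv := B *ᵥ y with hbv
    have hB' : ‖B‖ ≤ r := by rw [← LL.norm_transpose B]; exact hBn
    have hbn : nrm bv ≤ r * √n :=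
      (LL.nrm_mulVec _ _).trans (mul_le_mul hB' (nrm_one_le hy) (LL.nrm_nonneg _) hr)
    obtain ⟨iΦ, eΦ⟩ := mean_step (ds := ds) (b := bv) (a₀ := sdir K b₀ m) hn hH hfac hτ hτ1 hm hm1 hPm hBn ht.le
    have hd := weighted_diff (Φ := Φ) ht.le ht1 (show 0 ≤ e₃ + 2 * √n + Φb by positivity)
      (show 0 ≤ r * √n by positivity) hbn hmD hD2 iΦ fun g => (hcut g).1
    have hA' : ‖A‖ ≤ r ^ 2 := by
      rw [← hfac, pow_two]
      exact (norm_mul_le _ _).trans (mul_le_mul hBn hB' (norm_nonneg _) hr)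
    have hmean := target_le (Bt := B.transpose) (bv := bv) (y := y) (β := β) (t := t) hn hH hτ hτ1 hm hds hb₀ hA hA'
      (by rw [hbv, Matrix.mulVec_mulVec, hfac]) hcurv
    set cD := fun j => ∫ g, (1 + t * Vale.Agent.P150.lin bv g) * D g j ∂gp (Fin n)
    set cΦ := fun j => ∫ g, (1 + t * Vale.Agent.P150.lin bv g) * Φ g j ∂gp (Fin n)
    set target := res v Y *ᵥ (t ^ 2 • (B.transpose *ᵥ bv) + ds • sdir K b₀ m + t ^ 2 • quadMean τ v m Y A)
    have hsum : nrm cD ≤ t ^ 3 * (1024 * momC n * (1 + r * √n) * (e₃ + 2 * √n + Φb))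
        + (1 / η * kq * r ^ 2 * nrm bv * momC n * t ^ 3
          + t ^ 2 * (1 / η) * (r ^ 2 * nrm (y - m) + ρ₀ + 2 * r ^ 2 / η ^ 2)) := by
      have e : cD = (cD - cΦ) + ((cΦ - target) + target) := by abel
      rw [e]
      exact (LL.nrm_add _ _).trans (add_le_add hd ((LL.nrm_add _ _).trans (add_le_add eΦ hmean)))
    have hbb : 1 / η * kq * r ^ 2 * nrm bv * momC n * t ^ 3
        ≤ 1 / η * kq * r ^ 2 * (r * √n) * momC n * t ^ 3 :=
      mul_le_mul_of_nonneg_right (mul_le_mul_of_nonneg_right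
        (mul_le_mul_of_nonneg_left hbn (by positivity)) hM0.le) (by positivity)
    have hym : nrm (y - m) = eno (fun j => y j - M (k + 1) h j) := by rw [hcen]; rfl
    rw [← hym]
    show nrm cD ≤ _
    refine hsum.trans ?_
    have h1 : t ^ 2 * (1 / η) * (r ^ 2 * nrm (y - m) + ρ₀ + 2 * r ^ 2 / η ^ 2)
        ≤ t ^ 2 * (L * nrm (y - m) + ρ) := by
      rw [mul_assoc, add_assoc, mul_add (1 / η), ← mul_assoc (1 / η)]
      refine mul_le_mul_of_nonneg_left (add_le_add (mul_le_mul_of_nonneg_right ?_ (LL.nrm_nonneg _)) hρ)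
        (sq_nonneg t)
      rw [one_div, inv_mul_eq_div]; exact hL
    have h2 : t ^ 3 * (1024 * momC n * (1 + r * √n) * (e₃ + 2 * √n + Φb))
        + 1 / η * kq * r ^ 2 * (r * √n) * momC n * t ^ 3 ≤ P * t ^ 3 := by
      rw [mul_comm (t ^ 3), ← add_mul]
      exact mul_le_mul_of_nonneg_right (by
        linarith [show 0 ≤ (1 + C₁ ^ 2 * R ^ 2 + 4 * n) * (1024 * momC n) by positivity]) (by positivity)
    linarith

end Vale.Agent.P150.Fast.StepC
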