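import Vale.Agent.P150.Fast.GaussTail
import Vale.Agent.P150.Fast.GoeNorm
import Vale.Agent.P150.Fast.Dom.LogDet
import Vale.Agent.P150.Fast.LogDetMat
import Vale.Agent.P150.Fast.Step.AmpCtr
import Vale.Agent.P150.Fast.Step.Centres

/-!
Tools of the assembly of the nodes (P150): the factor of the channel, large fields of the nodes,
and the growth of the error of a step.
-/

open MeasureTheory Real Finset Filter
open scoped Matrix Matrix.Norms.L2Operator

namespace Vale.Agent.P150.Fast.StepC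

open LL (nrm)

variable {n : ℕ}

theorem nrm_gauss_tail (n : ℕ) :
    (gp (Fin n)).real {g | 2 * √n < nrm g} ≤ exp (-(2 / π ^ 2 * n)) := by
  have key : ∀ g h : Fin n → ℝ, nrm g - nrm h ≤ nrm (g - h) := fun g h => by
    have := LL.nrm_add (g - h) h; rw [sub_add_cancel] at this; linarith
  have h := gaussTail _ (fun g : Fin n → ℝ => nrm g) 1 one_pos (fun g h => by
    rw [one_mul, abs_sub_le_iff]
    refine ⟨key g h, (key h g).trans_eq ?_⟩
    rw [← neg_sub g h, LL.nrm_neg]; rfl) (√n) (sqrt_nonneg _)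
  refine le_trans (measureReal_mono (fun g hg => ?_) (measure_ne_top _ _)) (h.trans_eq ?_)
  · have hm := (Edge.mean_norm_le (ι := Fin n)).2
    rw [Fintype.card_fin] at hm
    simp only [Set.mem_ofPred_eq] at hg ⊢
    exact le_of_lt (lt_of_le_of_lt (by simp only [LL.nrm]; linarith) hg)
  · rw [sq_sqrt (Nat.cast_nonneg n)]; ring_nf

/-- The factor of the channel. -/
theorem exists_factor {β Λ η₀ r : ℝ} {d : Dis n} (hβ : 0 ≤ β) (hη₀ : η₀ < 1)
    (hform : ∀ v, |Ent.qform (kmat n β d) v| ≤ (2 * β + η₀) * ∑ i, v i ^ 2) (hK : ‖kmat n β d‖ ≤ Λ)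
    (hr : Λ + shift β ≤ r ^ 2) (hr0 : 0 ≤ r) :
    ∃ B : Fin n → Fin n → ℝ, (Matrix.of B).transpose * Matrix.of B = aop n β d ∧
      ‖(Matrix.of B).transpose‖ ≤ r ∧
      (∀ v : Vec n, ∑ u, bvec B v u ^ 2 = Ent.qform (aop n β d) v) ∧
      ∀ v : Vec n, Ent.qform (aop n β d) v ≤ (Λ + shift β) * ∑ j, v j ^ 2 := by
  have hP : (aop n β d).PosDef := Dom.posDef_of_margin (ν := 1 - η₀) (by linarith) fun v => by
    rw [Dom.aop_dot, shift]
    linarith [(abs_le.1 (hform v)).1]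
  obtain ⟨C, hCs, hCC, -⟩ := exists_sqrt_root hP
  have e : (Matrix.of fun i j => C i j : Matrix (Fin n) (Fin n) ℝ) = C := rfl
  have hA := LL.norm_aop_le hβ hK
  refine ⟨fun i j => C i j, by rw [e, hCs.eq, hCC], ?_, fun v => ?_, fun v => ?_⟩
  · rw [e, LL.norm_transpose]
    refine (pow_le_pow_iff_left₀ (norm_nonneg _) hr0 two_ne_zero).1 (le_trans (le_of_eq ?_) (hA.trans hr))
    rw [← hCC, pow_two, ← CStarRing.norm_star_mul_self, Matrix.star_eq_conjTranspose,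
      Matrix.conjTranspose_eq_transpose_of_trivial, hCs.eq]
  · rw [← hCC, ← LL.dot_mulVec_eq, ← Matrix.mulVec_mulVec, Matrix.dotProduct_mulVec,
      ← Matrix.mulVec_transpose, hCs.eq]
    simp only [dotProduct, Matrix.mulVec, pow_two, bvec]
  · rw [← LL.dot_mulVec_eq]
    refine (le_abs_self _).trans ((abs_dot_le _ _).trans ?_)
    rw [← LL.nrm_sq, pow_two, mul_left_comm]
    exact mul_le_mul_of_nonneg_left ((LL.nrm_mulVec _ _).trans
      (mul_le_mul_of_nonneg_right hA (LL.nrm_nonneg _))) (LL.nrm_nonneg _)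

theorem nrm_vec (x : Conf n) : nrm (vec x) ≤ √n := nrm_one_le fun j => (abs_spin _).le

/-- A strong side field is large. -/
theorem large_side {u U : ℝ} (hU : 1 ≤ U) (hu0 : U / 2 ≤ u) (hu1 : u ≤ U) (x : Conf n) {g : Vec n}
    (hg : nrm g ≤ 2 * √n) : Large (sideField u x g) (U / 4) (64 / U) := by
  have hUh : (0 : ℝ) < U / 2 := by linarith
  have hw : nrm (√u • g) ≤ (2 * √U) * √n := by
    refine (nrm_smul_le (C := √U) ?_ hg).trans_eq (by ring)
    rw [abs_of_nonneg (sqrt_nonneg _)]; exact sqrt_le_sqrt hu1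
  have h := large_of_split (h := sideField u x g) hUh hw fun i => by
    have e : sideField u x g i - (√u • g) i = u * spin (x i) := by simp [sideField, vec]
    rw [e, abs_mul, abs_spin, mul_one, abs_of_nonneg (by linarith)]
    exact hu0
  have e : 4 * (2 * √U) ^ 2 / (U / 2) ^ 2 = 64 / U := by
    rw [mul_pow, sq_sqrt (by linarith)]
    field_simp
    ring
  rw [e, show U / 2 / 2 = U / 4 by ring] at h
  exact h

/-- The nodes below the switch see large fields. -/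
theorem large_node {β Λ r : ℝ} {d : Dis n} {B : Fin n → Fin n → ℝ} {U N i : ℕ} (hβ : 0 ≤ β) (hU : 1 ≤ U)
    (hN : 1 ≤ N) (hi : i ≤ N ^ 2) (hK : ‖kmat n β d‖ ≤ Λ) (hB : ‖(Matrix.of B).transpose‖ ≤ r)
    (x : Conf n) {g₁ g₂ : Vec n} (h₁ : nrm g₁ ≤ 2 * √n) (h₂ : nrm g₂ ≤ 2 * √n) :
    Large (nodeField β d B U N i x g₁ g₂) ((U : ℝ) / 2)
      (4 * (2 * √(U : ℝ) + (Λ + shift β) + 2 * r) ^ 2 / (U : ℝ) ^ 2) := by
  have hU0 : (0 : ℝ) < U := by exact_mod_cast hU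
  have hN0 : (0 : ℝ) < N := by exact_mod_cast hN
  have hΛ : 0 ≤ Λ := (norm_nonneg _).trans hK
  have hr : 0 ≤ r := (norm_nonneg _).trans hB
  have hsh : 0 ≤ Λ + shift β := by rw [shift]; linarith
  set s := (i : ℝ) / (N : ℝ) ^ 2
  have hs : |s| ≤ 1 := by
    rw [abs_of_nonneg (by positivity)]
    exact div_le_one_of_le₀ (by exact_mod_cast hi) (sq_nonneg _)
  have hs2 : |√(i : ℝ) / N| ≤ 1 := by
    rw [abs_of_nonneg (by positivity)]
    refine div_le_one_of_le₀ ?_ hN0.le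
    rw [← sqrt_sq hN0.le]
    exact sqrt_le_sqrt (by exact_mod_cast hi)
  set w : Vec n := √(U : ℝ) • g₁ + s • (aop n β d *ᵥ vec x) + (√(i : ℝ) / N) • ((Matrix.of B).transpose *ᵥ g₂)
    with hw'
  have hw : nrm w ≤ (2 * √(U : ℝ) + (Λ + shift β) + 2 * r) * √n := by
    refine ((LL.nrm_add _ _).trans (add_le_add ((LL.nrm_add _ _).trans (add_le_add
      (nrm_smul_le (abs_of_nonneg (sqrt_nonneg (U : ℝ))).le h₁)
      (nrm_smul_le hs ((LL.nrm_mulVec _ _).trans (mul_le_mul (LL.norm_aop_le hβ hK) (nrm_vec x)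
        (LL.nrm_nonneg _) hsh)))))
      (nrm_smul_le hs2 ((LL.nrm_mulVec _ _).trans (mul_le_mul hB h₂ (LL.nrm_nonneg _) hr))))).trans_eq ?_
    ring
  refine large_of_split hU0 hw fun j => ?_
  have e : nodeField β d B U N i x g₁ g₂ j - w j = U * spin (x j) := by
    simp only [nodeField, sideField, hw', Pi.add_apply, Pi.smul_apply, smul_eq_mul, Matrix.mulVec,
      dotProduct, Matrix.transpose_apply, Matrix.of_apply, vec, s]
    simp only [mul_comm (g₂ _)]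
    ring
  rw [e, abs_mul, abs_spin, mul_one, abs_of_nonneg hU0.le]

theorem stepPoly_le {Λ η C₁ r : ℝ} (hΛ : 0 ≤ Λ) (hη : 0 < η) (hC₁ : 0 ≤ C₁) (hr : 0 ≤ r) :
    ∃ D : ℝ, 0 ≤ D ∧ ∀ n : ℕ, 1 ≤ n → stepPoly n Λ η C₁ r ≤ D * (n : ℝ) ^ 10 := by
  set p := 1 + (Λ + 3) / η with hp
  set a := 1 / η * (3 / η ^ 2 + p ^ 2) * r ^ 2 with ha
  set b := 1 / η * (r + (Λ + 2) + (3 / η ^ 2 + p ^ 2) * r ^ 2) * (r + 2) with hb
  have hE := expandC_nonneg hΛ hη hC₁
  set m := 1 + mom10 with hm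
  have hm0 : 0 ≤ m := by have := mom10_nonneg; positivity
  refine ⟨(1 + C₁ ^ 2 * (r + 2) ^ 2 + 4) * (1024 * m)
    + 1024 * m * (1 + r) * (2 * expandC Λ η C₁ * (r + 2) ^ 3 + 2 + b) + a * r * m,
    by positivity, fun n hn => ?_⟩
  set X := (n : ℝ)
  have hX : 1 ≤ X := by simp only [X]; exact_mod_cast hn
  have hsX : √(n : ℝ) ≤ X := by
    rw [sqrt_le_left (by linarith)]; exact le_self_pow₀ hX two_ne_zero
  have hs0 : 0 ≤ √(n : ℝ) := sqrt_nonneg _
  set R := r + √(n : ℝ) + 1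
  have hR : R ≤ (r + 2) * X := by
    simp only [R]; nlinarith
  have hR0 : 0 ≤ R := by positivity
  have hM : momC n ≤ m * X ^ 5 := by
    have := mom10_nonneg
    simp only [momC, hm, X]
    linarith [one_le_pow₀ hX (n := 5)]
  have hM0 := (momC_pos n).le
  have hX0 : (0 : ℝ) ≤ X := by linarith
  have hP : (1 + C₁ ^ 2 * R ^ 2 + 4 * X) ≤ (1 + C₁ ^ 2 * (r + 2) ^ 2 + 4) * X ^ 2 := by
    nlinarith [mul_le_mul_of_nonneg_left (pow_le_pow_left₀ hR0 hR 2) (sq_nonneg C₁)]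
  have hQ : 1 + r * √(n : ℝ) ≤ (1 + r) * X := by nlinarith
  have hΦ : 1 / η * (r + (Λ + 2) * √(n : ℝ) + (3 / η ^ 2 + p ^ 2) * r ^ 2) * R ≤ b * X ^ 2 := by
    have h1 : r + (Λ + 2) * √(n : ℝ) + (3 / η ^ 2 + p ^ 2) * r ^ 2
        ≤ (r + (Λ + 2) + (3 / η ^ 2 + p ^ 2) * r ^ 2) * X := by
      nlinarith [mul_nonneg (show 0 ≤ (3 / η ^ 2 + p ^ 2) * r ^ 2 by positivity) (sub_nonneg.2 hX)]
    refine (mul_le_mul (mul_le_mul_of_nonneg_left h1 (by positivity)) hR hR0 (by positivity)).trans_eq ?_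
    rw [hb]; ring
  have hS : 2 * expandC Λ η C₁ * R ^ 3 + 2 * √(n : ℝ)
      + 1 / η * (r + (Λ + 2) * √(n : ℝ) + (3 / η ^ 2 + p ^ 2) * r ^ 2) * R
      ≤ (2 * expandC Λ η C₁ * (r + 2) ^ 3 + 2 + b) * X ^ 3 := by
    have h1 := mul_le_mul_of_nonneg_left (pow_le_pow_left₀ hR0 hR 3) (mul_nonneg zero_le_two hE)
    have h2 : X ≤ X ^ 3 := le_self_pow₀ hX three_ne_zero
    have h3 : b * X ^ 2 ≤ b * X ^ 3 :=
      mul_le_mul_of_nonneg_left (pow_le_pow_right₀ hX (by norm_num)) (by positivity)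
    linarith
  have t1 : (1 + C₁ ^ 2 * R ^ 2 + 4 * X) * (1024 * momC n)
      ≤ (1 + C₁ ^ 2 * (r + 2) ^ 2 + 4) * (1024 * m) * X ^ 10 := by
    refine (mul_le_mul hP (mul_le_mul_of_nonneg_left hM (by norm_num)) (by positivity) (by positivity)).trans ?_
    rw [show (1 + C₁ ^ 2 * (r + 2) ^ 2 + 4) * X ^ 2 * (1024 * (m * X ^ 5))
      = (1 + C₁ ^ 2 * (r + 2) ^ 2 + 4) * (1024 * m) * X ^ 7 by ring]
    exact mul_le_mul_of_nonneg_left (pow_le_pow_right₀ hX (by norm_num)) (by positivity)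
  have t2 : 1024 * momC n * (1 + r * √(n : ℝ)) * (2 * expandC Λ η C₁ * R ^ 3 + 2 * √(n : ℝ)
      + 1 / η * (r + (Λ + 2) * √(n : ℝ) + (3 / η ^ 2 + p ^ 2) * r ^ 2) * R)
      ≤ 1024 * m * (1 + r) * (2 * expandC Λ η C₁ * (r + 2) ^ 3 + 2 + b) * X ^ 10 := by
    refine (mul_le_mul (mul_le_mul (mul_le_mul_of_nonneg_left hM (by norm_num)) hQ (by positivity)
      (by positivity)) hS (by positivity) (by positivity)).trans ?_
    rw [show 1024 * (m * X ^ 5) * ((1 + r) * X) * ((2 * expandC Λ η C₁ * (r + 2) ^ 3 + 2 + b) * X ^ 3)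
      = 1024 * m * (1 + r) * (2 * expandC Λ η C₁ * (r + 2) ^ 3 + 2 + b) * X ^ 9 by ring]
    exact mul_le_mul_of_nonneg_left (pow_le_pow_right₀ hX (by norm_num)) (by positivity)
  have t3 : a * (r * √(n : ℝ)) * momC n ≤ a * r * m * X ^ 10 := by
    refine (mul_le_mul (mul_le_mul_of_nonneg_left (mul_le_mul_of_nonneg_left hsX hr) (by positivity)) hM hM0
      (by positivity)).trans ?_
    rw [show a * (r * X) * (m * X ^ 5) = a * r * m * X ^ 6 by ring]
    exact mul_le_mul_of_nonneg_left (pow_le_pow_right₀ hX (by norm_num)) (by positivity)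
  exact le_of_le_of_eq (add_le_add (add_le_add t1 t2) t3) (by ring)

theorem eventually_poly_le {D c : ℝ} (hc : 0 < c) (k : ℕ) :
    ∀ᶠ n : ℕ in atTop, D * (n : ℝ) ^ k ≤ exp (c * n) := by
  have h := ((Real.tendsto_pow_mul_exp_neg_atTop_nhds_zero k).comp
    (tendsto_natCast_atTop_atTop.const_mul_atTop hc)).const_mul (D / c ^ k)
  rw [mul_zero] at h
  filter_upwards [h.eventually (eventually_le_nhds one_pos)] with n hn
  simp only [Function.comp_apply] at hn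
  have he := exp_pos (c * n)
  rw [mul_pow, exp_neg, show D / c ^ k * (c ^ k * (n : ℝ) ^ k * (exp (c * n))⁻¹)
    = D * (n : ℝ) ^ k / exp (c * n) by field_simp, div_le_one he] at hn
  exact hn

theorem eventually_exp_le {a c : ℝ} (hc : 0 < c) (ha : 0 < a) :
    ∀ᶠ n : ℕ in atTop, exp (-(c * n)) ≤ a := by
  filter_upwards [eventually_poly_le (D := a⁻¹) hc 0] with n hn
  rw [pow_zero, mul_one] at hn
  rw [exp_neg]
  exact inv_le_of_inv_le₀ ha hn

end Vale.Agent.P150.Fast.StepC
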